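import Vale.Agent.P073Y.Wb.Sk
import Vale.Agent.P073Y.Bd.Bas
import Vale.Agent.P073Z.RCX

/-!
# The bands of the new arcs in the faces
-/

open Set Metric Topology Filter
open scoped NNReal

namespace P073.Wb

open P073.Bd (Band I Match Comm FACEM bas)

namespace FacesAux

variable {X : Base} {c₀ : ℝ≥0} {Fr : Frame X c₀} {D : X.ι → Set E3}

/-- the properties of one band -/
def One (T : Trace Fr D) (φ : X.K.ι) (a : T.α) (b : Band E3) : Prop :=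
  (b.Ok ∧ b.In (X.K.cell φ)) ∧ IsArc b.W (T.p a) (T.q a) ∧
  b.B ∩ X.K.bd φ = (Fr.z (T.p a)).half.B ∪ (Fr.z (T.q a)).half.B ∧
  (Match (Fr.z (T.p a)).half b ∧ Match (Fr.z (T.q a)).half b) ∧
  (X.K.cell φ ⊆ X.U → b = (Fr.nb (T.lab a)).restr (X.K.cell φ) (T.A a) ∧ b.W = T.A a) ∧
  LipschitzOnWith (X.L φ) b.u b.B

/-- the properties of two bands in one face -/
def Two (T : Trace Fr D) (φ : X.K.ι) (a a' : T.α) (b b' : Band E3) : Prop :=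
  Comm b b' ∧ (Disjoint (T.A a) (T.A a') → Disjoint b.B b'.B) ∧
  (¬ X.K.cell φ ⊆ X.U → (b.W ∩ b'.W).Subsingleton)

theorem vertex {φ : X.K.ι} (h : X.K.dim φ = 2) : ∃ x ∈ X.K.bd φ, x ∈ X.K.skel 0 := by
  obtain ⟨-, ψ, hψ⟩ : ConBall 2 (X.K.cell φ) (X.K.bd φ) := h ▸ X.K.ball φ
  have h1 : (sphere (0 : Fin 2 → ℝ) 1).Nonempty := NormedSpace.sphere_nonempty.2 zero_le_one
  obtain ⟨x, hx⟩ := (hψ ▸ h1).of_image
  obtain ⟨j, h2, h3, h4⟩ := X.K.exists_face_bd hx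
  by_cases h5 : X.K.dim j = 0
  · exact ⟨x, hx, X.K.cell_subset_skel h5.le h2.1⟩
  · obtain ⟨p, q, i, -, h6, -, h7, -, h8, -⟩ := X.K.exists_edge (i := j) (by omega)
    exact ⟨p, h3 h6.left_mem, X.K.cell_subset_skel h7.le (h8 ▸ mem_singleton p)⟩

/-- the ends of an arc -/
theorem ends (hS : State Fr D) (T : Trace Fr D) {a : T.α} {y : E3}
    (hy : y ∈ ({T.p a, T.q a} : Set E3)) :
    y ∈ T.A a ∧ y ∈ X.K.bd (T.face a) ∧ y ∈ X.K.skel 1 ∧ y ∈ Fr.P := by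
  have h1 : y ∈ T.A a ∩ X.K.bd (T.face a) := T.ends a ▸ hy
  have h2 : y ∈ X.K.skel 1 := X.K.bd_subset_skel (T.dim_face a).le h1.2
  exact ⟨h1.1, h1.2, h2, hS.wire _ ⟨(T.sub a h1.1).1, h2⟩⟩

theorem ends_disj (hS : State Fr D) (T : Trace Fr D) {a a' : T.α} (h : a ≠ a')
    (hf : T.face a = T.face a') : Disjoint ({T.p a, T.q a} : Set E3) {T.p a', T.q a'} := by
  refine disjoint_left.2 fun y h1 h2 => ?_
  have e1 := ends hS T h1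
  have e2 := ends hS T h2
  by_cases hl : T.lab a = T.lab a'
  · exact disjoint_left.1 (T.disj a a' h hf hl) e1.1 e2.1
  · exact disjoint_left.1 (hS.wire_disj _ _ hl) ⟨(T.sub a e1.1).1, (T.sub a' e2.1).1⟩ e1.2.2.1

/-- the zone of a point on the boundary of a face -/
theorem zone {φ : X.K.ι} (h : X.K.dim φ = 2) {y : E3} (hP : y ∈ Fr.P) (hy : y ∈ X.K.bd φ) :
    (Fr.z y).Ok ∧ (Fr.z y).In (X.K.bd φ) ∧ (Fr.z y).W = {y} ∧
      (∀ x ∈ X.K.skel 0, x ∉ (Fr.z y).B) ∧ LipschitzOnWith (X.L₀ φ) (Fr.z y).u (Fr.z y).B := by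
  obtain ⟨e, h1, h2, h3, h4, h5, h6⟩ := Fr.wire y hP
  have h7 : y ∈ (Fr.z y).W := h5 ▸ mem_singleton y
  have h8 := X.K.subset_bd_of_mem (h4 h7.1) hy
  refine ⟨h2, ⟨h3.1.trans h8, fun x hx hu => nhdsWithin_le_of_mem ?_ (h3.2 x hx hu)⟩, h5,
    fun x hx hB => ?_, h6.weaken (X.L_le φ e h8 (by omega))⟩
  · refine (X.K.sub_bd φ).cell_mem_nhdsWithin (h4 hx) fun i hi _ => ?_
    have := X.K.dim_lt hi
    omega
  · have := (X.K.mem_skel_iff_dim (h4 hB)).1 hx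
    omega

theorem free (h : FACEM c₀) (hS : State Fr D) (T : Trace Fr D) {φ : X.K.ι} (hd : X.K.dim φ = 2)
    (hU : ¬ X.K.cell φ ⊆ X.U) : ∃ β : {a // T.face a = φ} → Band E3,
    (∀ k, One T φ k.1 (β k)) ∧ ∀ k l, k ≠ l → Two T φ k.1 l.1 (β k) (β l) := by
  have := T.finα
  obtain ⟨x₀, hx₀, hx₁⟩ := vertex hd
  have he : ∀ k : {a // T.face a = φ}, ∀ y ∈ ({T.p k.1, T.q k.1} : Set E3),
      y ∈ Fr.P ∧ y ∈ X.K.bd φ := fun k y hy =>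
    ⟨(ends hS T hy).2.2.2, k.2 ▸ (ends hS T hy).2.1⟩
  have hj : ∀ k l : {a // T.face a = φ}, k ≠ l →
      Disjoint ({T.p k.1, T.q k.1} : Set E3) {T.p l.1, T.q l.1} := fun k l hkl =>
    ends_disj hS T (fun e => hkl (Subtype.ext e)) (k.2.trans l.2.symm)
  obtain ⟨β, h1, h2⟩ := h (κ := {a // T.face a = φ}) (C := X.K.cell φ) (S := X.K.bd φ)
    (L := X.L₀ φ) (fun k => T.A k.1) (fun k => T.p k.1) (fun k => T.q k.1) Fr.z (x₀ := x₀)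
    (hd ▸ X.chart φ hd.ge)
    (fun k => by
      obtain ⟨a, rfl⟩ := k
      exact ⟨T.arc a, fun x hx => (T.sub a hx).2, T.ends a⟩) hj
    (fun k y hy => by
      obtain ⟨z1, z2, z3, z4, z5⟩ := zone hd (he k y hy).1 (he k y hy).2
      exact ⟨z1, z2, z3, z4 x₀ hx₁, z5⟩)
    (fun k l y hy y' hy' hne => Fr.zdisj y (he k y hy).1 y' (he l y' hy').1 hne) hx₀
  have hc : Nat.card {a // T.face a = φ} ≤ (Fr.P ∩ X.K.cell φ).ncard := by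
    have : Finite ↥(Fr.P ∩ X.K.cell φ) := Fr.Pfin.subset inter_subset_left
    refine Nat.card_le_card_of_injective (β := ↥(Fr.P ∩ X.K.cell φ)) (fun k => ⟨T.p k.1,
      (he k _ (Or.inl rfl)).1, X.K.bd_subset φ (he k _ (Or.inl rfl)).2⟩) fun k l e => ?_
    by_contra hkl
    exact disjoint_left.1 (hj k l hkl) (Or.inl rfl) (Or.inl (congrArg Subtype.val e))
  refine ⟨β, fun k => ?_, fun k l hkl => ⟨(h2 k l hkl).1, (h2 k l hkl).2.1, fun _ =>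
    (h2 k l hkl).2.2⟩⟩
  obtain ⟨a1, a2, a3, a4, a5, a6⟩ := h1 k
  refine ⟨⟨a1.ok, (bas E3).on_in a1⟩, a2, a3, ⟨a4, a5⟩, fun h' => absurd h' hU,
    (a6.mono a1.sub).weaken (le_trans ?_ (Fr.L_ge φ hd.ge hU))⟩
  gcongr

theorem zero_mem : (0 : ℝ) ∈ I := ⟨by norm_num, by norm_num⟩

/-- the foot of a point of a zone -/
theorem foot {i : X.ι} {x y : E3} (hy : y ∈ Fr.P ∩ (Fr.nb i).W) (hx : x ∈ (Fr.z y).half.B) :
    (Fr.nb i).M (x, 0) = y := by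
  obtain ⟨h1, h2⟩ := Fr.nb_match i y hy
  obtain ⟨ε, -, -, h3⟩ := h2 x hx (h1 hx)
  obtain ⟨e, -, h4, -, -, h5, -⟩ := Fr.wire y hy.1
  have h6 := h3 0 zero_mem
  have h7 : (Fr.z y).half.M (x, 0) ∈ (Fr.z y).half.W := ((bas E3).half_ok h4).Mmem x hx 0 zero_mem
  rw [(bas E3).half_W, h5, ← h6, mul_zero] at h7
  exact h7

theorem sub_W (hS : State Fr D) (T : Trace Fr D) {a : T.α} (hU : X.K.cell (T.face a) ⊆ X.U) :
    T.A a ⊆ (Fr.nb (T.lab a)).W ∩ X.K.cell (T.face a) := fun _ hx =>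
  ⟨hS.frozen _ ▸ ⟨(T.sub a hx).1, hU (T.sub a hx).2⟩, (T.sub a hx).2⟩

theorem rest_closed (hS : State Fr D) (T : Trace Fr D) {a : T.α}
    (hU : X.K.cell (T.face a) ⊆ X.U) :
    IsClosed (((Fr.nb (T.lab a)).W ∩ X.K.cell (T.face a)) \ T.A a) := by
  have := T.finα
  have e : ((Fr.nb (T.lab a)).W ∩ X.K.cell (T.face a)) \ T.A a =
      ⋃ k : {a' // a' ≠ a ∧ T.face a' = T.face a ∧ T.lab a' = T.lab a}, T.A k.1 := by
    refine Subset.antisymm (fun x hx => ?_) (iUnion_subset fun k x hx => ?_)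
    · have h1 : x ∈ D (T.lab a) ∩ X.U := hS.frozen _ ▸ hx.1.1
      obtain ⟨a₀, h2, h3⟩ := T.full (T.lab a) x ⟨{x}, singleton_subset_iff.2
        ⟨h1.1, mem_biUnion (T.dim_face a) hx.1.2⟩, isPreconnected_singleton, rfl, x, rfl, h1.2⟩
      obtain ⟨a', h4, h5, h6⟩ := T.sat a₀ _ (T.dim_face a) x h3 hx.1.2
      exact mem_iUnion.2 ⟨⟨a', fun e => hx.2 (e ▸ h6), h4, h5.trans h2⟩, h6⟩
    · obtain ⟨a', h1, h2, h3⟩ := k
      have h4 := sub_W hS T (a := a') (h2.symm ▸ hU) hx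
      rw [h2, h3] at h4
      exact ⟨h4, disjoint_left.1 (T.disj a' a h1 h2 h3) hx⟩
  rw [e]
  exact isClosed_iUnion_of_finite fun k => (T.arc k.1).isClosed

theorem one (hS : State Fr D) (T : Trace Fr D) {a : T.α} (hU : X.K.cell (T.face a) ⊆ X.U) :
    One T (T.face a) a ((Fr.nb (T.lab a)).restr (X.K.cell (T.face a)) (T.A a)) := by
  obtain ⟨r1, r2, r3⟩ := (bas E3).restr (Fr.nb_on _).ok ((bas E3).on_in (Fr.nb_on (T.lab a))) hU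
    (X.K.isCompact_cell _) (X.K.locCone_cell _) (Fr.nb_keep _ _) (sub_W hS T hU)
    (T.arc a).isCompact (T.arc a).conBall.locCone (rest_closed hS T hU)
  have he : ∀ y ∈ ({T.p a, T.q a} : Set E3), y ∈ Fr.P ∩ (Fr.nb (T.lab a)).W := fun y hy =>
    ⟨(ends hS T hy).2.2.2, (sub_W hS T hU (ends hS T hy).1).1⟩
  have hz : ∀ y ∈ ({T.p a, T.q a} : Set E3), (Fr.z y).half.B ⊆
      ((Fr.nb (T.lab a)).restr (X.K.cell (T.face a)) (T.A a)).B ∩ X.K.bd (T.face a) := by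
    intro y hy x hx
    have h1 := (zone (T.dim_face a) (he y hy).1 (ends hS T hy).2.1).2.1.1 hx.1
    refine ⟨⟨⟨(Fr.nb_match _ y (he y hy)).1 hx, X.K.bd_subset _ h1⟩, ?_⟩, h1⟩
    rw [foot (he y hy) hx]
    exact (ends hS T hy).1
  refine ⟨⟨r1, r2⟩, r3.symm ▸ T.arc a, Subset.antisymm (fun x hx => ?_)
    (union_subset (hz _ (Or.inl rfl)) (hz _ (Or.inr rfl))),
    ⟨fun x hx hx' => (Fr.nb_match _ _ (he _ (Or.inl rfl))).2 x hx hx'.1.1,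
      fun x hx hx' => (Fr.nb_match _ _ (he _ (Or.inr rfl))).2 x hx hx'.1.1⟩,
    fun _ => ⟨rfl, r3⟩, (Fr.nb_lip _ _ (T.dim_face a) hU).mono fun x hx => hx.1⟩
  obtain ⟨y, hy, hx'⟩ := Fr.nb_wire _ x ⟨hx.1.1.1, X.K.bd_subset_skel (T.dim_face a).le hx.2⟩
  have h1 : y ∈ T.A a := foot hy hx' ▸ hx.1.2
  obtain ⟨e, h2, -, -, h3, h4, -⟩ := Fr.wire y hy.1
  have h5 : y ∈ (Fr.z y).W := h4 ▸ mem_singleton y
  have h6 : y ∈ T.A a ∩ X.K.bd (T.face a) := ⟨h1, X.K.cell_inter_skel (k := 1) (T.dim_face a) ▸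
    ⟨(T.sub a h1).2, X.K.cell_subset_skel h2.le (h3 h5.1).1⟩⟩
  rw [T.ends a] at h6
  rcases h6 with rfl | rfl
  exacts [Or.inl hx', Or.inr hx']

/-- the moves of another wall keep the arc -/
theorem path (hS : State Fr D) (T : Trace Fr D) {a : T.α} (hU : X.K.cell (T.face a) ⊆ X.U)
    {i : X.ι} (hi : i ≠ T.lab a) {y : E3} (hy : y ∈ (Fr.nb i).B)
    (hW : y ∈ (Fr.nb (T.lab a)).W ∩ X.K.cell (T.face a)) {s : ℝ} (hs : s ∈ I) :
    (Fr.nb i).M (y, s) ∈ T.A a ↔ y ∈ T.A a := by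
  have ok := (Fr.nb_on i).ok
  have hp : IsPreconnected ((fun t : ℝ => (Fr.nb i).M (y, t)) '' I) := isPreconnected_Icc.image _
    (ok.Mpl.1.comp (continuousOn_const.prodMk continuousOn_id) fun t ht => ⟨hy, ht⟩)
  have h0 : y ∈ (fun t : ℝ => (Fr.nb i).M (y, t)) '' I := ⟨_, ok.urange y hy, ok.Mid y hy⟩
  rcases isPreconnected_iff_subset_of_disjoint_closed.1 hp _ _ (T.arc a).isClosed
    (rest_closed hS T hU) (by
      rintro _ ⟨t, ht, rfl⟩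
      obtain ⟨c1, c2⟩ := Fr.nb_comm i _ hi y hy t ht
      exact (em _).imp id fun h => ⟨⟨⟨c1.2 hW.1.1, (c2 hW.1.1).1.trans hW.1.2⟩,
        Fr.nb_keep i _ y hy t ht hW.2⟩, h⟩)
    (eq_empty_of_forall_notMem fun x hx => hx.2.2.2 hx.2.1) with h | h
  · exact iff_of_true (h ⟨s, hs, rfl⟩) (h h0)
  · exact iff_of_false (h ⟨s, hs, rfl⟩).2 (h h0).2

theorem comm (hS : State Fr D) (T : Trace Fr D) {a : T.α} (hU : X.K.cell (T.face a) ⊆ X.U)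
    {i : X.ι} (hi : i ≠ T.lab a) (V : Set E3) : Comm ((Fr.nb i).restr (X.K.cell (T.face a)) V)
      ((Fr.nb (T.lab a)).restr (X.K.cell (T.face a)) (T.A a)) := by
  intro x hx s hs
  obtain ⟨c1, c2⟩ := Fr.nb_comm i _ hi x hx.1.1 s hs
  have key : x ∈ (Fr.nb (T.lab a)).B → ((Fr.nb (T.lab a)).M ((Fr.nb i).M (x, s), 0) ∈ T.A a ↔
      (Fr.nb (T.lab a)).M (x, 0) ∈ T.A a) := fun h => by
    rw [(c2 h).2 0 zero_mem]
    exact path hS T hU hi ((Fr.nb_comm _ i hi.symm x h 0 zero_mem).1.2 hx.1.1)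
      ⟨(Fr.nb_on _).ok.Mmem x h 0 zero_mem, Fr.nb_keep _ _ x h 0 zero_mem hx.1.2⟩ hs
  exact ⟨⟨fun h => ⟨⟨c1.1 h.1.1, hx.1.2⟩, (key (c1.1 h.1.1)).1 h.2⟩, fun h =>
    ⟨⟨c1.2 h.1.1, Fr.nb_keep i _ x hx.1.1 s hs hx.1.2⟩, (key h.1.1).2 h.2⟩⟩, fun h => c2 h.1.1⟩

theorem two (hS : State Fr D) (T : Trace Fr D) {a a' : T.α} (hU : X.K.cell (T.face a) ⊆ X.U)
    (h : a ≠ a') (hf : T.face a' = T.face a) :
    Two T (T.face a) a a' ((Fr.nb (T.lab a)).restr (X.K.cell (T.face a)) (T.A a))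
      ((Fr.nb (T.lab a')).restr (X.K.cell (T.face a)) (T.A a')) := by
  by_cases hl : T.lab a = T.lab a'
  · have hd : Disjoint ((Fr.nb (T.lab a)).restr (X.K.cell (T.face a)) (T.A a)).B
        ((Fr.nb (T.lab a')).restr (X.K.cell (T.face a)) (T.A a')).B :=
      disjoint_left.2 fun x h1 h2 =>
        disjoint_left.1 (T.disj a a' h hf.symm hl) h1.2 (hl ▸ h2.2)
    exact ⟨(bas E3).comm_of_disjoint (one hS T hU).1.1 hd, fun _ => hd, fun h' => absurd hU h'⟩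
  · have c1 := comm hS T (a := a') (hf ▸ hU) hl (T.A a)
    have c2 := comm hS T hU (Ne.symm hl) (T.A a')
    rw [hf] at c1
    refine ⟨c1, fun hd => disjoint_left.2 fun x h1 h2 => ?_, fun h' => absurd hU h'⟩
    obtain ⟨d1, d2⟩ := c1 x h1 0 zero_mem
    have d3 := (d1.2 h2).2
    have d4 : (Fr.nb (T.lab a')).M ((Fr.nb (T.lab a)).M (x, 0), 0) =
      (Fr.nb (T.lab a)).M ((Fr.nb (T.lab a')).M (x, 0), 0) := (d2 h2).2 0 zero_mem
    exact disjoint_left.1 hd ((c2 x h2 0 zero_mem).1.2 h1).2 (d4 ▸ d3)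

theorem face (h : FACEM c₀) (hS : State Fr D) (T : Trace Fr D) (φ : X.K.ι) :
    ∃ β : {a // T.face a = φ} → Band E3,
    (∀ k, One T φ k.1 (β k)) ∧ ∀ k l, k ≠ l → Two T φ k.1 l.1 (β k) (β l) := by
  by_cases hU : X.K.cell φ ⊆ X.U
  · refine ⟨fun k => (Fr.nb (T.lab k.1)).restr (X.K.cell φ) (T.A k.1), ?_, ?_⟩
    · rintro ⟨a, rfl⟩
      exact one hS T hU
    · rintro ⟨a, rfl⟩ ⟨a', ha'⟩ hkl
      exact two hS T hU (fun e => hkl (Subtype.ext e)) ha'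
  · by_cases hd : X.K.dim φ = 2
    · exact free h hS T hd hU
    · exact ⟨fun k => (hd (k.2 ▸ T.dim_face k.1)).elim, fun k => (hd (k.2 ▸ T.dim_face k.1)).elim,
        fun k => (hd (k.2 ▸ T.dim_face k.1)).elim⟩

end FacesAux

open FacesAux

theorem faces_of {c : ℝ≥0} (h : FACEM c) : FACES c := by
  intro X Fr D hS T
  choose β h1 h2 using face h hS T
  have h3 : ∀ a a', a ≠ a' → T.face a = T.face a' →
      Two T (T.face a) a a' (β _ ⟨a, rfl⟩) (β _ ⟨a', rfl⟩) := fun a a' hne hf => by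
    have e : ∀ φ (hφ : T.face a' = φ), β _ ⟨a', rfl⟩ = β φ ⟨a', hφ⟩ := by
      rintro _ rfl
      rfl
    rw [e _ hf.symm]
    exact h2 _ ⟨a, rfl⟩ ⟨a', hf.symm⟩ fun e' => hne (congrArg Subtype.val e')
  exact ⟨fun a => β _ ⟨a, rfl⟩, fun a => (h1 _ ⟨a, rfl⟩).1, fun a => (h1 _ ⟨a, rfl⟩).2.1,
    fun a => (h1 _ ⟨a, rfl⟩).2.2.1, fun a => (h1 _ ⟨a, rfl⟩).2.2.2.1,
    fun a a' h h' => (h3 a a' h h').1, fun a a' h h' => (h3 a a' h h').2.1,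
    fun a a' h h' => (h3 a a' h h').2.2, fun a => (h1 _ ⟨a, rfl⟩).2.2.2.2.1,
    fun a => (h1 _ ⟨a, rfl⟩).2.2.2.2.2⟩

end P073.Wb
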