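import Vale.Agent.P073Y.Wb.Sk
import Vale.Agent.P073Y.Bd.Bas
import Vale.Agent.P073Z.MAN
import Vale.Agent.P073Z.A12

/-!
# The walls of a model, and the walls after the exchange, are in general position
-/

open Set Metric Topology Filter
open scoped NNReal

namespace P073.Wb

open P073.Bd (Band I cl Match Sgn Comm Ext PwLip Chart Lev corner Gen1 LocArc)
open P073.Bd.Bas2 P073.A2

namespace Sw2

section general

variable {E : Type} [NormedAddCommGroup E] [NormedSpace ℝ E]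

omit [NormedSpace ℝ E] in
/-- a connected subset of a finite disjoint union of closed sets lies in one of them -/
theorem sub_comp {𝒞 : Finset (Set E)} (hc : ∀ c ∈ 𝒞, IsClosed c)
    (hd : ∀ c ∈ 𝒞, ∀ c' ∈ 𝒞, c ≠ c' → Disjoint c c') {Z c : Set E} (hZ : IsPreconnected Z)
    (hs : Z ⊆ ⋃ c ∈ 𝒞, c) (h : c ∈ 𝒞) {x : E} (hx : x ∈ Z) (hxc : x ∈ c) : Z ⊆ c := by
  classical
  have h2 : IsClosed (⋃ d ∈ 𝒞.erase c, d) :=
    isClosed_biUnion_finset fun d hd' => hc d (Finset.mem_of_mem_erase hd')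
  have h3 : ∀ y ∈ c, y ∉ ⋃ d ∈ 𝒞.erase c, d := fun y hy hy' => by
    obtain ⟨d, hd', hyd⟩ := mem_iUnion₂.1 hy'
    exact (hd c h d (Finset.mem_of_mem_erase hd')
      (Finset.ne_of_mem_erase hd').symm).notMem_of_mem_left hy hyd
  have h4 : Z ⊆ c ∪ ⋃ d ∈ 𝒞.erase c, d := fun y hy => by
    obtain ⟨d, hd', hyd⟩ := mem_iUnion₂.1 (hs hy)
    by_cases e : d = c
    · exact Or.inl (e ▸ hyd)
    · exact Or.inr (mem_iUnion₂.2 ⟨d, Finset.mem_erase.2 ⟨e, hd'⟩, hyd⟩)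
  rcases (isPreconnected_iff_subset_of_disjoint_closed.1 hZ) _ _ (hc c h) h2 h4
    (eq_empty_of_forall_notMem fun y hy => h3 y hy.2.1 hy.2.2) with h5 | h5
  · exact h5
  · exact absurd (h5 hx) (h3 x hxc)

/-- a connected part of a one-manifold which meets a circle avoids the boundary -/
theorem lev_circle {T S g Z : Set E} (h : Lev T S) (hg : IsCircle g) (hgT : g ⊆ T)
    (hZ : IsPreconnected Z) (hZT : Z ⊆ T) {x : E} (hxg : x ∈ g) (hxZ : x ∈ Z) :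
    Z ⊆ g ∧ Disjoint g S := by
  obtain ⟨𝒞, hT, hd, hc⟩ := h
  have hcl : ∀ c ∈ 𝒞, IsClosed c := fun c hc' => by
    rcases hc c hc' with h1 | ⟨p, q, h1, -⟩
    · exact h1.1.isCompact.isClosed
    · exact h1.isClosed
  obtain ⟨c, hc', hxc⟩ := mem_iUnion₂.1 (hT ▸ hgT hxg)
  have h1 : g ⊆ c := sub_comp hcl hd (arcs.2.2.2.2.2.1 (p := x) hg).1.2 (hT ▸ hgT) hc' hxg hxc
  have h2 : Z ⊆ c := sub_comp hcl hd hZ (hT ▸ hZT) hc' hxZ hxc
  rcases hc c hc' with h3 | ⟨p, q, h3, -⟩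
  · have e : g = c := arcs.2.2.2.1 hg h3.1 h1
    exact ⟨e ▸ h2, e ▸ h3.2⟩
  · exact absurd h1 (arcs.2.2.2.2.1 hg h3)

/-- the height of the corner over the antidiagonal -/
noncomputable def hgt (w : ℝ) : ℝ := max (max (-w) 0) ((1 / 2 - w) / 2)

theorem mem_corner {v : ℝ × ℝ} : v ∈ corner ↔ v.2 = hgt (v.1 - v.2) := by
  show min v.1 (min v.2 (v.1 + v.2 - 1 / 2)) = 0 ↔ _
  unfold hgt
  simp only [min_def, max_def]
  split_ifs <;> constructor <;> intro _ <;> linarith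

theorem pl_hgt : PLOn hgt univ := by
  have h := pl_id (E := ℝ) conicalSet_univ
  refine pl_max (pl_max (pl_neg h) (pl_const 0 conicalSet_univ)) ?_
  refine pl_congr (pl_mul (1 / 2) (pl_sub (pl_const (1 / 2) conicalSet_univ) h)) fun w _ => ?_
  ring

theorem sq_sgn {ε : ℝ} (h : ε = 1 ∨ ε = -1) (t : ℝ) : ε * (ε * t) = t := by
  rcases h with rfl | rfl <;> ring

theorem abs_sgn {ε : ℝ} (h : ε = 1 ∨ ε = -1) (t : ℝ) : |ε * t| = |t| := by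
  rcases h with rfl | rfl <;> simp

theorem mem_I {t : ℝ} (h : |t| < 1) : t ∈ I := ⟨(abs_lt.1 h).1.le, (abs_lt.1 h).2.le⟩

variable {b b' : Band E}

theorem mem_B {X : Set E} (h : b.On X) {x : E} (hx : x ∈ X) (hu : |b.u x| < 1) : x ∈ b.B := by
  by_contra hn
  rcases h.out x hx hn with e | e <;> rw [e] at hu <;> norm_num at hu

omit [NormedAddCommGroup E] [NormedSpace ℝ E] in
theorem keeps_W (c : Comm b b') : b.Keeps b'.W := fun x hx s hs hw =>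
  ⟨(c x hx s hs).1.2 hw.1, by rw [((c x hx s hs).2 hw.1).1]; exact hw.2⟩

theorem keeps_diff {Y Y' : Set E} (h : b.Ok) (k : b.Keeps Y) (k' : b.Keeps Y') :
    b.Keeps (Y \ Y') := fun x hx s hs hy =>
  ⟨k x hx s hs hy.1, fun h' => hy.2 ((keeps_iff h k' hx hs).1 h')⟩

theorem keeps_of_sub {K : RCx E} {Y : Set E} (hY : K.Sub Y) (k : ∀ c, b.Keeps (K.cell c)) :
    b.Keeps Y := fun x hx s hs hy => by
  obtain ⟨c, h1, h2⟩ := hY x hy
  exact h2 (k c x hx s hs h1)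

/-- the two moves -/
theorem two_moves (h : b.Ok) (h' : b'.Ok) (c : Comm b b') (c' : Comm b' b) {x : E}
    (hx : x ∈ b.B ∩ b'.B) {s t : ℝ} (hs : s ∈ I) (ht : t ∈ I) :
    b'.M (b.M (x, s), t) ∈ b.B ∩ b'.B ∧ b.u (b'.M (b.M (x, s), t)) = s ∧
      b'.u (b'.M (b.M (x, s), t)) = t ∧
      ∀ Y, b.Keeps Y → b'.Keeps Y → x ∈ Y → b'.M (b.M (x, s), t) ∈ Y := by
  have h1 := h.Mmem x hx.1 s hs
  have h2 : b.M (x, s) ∈ b'.B := (c x hx.1 s hs).1.2 hx.2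
  have h3 := h'.Mmem _ h2 t ht
  refine ⟨⟨(c' _ h2 t ht).1.2 h1.1, h3.1⟩, ?_, h3.2, fun Y k k' hy =>
    k' _ h2 t ht (k x hx.1 s hs hy)⟩
  rw [((c' _ h2 t ht).2 h1.1).1, h1.2]

/-- near a rounded corner the wall is two-sided in every invariant set -/
theorem two_corner {X Y O : Set E} (h : b.On X) (h' : b'.On X) (c : Comm b b') (c' : Comm b' b)
    (hY : Y ⊆ X) (k : b.Keeps Y) (k' : b'.Keeps Y) (hO : IsOpen O) {x : E} (hxO : x ∈ O)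
    (hxX : x ∈ X) (hu : |b.u x| < 1) (hu' : |b'.u x| < 1) (hx : x ∈ closure Y) :
    x ∈ closure {y ∈ O ∩ Y | b.u y = b.u x ∧ b'.u y = b'.u x} := by
  have hb : x ∈ b.B ∩ b'.B := ⟨mem_B h hxX hu, mem_B h' hxX hu'⟩
  have n1 : b.B ∩ b'.B ∈ 𝓝[X] x := inter_mem ((Bd.Bas1.on_in h).2 x hb.1 hu)
    ((Bd.Bas1.on_in h').2 x hb.2 hu')
  have hcB : ConicalSet (b.B ∩ b'.B) := (h.ok.loc.inter h'.ok.loc).conicalSet
  have hpl : PLOn (fun z => b'.M (b.M (z, b.u x), b'.u x)) (b.B ∩ b'.B) :=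
    pl_M h'.ok (pl_at h.ok hcB inter_subset_left (mem_I hu)) (pl_const _ hcB)
      (fun z hz => (c z hz.1 _ (mem_I hu)).1.2 hz.2) fun _ _ => mem_I hu'
  have e : b'.M (b.M (x, b.u x), b'.u x) = x := by
    rw [h.ok.Mid x hb.1, h'.ok.Mid x hb.2]
  have hc := hpl.1 x hb
  have n2 : (fun z => b'.M (b.M (z, b.u x), b'.u x)) ⁻¹' O ∈ 𝓝[b.B ∩ b'.B] x :=
    hc.preimage_mem_nhdsWithin (by rw [e]; exact hO.mem_nhds hxO)
  have n3 : (b.B ∩ b'.B) ∩ (fun z => b'.M (b.M (z, b.u x), b'.u x)) ⁻¹' O ∈ 𝓝[Y] x := by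
    refine nhdsWithin_mono x hY ?_
    exact inter_mem n1 (nhdsWithin_le_of_mem n1 n2)
  have h2 : x ∈ closure (Y ∩ ((b.B ∩ b'.B) ∩
      (fun z => b'.M (b.M (z, b.u x), b'.u x)) ⁻¹' O)) := by
    rw [mem_closure_iff_nhdsWithin_neBot] at hx ⊢
    rwa [nhdsWithin_inter_of_mem' n3]
  have h4 := (hc.mono (fun z hz => hz.2.1)).mem_closure h2
    (t := {y ∈ O ∩ Y | b.u y = b.u x ∧ b'.u y = b'.u x}) fun z hz => by
      obtain ⟨-, a2, a3, a4⟩ := two_moves h.ok h'.ok c c' hz.2.1 (mem_I hu) (mem_I hu')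
      exact ⟨⟨hz.2.2, a4 Y k k' hz.1⟩, a2, a3⟩
  rwa [e] at h4

/-- near a rounded corner the trace on an invariant set with finitely many double points is
an arc -/
theorem arc_corner {X Y O T S : Set E} {ε ε' : ℝ} (h : b.On X) (h' : b'.On X) (c : Comm b b')
    (c' : Comm b' b) (hε : ε = 1 ∨ ε = -1) (hε' : ε' = 1 ∨ ε' = -1) (hY : Y ⊆ X)
    (k : b.Keeps Y) (k' : b'.Keeps Y) (hf : (b.W ∩ b'.W ∩ Y).Finite) (hO : IsOpen O)
    (hu : ∀ y ∈ O ∩ X, |b.u y| < 1 ∧ |b'.u y| < 1)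
    (hT : ∀ y ∈ O, y ∈ T ↔ y ∈ Y ∧ (ε * b.u y, ε' * b'.u y) ∈ corner) {x : E} (hxO : x ∈ O)
    (hx : x ∈ T) (hS : x ∉ S) : LocArc T S univ x := by
  obtain ⟨Φ, hΦ, hΨ⟩ := zone h.ok h'.ok c c'
  have hB : ∀ y ∈ O, y ∈ Y → y ∈ b.B ∩ b'.B := fun y hy hy' =>
    ⟨mem_B h (hY hy') (hu y ⟨hy, hY hy'⟩).1, mem_B h' (hY hy') (hu y ⟨hy, hY hy'⟩).2⟩
  obtain ⟨hxY, hxc⟩ := (hT x hxO).1 hx
  have hxB := hB x hxO hxY
  have hux := hu x ⟨hxO, hY hxY⟩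
  -- the base point and the parameter
  set π : E → E := fun y => b'.M (b.M (y, 0), 0) with hπ
  set w : E → ℝ := fun y => ε * b.u y - ε' * b'.u y with hw
  have hπm : ∀ y ∈ b.B ∩ b'.B, π y ∈ b.W ∩ b'.W := fun y hy => by
    have := (Φ.mapsTo_inv hy).1
    rwa [hΨ] at this
  have hπY : ∀ y ∈ b.B ∩ b'.B, y ∈ Y → π y ∈ Y := fun y hy hy' =>
    (two_moves h.ok h'.ok c c' hy zero_mem_I zero_mem_I).2.2.2 Y k k' hy'
  set γ : ℝ → ℝ × ℝ := fun s => (ε * (s + hgt s), ε' * hgt s) with hγ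
  have hγpl : PLOn γ univ :=
    pl_prodMk (pl_mul ε (pl_add (pl_id conicalSet_univ) pl_hgt)) (pl_mul ε' pl_hgt)
  have hγc : Continuous γ := continuousOn_univ.1 hγpl.1
  have hγw : ∀ y, (ε * b.u y, ε' * b'.u y) ∈ corner → γ (w y) = (b.u y, b'.u y) := fun y hy => by
    have e : ε' * b'.u y = hgt (w y) := mem_corner.1 hy
    refine Prod.ext ?_ ?_
    · show ε * (w y + hgt (w y)) = b.u y
      rw [← e, hw]
      show ε * (ε * b.u y - ε' * b'.u y + ε' * b'.u y) = b.u y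
      rw [sub_add_cancel, sq_sgn hε]
    · show ε' * hgt (w y) = b'.u y
      rw [← e, sq_sgn hε']
  have hrep : ∀ y ∈ b.B ∩ b'.B, Φ.toFun (π y, (b.u y, b'.u y)) = y := fun y hy => by
    have := Φ.right_inv hy
    rwa [hΨ] at this
  have hJ : IsOpen (γ ⁻¹' (Ioo (-1) 1 ×ˢ Ioo (-1) 1)) :=
    (isOpen_Ioo.prod isOpen_Ioo).preimage hγc
  have hwJ : w x ∈ γ ⁻¹' (Ioo (-1) 1 ×ˢ Ioo (-1) 1) := by
    rw [mem_preimage, hγw x hxc]
    exact ⟨abs_lt.1 hux.1, abs_lt.1 hux.2⟩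
  have hdom : ∀ s ∈ γ ⁻¹' (Ioo (-1) 1 ×ˢ Ioo (-1) 1), (π x, γ s) ∈ (b.W ∩ b'.W) ×ˢ (I ×ˢ I) :=
    fun s hs => ⟨hπm x hxB, Ioo_subset_Icc_self hs.1, Ioo_subset_Icc_self hs.2⟩
  have hcJ := IsOpen.conicalSet hJ
  have hfpl : PLOn (fun s => Φ.toFun (π x, γ s)) (γ ⁻¹' (Ioo (-1) 1 ×ˢ Ioo (-1) 1)) :=
    pl_comp ⟨Φ.cont, Φ.conical⟩
      (pl_prodMk (pl_const _ hcJ) (pl_mono hγpl hcJ (subset_univ _))) hdom
  have hfx : Φ.toFun (π x, γ (w x)) = x := by rw [hγw x hxc, hrep x hxB]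
  have n1 : γ ⁻¹' (Ioo (-1) 1 ×ˢ Ioo (-1) 1) ∩ (fun s => Φ.toFun (π x, γ s)) ⁻¹' O ∈ 𝓝 (w x) :=
    inter_mem (hJ.mem_nhds hwJ) (((hfpl.1 _ hwJ).continuousAt
      (hJ.mem_nhds hwJ)).preimage_mem_nhds (by rw [hfx]; exact hO.mem_nhds hxO))
  obtain ⟨δ, hδ, hb⟩ := Metric.nhds_basis_closedBall.mem_iff.1 n1
  rw [Real.closedBall_eq_Icc] at hb
  have hlt : w x - δ < w x + δ := by linarith
  have hcI : ConicalSet (Icc (w x - δ) (w x + δ)) := Convex.conicalSet (convex_Icc _ _)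
  have hu2 : ∀ s ∈ Icc (w x - δ) (w x + δ), b.u (Φ.toFun (π x, γ s)) = (γ s).1 ∧
      b'.u (Φ.toFun (π x, γ s)) = (γ s).2 := fun s hs => by
    have := Φ.left_inv (hdom s (hb hs).1)
    rw [hΨ] at this
    exact ⟨congrArg (fun q => q.2.1) this, congrArg (fun q => q.2.2) this⟩
  have hinj : InjOn (fun s => Φ.toFun (π x, γ s)) (Icc (w x - δ) (w x + δ)) := by
    intro s hs t ht e
    have e1 := congrArg Prod.snd (Φ.injOn (hdom s (hb hs).1) (hdom t (hb ht).1) e)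
    have e2 : ε * (s + hgt s) = ε * (t + hgt t) := congrArg Prod.fst e1
    have e3 : ε' * hgt s = ε' * hgt t := congrArg Prod.snd e1
    have e4 := congrArg (ε * ·) e2
    have e5 := congrArg (ε' * ·) e3
    simp only [sq_sgn hε, sq_sgn hε'] at e4 e5
    linarith
  have hp := pl_mono hfpl hcI fun s hs => (hb hs).1
  have hA := IsArc.of_param hlt
    (ConHomeo.ofCompact isCompact_Icc _ hp.1 hinj hp.2 rfl) rfl rfl
  rw [ConHomeo.ofCompact_toFun] at hA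
  have hm : w x ∈ Icc (w x - δ) (w x + δ) := ⟨by linarith, by linarith⟩
  refine ⟨_, _, _, hA, ?_, ?_, fun hs => absurd hs hS, fun _ => ⟨fun e => ?_, fun e => ?_⟩⟩
  · rintro _ ⟨s, hs, rfl⟩
    refine ⟨(hT _ (hb hs).2).2 ⟨?_, ?_⟩, mem_univ _⟩
    · have hd := hdom s (hb hs).1
      show Φ.toFun (π x, γ s) ∈ Y
      rw [hΦ]
      exact (two_moves h.ok h'.ok c c' ⟨hd.1.1.1, hd.1.2.1⟩ hd.2.1 hd.2.2).2.2.2 Y k k'
        (hπY x hxB hxY)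
    · show (ε * b.u (Φ.toFun (π x, γ s)), ε' * b'.u (Φ.toFun (π x, γ s))) ∈ corner
      rw [(hu2 s hs).1, (hu2 s hs).2, mem_corner]
      show ε' * (ε' * hgt s) = hgt (ε * (ε * (s + hgt s)) - ε' * (ε' * hgt s))
      rw [sq_sgn hε, sq_sgn hε', add_sub_cancel_right]
  · have m0 : O ∈ 𝓝[T] x := mem_nhdsWithin_of_mem_nhds (hO.mem_nhds hxO)
    have m1 : b.B ∩ b'.B ∈ 𝓝[T] x := by
      filter_upwards [m0, self_mem_nhdsWithin] with y hy hy'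
      exact hB y hy ((hT y hy).1 hy').1
    have c1 : ContinuousWithinAt Φ.invFun T x := (Φ.cont_inv x hxB).mono_of_mem_nhdsWithin m1
    have e1 : Φ.invFun = fun y => (π y, (b.u y, b'.u y)) := funext hΨ
    rw [e1] at c1
    have c2 : ContinuousWithinAt π T x := c1.fst
    have c3 : ContinuousWithinAt w T x :=
      (continuousWithinAt_const.mul c1.snd.fst).sub (continuousWithinAt_const.mul c1.snd.snd)
    have m2 : ((b.W ∩ b'.W ∩ Y) \ {π x})ᶜ ∈ 𝓝 (π x) :=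
      (hf.subset sdiff_subset).isClosed.isOpen_compl.mem_nhds fun hh => hh.2 rfl
    have m3 : Icc (w x - δ) (w x + δ) ∈ 𝓝 (w x) := Icc_mem_nhds (by linarith) (by linarith)
    filter_upwards [m0, m1, self_mem_nhdsWithin, c2.preimage_mem_nhdsWithin m2,
      c3.preimage_mem_nhdsWithin m3] with y hy hyB hyT hy2 hy3
    obtain ⟨a1, a2⟩ := (hT y hy).1 hyT
    have e2 : π y = π x := by
      by_contra hn
      exact hy2 ⟨⟨hπm y hyB, hπY y hyB a1⟩, hn⟩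
    refine ⟨w y, hy3, ?_⟩
    show Φ.toFun (π x, γ (w y)) = y
    rw [← e2, hγw y a2, hrep y hyB]
  · have := hinj hm (left_mem_Icc.2 hlt.le) (hfx.trans e)
    linarith
  · have := hinj hm (right_mem_Icc.2 hlt.le) (hfx.trans e)
    linarith

end general

variable {X : Base} {c₀ : ℝ≥0} {Fr : Frame X c₀} {b : X.ι → Band E3} {D : X.ι → Set E3}

theorem cell_sub (X : Base) (c : X.K.ι) : X.K.cell c ⊆ X.Ω := fun _ hx =>
  X.cover ▸ Or.inl (X.K.cell_subset_carrier c hx)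

theorem frozen (m : Model Fr b) (i : X.ι) : (b i).W ∩ X.U = (Fr.nb i).W := by
  obtain ⟨h1, h2, -⟩ := m.ext i
  rw [← Bd.Bas1.half_W (Fr.nb i)]
  ext x
  constructor
  · rintro ⟨hx, hU⟩
    exact ⟨h1 ▸ ⟨hx.1, hU⟩, (h2 x hU).symm.trans hx.2⟩
  · intro hx
    have h3 : x ∈ (b i).B ∩ X.U := h1 ▸ hx.1
    exact ⟨⟨h3.1, (h2 x h3.2).trans hx.2⟩, h3.2⟩

theorem keep_U (m : Model Fr b) (i : X.ι) : (b i).Keeps X.U := fun x hx s hs hU => by
  obtain ⟨h1, -, h3⟩ := m.ext i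
  have h4 : x ∈ (Fr.nb i).half.B := h1 ▸ ⟨hx, hU⟩
  rw [h3 x h4 s hs]
  have h5 := ((Bd.Bas1.half_ok (Fr.nb_on i).ok).Mmem x h4 s hs).1
  exact (Fr.nb_on i).sub h5.1

theorem keep_bd (m : Model Fr b) (i : X.ι) : (b i).Keeps X.bd := fun x hx s hs hb => by
  obtain ⟨h1, -, h3⟩ := m.ext i
  have h4 : x ∈ (Fr.nb i).half.B := h1 ▸ ⟨hx, X.bd_sub hb⟩
  rw [h3 x h4 s hs]
  exact Fr.nb_keep_bd i x h4.1 _ (Bd.Bas1.half_mem hs) hb

theorem W_bd (m : Model Fr b) (i : X.ι) : (Fr.nb i).W ∩ X.bd = (b i).W ∩ X.bd := by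
  rw [← frozen m i, inter_assoc, inter_eq_right.2 X.bd_sub]

theorem W_Ω (m : Model Fr b) (i : X.ι) : (b i).W ⊆ X.Ω := fun _ hx => (m.on i).sub hx.1

/-- two walls meet in a one-manifold -/
theorem lev_WW (m : Model Fr b) {i j : X.ι} (h : i ≠ j) :
    Lev ((b j).W ∩ (b i).W) ((b i).W ∩ X.bd) := by
  refine lev (m.on j) (W_Ω m i) (W_bd m i ▸ m.disc i) (keeps_W (m.comm j i h.symm)) ?_
  exact fun x hx s hs hy => ⟨keeps_W (m.comm j i h.symm) x hx s hs hy.1, keep_bd m j x hx s hs hy.2⟩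

/-- the extra circles avoid the frozen part -/
theorem extra_U (m : Model Fr b) : Disjoint (extra b) X.U := by
  rw [Set.disjoint_left]
  rintro x ⟨i, j, g, hij, hg, hs, hx⟩ hU
  obtain ⟨Z, h1, h2, h3, y, h4⟩ := Fr.nb_att₂ i j hij x
    ⟨frozen m i ▸ ⟨(hs hx).1, hU⟩, frozen m j ▸ ⟨(hs hx).2, hU⟩⟩
  have h5 : Z ⊆ (b j).W ∩ (b i).W := fun z hz =>
    ⟨((frozen m j).symm ▸ (h1 hz).2 : z ∈ (b j).W ∩ X.U).1,
      ((frozen m i).symm ▸ (h1 hz).1 : z ∈ (b i).W ∩ X.U).1⟩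
  obtain ⟨h6, h7⟩ := lev_circle (lev_WW m hij) hg (fun z hz => (hs hz).symm) h2 h5 hx h3
  exact h7.notMem_of_mem_left (h6 h4.1) ⟨(h5 h4.1).2, h4.2⟩

theorem keep_bdc (m : Model Fr b) (i : X.ι) (c : X.K.ι) : (b i).Keeps (X.K.bd c) :=
  keeps_of_sub (X.K.sub_bd c) (m.keep i)

theorem keep_ocell (m : Model Fr b) (i : X.ι) (c : X.K.ι) : (b i).Keeps (X.K.ocell c) :=
  keeps_diff (m.on i).ok (m.keep i c) (keep_bdc m i c)

theorem lev_face (m : Model Fr b) (i : X.ι) {φ : X.K.ι} (h : X.K.dim φ = 2) :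
    Lev ((b i).W ∩ X.K.cell φ) (X.K.bd φ) :=
  lev (m.on i) (cell_sub X φ) (h ▸ X.K.ball φ) (m.keep i φ) (keep_bdc m i φ)

theorem two_cell (m : Model Fr b) (i : X.ι) (c : X.K.ι) :
    (b i).W ∩ X.K.cell c ⊆ closure ((b i).W ∩ X.K.ocell c) := fun _ hx =>
  two (m.on i).ok (Bd.Bas1.on_in (m.on i)) ((X.K.ocell_subset c).trans (cell_sub X c))
    (keep_ocell m i c) ⟨hx.1, (X.K.ball c).subset_closure_int hx.2⟩

/-- the common part of two bands avoids the wires -/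
theorem zone_wire (m : Model Fr b) {j k : X.ι} (h : j ≠ k) {x : E3} (hx : x ∈ (b j).B ∩ (b k).B) :
    x ∉ X.K.skel 1 := fun hs => by
  obtain ⟨h1, h2, h3, h4⟩ := two_moves (m.on j).ok (m.on k).ok (m.comm j k h) (m.comm k j h.symm)
    hx zero_mem_I zero_mem_I
  exact (m.wire_disj j k h).notMem_of_mem_left ⟨⟨h1.1, h2⟩, h1.2, h3⟩
    (h4 _ (keeps_of_sub (X.K.sub_skel 1) (m.keep j)) (keeps_of_sub (X.K.sub_skel 1) (m.keep k)) hs)

end Sw2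

open Sw2

theorem mgen : MGEN := by
  intro X c₀ Fr b m
  refine ⟨⟨W_Ω m, m.disc, frozen m, fun i j hij hf => (m.disj i j hij hf).mono (W_sub _) (W_sub _),
    m.wire, m.wire_disj, fun i φ h => lev_face m i h, fun i c _ => two_cell m i c, m.fin⟩,
    fun i => ⟨?_, Fr.Pfin.subset (m.wire i), fun φ h => lev_face m i h,
      fun c _ => two_cell m i c⟩⟩
  rw [Set.disjoint_left]
  intro x hx h0
  obtain ⟨e, he, -, -, h1, h2, -⟩ := Fr.wire x (m.wire i ⟨hx, X.K.skel_mono zero_le_one h0⟩)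
  have h3 : x ∈ (Fr.z x).W := h2 ▸ rfl
  have h4 := (X.K.mem_skel_iff_dim (h1 h3.1)).1 h0
  omega

theorem swap2_of (hC : Bd.CLS1) : SWAP2 := by
  intro X c₀ Fr b D m s
  have hfr : ∀ i, (Fr.nb i).W ⊆ D i := fun i x hx => by
    obtain ⟨Z, h1, h2, h3, h4⟩ := Fr.nb_att i x hx
    have h5 : Z ⊆ (b i).W ∩ X.U := (frozen m i).symm ▸ h1
    exact s.pers i Z (fun z hz => (h5 hz).1) h2 h4 (fun z hz j _ hzj =>
      (extra_U m).notMem_of_mem_right (keep_U m j z hzj 0 zero_mem_I (h5 hz).2)) h3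
  have hin : ∀ i j, i ≠ j → D i ∩ D j ⊆ (b i).W ∩ (b j).W := fun i j h =>
    (s.inter i j h).trans sdiff_subset
  refine ⟨s.sub, s.disc, fun i => ?_, fun i j hij hf => ?_, fun i x hx => ?_,
    fun i j hij => (m.wire_disj i j hij).mono_left (hin i j hij), fun i φ hφ => ?_,
    fun i c _ x hx => ?_,
    fun i j hij => (m.fin i j hij).subset (inter_subset_inter_left _ (hin i j hij))⟩
  · refine Subset.antisymm (fun x hx => ?_) fun x hx => ⟨hfr i hx, (Fr.nb_on i).sub hx.1⟩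
    obtain ⟨O, -, hxO, ⟨k, hk⟩ | ⟨j, k, ε, ε', -, -, -, hU, -⟩⟩ := s.loc i x hx.1
    · have h1 : x ∈ (b k).W ∩ O := hk ▸ ⟨hx.1, hxO⟩
      have h2 : x ∈ (Fr.nb k).W := frozen m k ▸ ⟨h1.1, hx.2⟩
      by_cases e : i = k
      · exact e ▸ h2
      · exact frozen m i ▸ ⟨(hin i k e ⟨hx.1, hfr k h2⟩).1, hx.2⟩
    · exact absurd hx.2 (hU.notMem_of_mem_left hxO)
  · rw [Set.disjoint_left]
    intro x h1 h2
    have h3 := hin i j hij ⟨h1, h2⟩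
    exact (m.disj i j hij hf).notMem_of_mem_left h3.1.1 h3.2.1
  · obtain ⟨O, -, hxO, ⟨k, hk⟩ | ⟨j, k, ε, ε', hjk, -, -, -, hu, -⟩⟩ := s.loc i x hx.1
    · have h1 : x ∈ (b k).W ∩ O := hk ▸ ⟨hx.1, hxO⟩
      exact m.wire k ⟨h1.1, hx.2⟩
    · have h1 := s.sub i hx.1
      have h2 := hu x ⟨hxO, h1⟩
      exact absurd hx.2 (zone_wire m hjk ⟨mem_B (m.on j) h1 h2.1, mem_B (m.on k) h1 h2.2⟩)
  · refine hC.2 ((s.disc i).isCompact.inter_right (X.K.isClosed_cell φ))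
      ((s.disc i).locCone.inter (X.K.locCone_cell φ)) fun x hx => ?_
    obtain ⟨O, hO, hxO, ⟨k, hk⟩ | ⟨j, k, ε, ε', hjk, hε, hε', -, hu, hD⟩⟩ := s.loc i x hx.1
    · have h0 : ∀ y ∈ O, y ∈ D i ↔ y ∈ (b k).W := fun y hy =>
        ⟨fun h => (hk ▸ ⟨h, hy⟩ : y ∈ (b k).W ∩ O).1, fun h => (hk ▸ ⟨h, hy⟩ : y ∈ D i ∩ O).1⟩
      obtain ⟨A, p, q, h1, h2, h3, h4⟩ := hC.1 (lev_face m k hφ) x ⟨(h0 x hxO).1 hx.1, hx.2⟩ O
        (hO.mem_nhds hxO)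
      refine ⟨A, p, q, h1, fun y hy => ⟨⟨(h0 y (h2 hy).2).2 (h2 hy).1.1, (h2 hy).1.2⟩,
        mem_univ _⟩, ?_, h4⟩
      rw [mem_nhdsWithin_iff_eventually] at h3 ⊢
      filter_upwards [h3, hO.mem_nhds hxO] with y hy hyO hyT
      exact hy ⟨(h0 y hyO).1 hyT.1, hyT.2⟩
    · have h1 := s.sub i hx.1
      have h2 := hu x ⟨hxO, h1⟩
      refine arc_corner (m.on j) (m.on k) (m.comm j k hjk) (m.comm k j hjk.symm) hε hε'
        (cell_sub X φ) (m.keep j φ) (m.keep k φ) ((m.fin j k hjk).subset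
          (inter_subset_inter_right _ (X.K.cell_subset_skel hφ.le))) hO hu (fun y hy => ?_) hxO hx
        fun hs => zone_wire m hjk ⟨mem_B (m.on j) h1 h2.1, mem_B (m.on k) h1 h2.2⟩
          (X.K.bd_subset_skel hφ.le hs)
      constructor
      · intro h
        have h3 : y ∈ D i ∩ O := ⟨h.1, hy⟩
        rw [hD] at h3
        exact ⟨h.2, h3.2⟩
      · intro h
        have h3 : y ∈ D i ∩ O := by
          rw [hD]
          exact ⟨⟨hy, cell_sub X φ h.1⟩, h.2⟩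
        exact ⟨h3.1, h.1⟩
  · obtain ⟨O, hO, hxO, ⟨k, hk⟩ | ⟨j, k, ε, ε', hjk, -, -, -, hu, hD⟩⟩ := s.loc i x hx.1
    · have h1 : x ∈ (b k).W ∩ O := hk ▸ ⟨hx.1, hxO⟩
      refine closure_mono (fun y hy => ?_) (hO.inter_closure ⟨hxO, two_cell m k c ⟨h1.1, hx.2⟩⟩)
      exact ⟨(hk ▸ ⟨hy.2.1, hy.1⟩ : y ∈ D i ∩ O).1, hy.2.2⟩
    · have h1 := s.sub i hx.1
      have h2 := hu x ⟨hxO, h1⟩
      have h3 : x ∈ D i ∩ O := ⟨hx.1, hxO⟩
      rw [hD] at h3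
      have h4 := (X.K.ocell_subset c).trans (cell_sub X c)
      refine closure_mono (fun y hy => ?_) (two_corner (m.on j) (m.on k) (m.comm j k hjk)
        (m.comm k j hjk.symm) h4 (keep_ocell m j c) (keep_ocell m k c) hO hxO h1 h2.1 h2.2
        ((X.K.ball c).subset_closure_int hx.2))
      have h5 : y ∈ D i ∩ O := by
        rw [hD]
        refine ⟨⟨hy.1.1, h4 hy.1.2⟩, ?_⟩
        rw [hy.2.1, hy.2.2]
        exact h3.2
      exact ⟨h5.1, hy.1.2⟩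

end P073.Wb
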