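import Vale.Agent.P073Y.Wb.Sk
import Vale.Agent.P073Y.Bd.Bas
import Vale.Agent.P073Y.Bd.Map
import Vale.Agent.P073Z.RCX

/-!
# Spreading the points on the wires
-/

open Set Metric Topology Filter
open scoped NNReal

namespace P073.Wb

open P073.Bd (Band I cl Match Sgn Comm Ext PwLip Chart Lev corner Gen1)
open P073.A2 P073.Bd.Bas1

namespace Init1

/-- PL interpolation of a strictly monotone function on a finite set -/
theorem interp (v : ℝ → ℝ) (S : Finset ℝ) (hv : StrictMonoOn v S) :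
    ∃ f : ℝ → ℝ, PLOn f univ ∧ StrictMono f ∧ EqOn f v S := by
  classical
  have hu : ConicalSet (univ : Set ℝ) := Sh.conicalSet_univ
  induction S using Finset.induction_on_max with
  | empty => exact ⟨fun x => x, pl_id hu, strictMono_id, by simp⟩
  | insert a s ha ih =>
    rcases s.eq_empty_or_nonempty with rfl | hne
    · exact ⟨fun x => x + (v a - a), pl_add (pl_id hu) (pl_const _ hu),
        fun x y h => by simpa using h, fun x hx => by simp at hx; simp [hx]⟩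
    obtain ⟨f, f1, f2, f3⟩ := ih (hv.mono (by simp))
    have hm := s.max'_mem hne
    set m := s.max' hne
    have hma : m < a := ha m hm
    have hsl : 0 < (v a - v m) / (a - m) :=
      div_pos (sub_pos.2 (hv (by simp [hm]) (by simp) hma)) (sub_pos.2 hma)
    refine ⟨fun x => f (min x m) + (v a - v m) / (a - m) * (max x m - m),
      pl_add (pl_comp_univ f1 (pl_min (pl_id hu) (pl_const m hu)))
        (pl_mul _ (pl_sub (pl_max (pl_id hu) (pl_const m hu)) (pl_const m hu))),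
      fun x y h => ?_, fun x hx => ?_⟩
    · rcases lt_or_ge x m with h1 | h1
      · refine add_lt_add_of_lt_of_le (f2 ?_) (mul_le_mul_of_nonneg_left
          (sub_le_sub_right (max_le_max h.le le_rfl) _) hsl.le)
        rw [min_eq_left h1.le]
        exact lt_min h h1
      · refine add_lt_add_of_le_of_lt (f2.monotone (min_le_min h.le le_rfl))
          (mul_lt_mul_of_pos_left ?_ hsl)
        rw [max_eq_left h1, max_eq_left (h1.trans h.le)]
        linarith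
    · rcases Finset.mem_insert.1 (Finset.mem_coe.1 hx) with rfl | hx
      · show f (min x m) + _ * (max x m - m) = _
        rw [min_eq_right hma.le, max_eq_left hma.le, f3 hm, div_mul_cancel₀ _ (sub_pos.2 hma).ne']
        ring
      · have h1 : x ≤ m := s.le_max' x hx
        show f (min x m) + _ * (max x m - m) = _
        rw [min_eq_left h1, max_eq_right h1, f3 hx, sub_self, mul_zero, add_zero]

/-- the centres of `n` equal slots -/
def centres (n : ℕ) : Set ℝ := (fun k : ℕ => (2 * k + 1) / (2 * (n : ℝ))) '' {k | k < n}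

/-- a PL homeomorphism of the interval which moves a finite set to the centres -/
theorem centre (S : Finset ℝ) (hS : ∀ c ∈ S, c ∈ Ioo (0:ℝ) 1) :
    ∃ ϑ : ConHomeo (Icc (0:ℝ) 1) (Icc (0:ℝ) 1), ϑ.toFun 0 = 0 ∧ ϑ.toFun 1 = 1 ∧
      ϑ.toFun '' S = centres S.card := by
  classical
  have hI : ConicalSet (Icc (0:ℝ) 1) := (locCone_Icc 0 1).conicalSet
  rcases S.eq_empty_or_nonempty with rfl | hne
  · exact ⟨.refl hI, rfl, rfl, by simp [centres]⟩
  have hn : (0:ℝ) < S.card := by exact_mod_cast hne.card_pos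
  let A : ℝ → ℕ := fun c => (S.filter (· < c)).card
  let B : ℝ → ℕ := fun c => (S.filter (· ≤ c)).card
  have Am : ∀ a b, a ≤ b → A a ≤ A b := fun a b h =>
    Finset.card_le_card (Finset.monotone_filter_right S fun _ _ hx => hx.trans_le h)
  have Bm : ∀ a b, a ≤ b → B a ≤ B b := fun a b h =>
    Finset.card_le_card (Finset.monotone_filter_right S fun _ _ hx => hx.trans h)
  have As : ∀ a ∈ S, ∀ b, a < b → A a < A b := fun a ha b h =>
    Finset.card_lt_card ⟨Finset.monotone_filter_right S fun _ _ hx => hx.trans h,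
      fun h' => by simpa using h' (Finset.mem_filter.2 ⟨ha, h⟩)⟩
  have Bs : ∀ a, ∀ b ∈ S, a < b → B a < B b := fun a b hb h =>
    Finset.card_lt_card ⟨Finset.monotone_filter_right S fun _ _ hx => hx.trans h.le,
      fun h' => h.not_ge (Finset.mem_filter.1 (h' (Finset.mem_filter.2 ⟨hb, le_rfl⟩))).2⟩
  have AB : ∀ c ∈ S, B c = A c + 1 := fun c hc => by
    have : S.filter (· ≤ c) = insert c (S.filter (· < c)) := by
      ext x
      simp only [Finset.mem_filter, Finset.mem_insert]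
      exact ⟨fun h => h.2.eq_or_lt.imp id fun h' => ⟨h.1, h'⟩,
        fun h => h.elim (fun e => ⟨e ▸ hc, e.le⟩) fun h' => ⟨h'.1, h'.2.le⟩⟩
    simp only [A, B, this]
    exact Finset.card_insert_of_notMem (by simp)
  have A0 : A 0 = 0 := Finset.card_eq_zero.2
    (Finset.filter_false_of_mem fun c hc => (hS c hc).1.not_gt)
  have B0 : B 0 = 0 := Finset.card_eq_zero.2
    (Finset.filter_false_of_mem fun c hc => (hS c hc).1.not_ge)
  have A1 : A 1 = S.card := congrArg Finset.card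
    (Finset.filter_true_of_mem fun c hc => (hS c hc).2)
  have B1 : B 1 = S.card := congrArg Finset.card
    (Finset.filter_true_of_mem fun c hc => (hS c hc).2.le)
  obtain ⟨f, f1, fm, f3⟩ := interp (fun c => ((A c + B c : ℕ) : ℝ) / (2 * S.card))
    (insert 0 (insert 1 S)) (by
      intro a ha b hb h
      refine div_lt_div_of_pos_right (Nat.cast_lt.2 ?_) (by positivity)
      obtain ⟨c, hc⟩ := hne
      simp only [Finset.coe_insert, mem_insert_iff, Finset.mem_coe] at ha hb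
      rcases hb with rfl | rfl | hb
      · rcases ha with rfl | rfl | ha
        exacts [absurd h (lt_irrefl _), absurd h (by norm_num), absurd h (hS a ha).1.not_gt]
      · rcases ha with rfl | rfl | ha
        · exact Nat.add_lt_add_of_le_of_lt (Am _ _ h.le)
            ((Bs 0 c hc (hS c hc).1).trans_le (Bm _ _ (hS c hc).2.le))
        · exact absurd h (lt_irrefl _)
        · exact Nat.add_lt_add_of_lt_of_le (As a ha _ h) (Bm _ _ h.le)
      · exact Nat.add_lt_add_of_le_of_lt (Am _ _ h.le) (Bs a b hb h))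
  have f0 : f 0 = 0 := by
    rw [f3 (by simp)]
    simp [A0, B0]
  have f1' : f 1 = 1 := by
    rw [f3 (by simp)]
    simp only [A1, B1]
    push_cast
    field_simp
    ring
  have fS : ∀ c ∈ S, f c = (2 * (A c : ℝ) + 1) / (2 * S.card) := fun c hc => by
    rw [f3 (by simp [hc])]
    simp only [AB c hc]
    push_cast
    ring
  have fpl : PLOn f (Icc 0 1) := pl_mono f1 hI (subset_univ _)
  obtain ⟨ϑ, hϑ⟩ := Sh.exists_ofCompact (Y := Icc (0:ℝ) 1) isCompact_Icc f fpl.1 fm.injective.injOn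
    fpl.2 (by
      refine Subset.antisymm ?_ ?_
      · rintro _ ⟨s, hs, rfl⟩
        exact ⟨f0 ▸ fm.monotone hs.1, f1' ▸ fm.monotone hs.2⟩
      · have := intermediate_value_Icc zero_le_one fpl.1
        rwa [f0, f1'] at this)
  have him : S.image A = Finset.range S.card := by
    refine Finset.eq_of_subset_of_card_le (fun k hk => ?_) ?_
    · obtain ⟨c, hc, rfl⟩ := Finset.mem_image.1 hk
      exact Finset.mem_range.2 (A1 ▸ As c hc 1 (hS c hc).2)
    · rw [Finset.card_range, Finset.card_image_of_injOn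
        (StrictMonoOn.injOn fun a ha b _ h => As a ha b h)]
  refine ⟨ϑ, hϑ ▸ f0, hϑ ▸ f1', ?_⟩
  rw [hϑ]
  refine Subset.antisymm ?_ ?_
  · rintro _ ⟨c, hc, rfl⟩
    exact ⟨A c, Finset.mem_range.1 (him ▸ Finset.mem_image_of_mem A hc), (fS c hc).symm⟩
  · rintro _ ⟨k, hk, rfl⟩
    obtain ⟨c, hc, rfl⟩ := Finset.mem_image.1 (him ▸ Finset.mem_range.2 hk : k ∈ S.image A)
    exact ⟨c, hc, fS c hc⟩

theorem centres_in {n : ℕ} {c : ℝ} (h : c ∈ centres n) :
    1 / (4 * (n : ℝ)) < c ∧ c + 1 / (4 * (n : ℝ)) < 1 := by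
  obtain ⟨k, hk, rfl⟩ := h
  have h1 : (k : ℝ) + 1 ≤ n := by exact_mod_cast hk
  have h0 : (0:ℝ) ≤ k := k.cast_nonneg
  have hn : (0:ℝ) < n := by linarith
  constructor
  · rw [div_lt_div_iff₀ (by positivity) (by positivity)]
    nlinarith
  · rw [div_add_div _ _ (by positivity) (by positivity), div_lt_one (by positivity)]
    nlinarith

theorem centres_sep {n : ℕ} {c d : ℝ} (h : c ∈ centres n) (h' : d ∈ centres n) (hcd : c < d) :
    c + 2 * (1 / (4 * (n : ℝ))) < d := by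
  obtain ⟨k, hk, rfl⟩ := h
  obtain ⟨l, -, rfl⟩ := h'
  have hn : (0:ℝ) < n := by exact_mod_cast Nat.zero_lt_of_lt hk
  have h1 : k < l := by
    have := (div_lt_div_iff_of_pos_right (by positivity)).1 hcd
    exact_mod_cast (by linarith : (k:ℝ) < l)
  have h2 : (k : ℝ) + 1 ≤ l := by exact_mod_cast h1
  have e : (2 * (k:ℝ) + 1) / (2 * n) + 2 * (1 / (4 * (n : ℝ))) = (2 * k + 2) / (2 * n) := by
    field_simp
    ring
  show (2 * (k:ℝ) + 1) / (2 * n) + _ < (2 * (l:ℝ) + 1) / (2 * n)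
  rw [e]
  exact div_lt_div_of_pos_right (by linarith) (by positivity)

/-- a zone on the line -/
noncomputable def zone (c δ : ℝ) : Band ℝ where
  B := Icc (c - δ) (c + δ)
  u := fun s => δ⁻¹ * (s - c)
  M := fun q => c + δ * q.2

theorem zone_ok (c : ℝ) {δ : ℝ} (hδ : 0 < δ) : (zone c δ).Ok := by
  have hl : LocCone (zone c δ).B := locCone_Icc _ _
  have hcs : ConicalSet ((zone c δ).B ×ˢ I) := Sh.conicalSet_prod hl.conicalSet Bd.Bas2.cs_I
  refine ⟨isCompact_Icc, hl, pl_mul _ (pl_sub (pl_id hl.conicalSet) (pl_const c hl.conicalSet)),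
    pl_add (pl_const c hcs) (pl_mul δ (pl_snd hcs)), fun x hx => ?_, fun x _ s hs => ⟨?_, ?_⟩,
    fun x _ => ?_, fun _ _ _ _ _ _ => rfl⟩
  · show δ⁻¹ * (x - c) ∈ I
    rw [← div_eq_inv_mul, mem_Icc, le_div_iff₀ hδ, div_le_iff₀ hδ]
    constructor <;> linarith [hx.1, hx.2]
  · show c + δ * s ∈ Icc _ _
    constructor <;> nlinarith [hs.1, hs.2]
  · show δ⁻¹ * (c + δ * s - c) = s
    field_simp
    ring
  · show c + δ * (δ⁻¹ * (x - c)) = x
    field_simp
    ring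

theorem zone_W (c : ℝ) {δ : ℝ} (hδ : 0 < δ) : (zone c δ).W = {c} := by
  ext x
  constructor
  · intro hx
    have : δ⁻¹ * (x - c) = 0 := hx.2
    exact sub_eq_zero.1 ((mul_eq_zero.1 this).resolve_left (inv_pos.2 hδ).ne')
  · rintro rfl
    exact ⟨⟨by linarith, by linarith⟩, by simp [zone]⟩

theorem zone_in {c δ : ℝ} (hδ : 0 < δ) (h : (zone c δ).B ⊆ Icc 0 1) : (zone c δ).In (Icc 0 1) := by
  refine ⟨h, fun x _ hu => mem_nhdsWithin_of_mem_nhds ?_⟩
  have h1 : |δ⁻¹ * (x - c)| < 1 := hu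
  rw [← div_eq_inv_mul, abs_div, abs_of_pos hδ, div_lt_one hδ, abs_lt] at h1
  exact Icc_mem_nhds (by linarith [h1.1]) (by linarith [h1.2])

/-- spreading the points on a segment -/
theorem wire {x y : E3} (hxy : x ≠ y) {P : Set E3} (hP : P.Finite)
    (hsub : P ⊆ segment ℝ x y \ {x, y}) {L : ℝ≥0} (hL : 4 * ((P.ncard : ℕ) : ℝ) ≤ L * dist x y) :
    ∃ θ : ConHomeo (segment ℝ x y) (segment ℝ x y), EqOn θ.toFun id {x, y} ∧
      θ.toFun '' P = (fun s : ℝ => AffineMap.lineMap x y s) '' centres P.ncard ∧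
      ∃ z : E3 → Band E3, (∀ p ∈ θ.toFun '' P, (z p).Ok ∧ (z p).In (segment ℝ x y) ∧
        (z p).B ⊆ segment ℝ x y \ {x, y} ∧ (z p).W = {p} ∧ LipschitzOnWith L (z p).u (z p).B) ∧
      ∀ p ∈ θ.toFun '' P, ∀ q ∈ θ.toFun '' P, p ≠ q → Disjoint (z p).B (z q).B := by
  classical
  have hI : ConicalSet (Icc (0:ℝ) 1) := (locCone_Icc 0 1).conicalSet
  obtain ⟨σ, hσ⟩ := Sh.exists_ofCompact (Y := segment ℝ x y) (isCompact_Icc (a := (0:ℝ)) (b := 1))
    (fun t : ℝ => AffineMap.lineMap x y t) AffineMap.lineMap_continuous.continuousOn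
    (AffineMap.lineMap_injective ℝ hxy).injOn (conicalOn_of_affine (AffineMap.lineMap x y) hI)
    (segment_eq_image_lineMap ℝ x y).symm
  have m0 : (0:ℝ) ∈ Icc (0:ℝ) 1 := ⟨le_rfl, zero_le_one⟩
  have m1 : (1:ℝ) ∈ Icc (0:ℝ) 1 := ⟨zero_le_one, le_rfl⟩
  have s0 : σ.toFun 0 = x := by simp [hσ]
  have s1 : σ.toFun 1 = y := by simp [hσ]
  have hPs : P ⊆ segment ℝ x y := fun _ h => (hsub h).1
  have hcard : (hP.image σ.invFun).toFinset.card = P.ncard := by
    rw [← ncard_eq_toFinset_card _ (hP.image σ.invFun),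
      InjOn.ncard_image (f := σ.invFun) (σ.symm.injOn.mono hPs)]
  obtain ⟨ϑ, t0, t1, a0⟩ := centre (hP.image σ.invFun).toFinset fun c hc => by
    obtain ⟨p, hp, rfl⟩ := (hP.image σ.invFun).mem_toFinset.1 hc
    have b1 := σ.mapsTo_inv (hPs hp)
    have b2 := σ.right_inv (hPs hp)
    refine ⟨lt_of_le_of_ne b1.1 fun h => (hsub hp).2 (Or.inl ?_),
      lt_of_le_of_ne b1.2 fun h => (hsub hp).2 (Or.inr ?_)⟩
    · rw [← b2, ← h, s0]
    · rw [mem_singleton_iff, ← b2, h, s1]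
  rw [hcard, Finite.coe_toFinset] at a0
  have hmem : ∀ p ∈ P, ϑ.toFun (σ.invFun p) ∈ centres P.ncard := fun p hp =>
    a0 ▸ mem_image_of_mem _ (mem_image_of_mem _ hp)
  have a1 := fun p hp => centres_in (hmem p hp)
  have a2 := fun p hp q hq => centres_sep (hmem p hp) (hmem q hq)
  set δ : ℝ := 1 / (4 * (P.ncard : ℝ)) with hδ
  have hc : ∀ p ∈ P, σ.invFun (σ.toFun (ϑ.toFun (σ.invFun p))) = ϑ.toFun (σ.invFun p) :=
    fun p hp => σ.left_inv (ϑ.mapsTo (σ.mapsTo_inv (hPs hp)))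
  have hn : ∀ p ∈ P, (0:ℝ) < P.ncard := fun p hp => by
    exact_mod_cast (ncard_pos hP).2 ⟨p, hp⟩
  have hB : ∀ p ∈ P, (zone (ϑ.toFun (σ.invFun p)) δ).B ⊆ Ioo 0 1 := fun p hp s hs =>
    ⟨by linarith [hs.1, (a1 p hp).1], by linarith [hs.2, (a1 p hp).2]⟩
  refine ⟨σ.symm.trans (ϑ.trans σ), ?_, ?_, fun p => (zone (σ.invFun p) δ).map σ, ?_, ?_⟩
  · have i0 : σ.invFun x = 0 := (congrArg σ.invFun s0).symm.trans (σ.left_inv m0)
    have i1 : σ.invFun y = 1 := (congrArg σ.invFun s1).symm.trans (σ.left_inv m1)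
    intro p hp
    show σ.toFun (ϑ.toFun (σ.invFun p)) = p
    rcases hp with hp | hp <;> rw [hp]
    · rw [i0, t0, s0]
    · rw [i1, t1, s1]
  · rw [← a0, ← hσ, image_image, image_image]
    rfl
  · rintro _ ⟨p, hp, rfl⟩
    have hn' := hn p hp
    have hδ0 : 0 < δ := by positivity
    have hB' := (hB p hp).trans Ioo_subset_Icc_self
    show ((zone (σ.invFun (σ.toFun (ϑ.toFun (σ.invFun p)))) δ).map σ).Ok ∧
      ((zone (σ.invFun (σ.toFun (ϑ.toFun (σ.invFun p)))) δ).map σ).In _ ∧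
      ((zone (σ.invFun (σ.toFun (ϑ.toFun (σ.invFun p)))) δ).map σ).B ⊆ _ ∧
      ((zone (σ.invFun (σ.toFun (ϑ.toFun (σ.invFun p)))) δ).map σ).W =
        {σ.toFun (ϑ.toFun (σ.invFun p))} ∧
      LipschitzOnWith L ((zone (σ.invFun (σ.toFun (ϑ.toFun (σ.invFun p)))) δ).map σ).u
        ((zone (σ.invFun (σ.toFun (ϑ.toFun (σ.invFun p)))) δ).map σ).B
    rw [hc p hp]
    refine ⟨Bd.Mp.map_ok σ (zone_ok _ hδ0) hB', Bd.Mp.map_in σ (zone_in hδ0 hB'), ?_, ?_, ?_⟩
    · rintro _ ⟨s, hs, rfl⟩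
      refine ⟨σ.mapsTo (hB' hs), ?_⟩
      rintro (h | h)
      · exact (hB p hp hs).1.ne' (σ.injOn (hB' hs) m0 (h.trans s0.symm))
      · exact (hB p hp hs).2.ne (σ.injOn (hB' hs) m1 ((mem_singleton_iff.1 h).trans s1.symm))
    · rw [Bd.Mp.map_W σ hB', zone_W _ hδ0, image_singleton]
    · refine LipschitzOnWith.of_dist_le_mul ?_
      rintro _ ⟨s, hs, rfl⟩ _ ⟨s', hs', rfl⟩
      rw [Bd.Mp.map_u σ _ (hB' hs), Bd.Mp.map_u σ _ (hB' hs'), hσ, dist_lineMap_lineMap]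
      show dist (δ⁻¹ * _) (δ⁻¹ * _) ≤ _
      rw [Real.dist_eq, Real.dist_eq, ← mul_sub, sub_sub_sub_cancel_right, abs_mul, hδ, one_div,
        inv_inv, abs_of_pos (by positivity)]
      nlinarith [abs_nonneg (s - s')]
  · rintro _ ⟨p, hp, rfl⟩ _ ⟨q, hq, rfl⟩ hne
    have hpq : ϑ.toFun (σ.invFun p) ≠ ϑ.toFun (σ.invFun q) := fun h => hne (congrArg σ.toFun h)
    show Disjoint (σ.toFun '' (zone (σ.invFun (σ.toFun (ϑ.toFun (σ.invFun p)))) δ).B)
      (σ.toFun '' (zone (σ.invFun (σ.toFun (ϑ.toFun (σ.invFun q)))) δ).B)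
    rw [hc p hp, hc q hq]
    refine disjoint_image_image fun s hs s' hs' h => ?_
    obtain rfl := σ.injOn (Ioo_subset_Icc_self (hB p hp hs)) (Ioo_subset_Icc_self (hB q hq hs')) h
    rcases lt_or_gt_of_ne hpq with h' | h'
    · linarith [a2 p hp q hq h', hs.2, hs'.1]
    · linarith [a2 q hq p hp h', hs.1, hs'.2]

section transport

variable {Ω A Z : Set E3} (Θ : ConHomeo Ω Ω)

theorem img_inter (hA : A ⊆ Ω) (hZ : Z ⊆ Ω) (h : Θ.toFun '' Z = Z) :
    Θ.toFun '' A ∩ Z = Θ.toFun '' (A ∩ Z) := by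
  rw [(Θ.injOn.mono (union_subset hA hZ)).image_inter subset_union_left subset_union_right, h]

theorem img_sub {K : RCx E3} (hc : ∀ c, Θ.toFun '' K.cell c = K.cell c) (h : K.Sub Z) :
    Θ.toFun '' Z = Z := by
  rw [h.eq_iUnion, image_iUnion₂]
  simp only [hc]

theorem gen1_img {K : RCx E3} (hK : K.carrier ⊆ Ω) (hc : ∀ c, Θ.toFun '' K.cell c = K.cell c)
    (hA : A ⊆ Ω) (hA' : ConicalSet A) (h : Gen1 K A) : Gen1 K (Θ.toFun '' A) := by
  have hs : ∀ k, Θ.toFun '' A ∩ K.skel k = Θ.toFun '' (A ∩ K.skel k) := fun k =>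
    img_inter Θ hA ((K.skel_subset_carrier k).trans hK) (img_sub Θ hc (K.sub_skel k))
  have hcell : ∀ c, K.cell c ⊆ Ω := fun c => (K.cell_subset_carrier c).trans hK
  refine ⟨?_, ?_, fun φ hφ => ?_, fun c hc' => ?_⟩
  · rw [disjoint_iff_inter_eq_empty, hs, h.vert.inter_eq, image_empty]
  · rw [hs]
    exact h.fin.image _
  · rw [img_inter Θ hA (hcell φ) (hc φ)]
    refine Bd.Bas2.lev_image (Θ.restr (hA'.inter (K.ball φ).conicalSet) fun _ hx => hA hx.1)
      (fun x hx => ?_) (h.lev φ hφ)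
    show Θ.toFun x ∈ _ ↔ _
    conv_lhs => rw [← img_sub Θ hc (K.sub_bd φ)]
    exact Bd.Mp.mem_image_iff Θ ((K.bd_subset φ).trans (hcell φ)) (hA hx.1)
  · have ho : Θ.toFun '' K.ocell c = K.ocell c := by
      unfold RCx.ocell
      rw [(Θ.injOn.mono (hcell c)).image_sdiff_subset (K.bd_subset c), hc,
        img_sub Θ hc (K.sub_bd c)]
    rw [img_inter Θ hA (hcell c) (hc c), img_inter Θ hA ((K.ocell_subset c).trans (hcell c)) ho]
    rintro _ ⟨x, hx, rfl⟩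
    exact ((Θ.cont x (hA hx.1)).mono fun _ hy => hA hy.1).mem_closure_image (h.two c hc' hx)

end transport

end Init1

/-- the points on the inner wires are the centres of equal slots -/
def Centred (X : Base) (P : Set E3) : Prop := ∀ e, X.K.dim e = 1 → ¬ X.K.cell e ⊆ X.U →
  ∃ x y, x ≠ y ∧ X.K.cell e = segment ℝ x y ∧ X.K.bd e = {x, y} ∧
    4 * (((P ∩ X.K.cell e).ncard : ℕ) : ℝ) ≤ X.L e * dist x y ∧
    P ∩ X.K.cell e =
      (fun s : ℝ => AffineMap.lineMap x y s) '' Init1.centres (P ∩ X.K.cell e).ncard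

open Init1 in
/-- the first step, with the position of the points on the inner wires -/
theorem init1_centred (h : EVEN) {X : Base} {c₀ : ℝ≥0} {lo hi : E3}
    (g : ConHomeo X.Ω (Icc lo hi)) (t : X.ι → ℝ) {lam : ℝ≥0} (R : Raw X c₀ g t lam)
    (hS : Seg X (⋃ i, lvl g t i)) :
    ∃ (g' : ConHomeo X.Ω (Icc lo hi)) (Θ : ConHomeo X.Ω X.Ω), g' = Θ.symm.trans g ∧
      EqOn Θ.toFun id X.U ∧ (∀ c, Θ.toFun '' X.K.cell c = X.K.cell c) ∧
      (∀ i, lvl g' t i = Θ.toFun '' lvl g t i) ∧ EqOn g'.toFun g.toFun X.U ∧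
      (∀ c, g'.toFun '' X.K.cell c = g.toFun '' X.K.cell c) ∧ Raw X c₀ g' t lam ∧
      Zoned X (⋃ i, lvl g' t i) ∧ Centred X (⋃ i, lvl g' t i) := by
  classical
  have := X.finι
  have hUΩ : X.U ⊆ X.Ω := X.cover ▸ subset_union_right
  have hKΩ : X.K.carrier ⊆ X.Ω := X.cover ▸ subset_union_left
  have hcΩ : ∀ c, X.K.cell c ⊆ X.Ω := fun c => (X.K.cell_subset_carrier c).trans hKΩ
  have hlΩ : ∀ i, lvl g t i ⊆ X.Ω := fun _ _ hx => hx.1
  have key : ∀ e, ∃ θ : E3 → E3, X.K.dim e = 1 →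
      ((∃ Φ : ConHomeo (X.K.cell e) (X.K.cell e), EqOn Φ.toFun θ (X.K.cell e)) ∧
        EqOn θ id (X.K.bd e) ∧ (X.K.cell e ⊆ X.U → EqOn θ id (X.K.cell e))) ∧
      (¬ X.K.cell e ⊆ X.U → (∃ z : E3 → Band E3,
        (∀ p ∈ θ '' ((⋃ i, lvl g t i) ∩ X.K.cell e), (z p).Ok ∧ (z p).In (X.K.cell e) ∧
          (z p).B ⊆ X.K.ocell e ∧ (z p).W = {p} ∧ LipschitzOnWith (X.L e) (z p).u (z p).B) ∧
        ∀ p ∈ θ '' ((⋃ i, lvl g t i) ∩ X.K.cell e), ∀ q ∈ θ '' ((⋃ i, lvl g t i) ∩ X.K.cell e),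
          p ≠ q → Disjoint (z p).B (z q).B) ∧
        ∃ x y, x ≠ y ∧ X.K.cell e = segment ℝ x y ∧ X.K.bd e = {x, y} ∧
          4 * ((((⋃ i, lvl g t i) ∩ X.K.cell e).ncard : ℕ) : ℝ) ≤ X.L e * dist x y ∧
          θ '' ((⋃ i, lvl g t i) ∩ X.K.cell e) = (fun s : ℝ => AffineMap.lineMap x y s) ''
            centres ((⋃ i, lvl g t i) ∩ X.K.cell e).ncard) := by
    intro e
    by_cases he : X.K.dim e = 1
    swap
    · exact ⟨id, fun h' => absurd h' he⟩
    by_cases hU : X.K.cell e ⊆ X.U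
    · exact ⟨id, fun _ => ⟨⟨⟨.refl (X.K.ball e).conicalSet, fun _ _ => rfl⟩, fun _ _ => rfl,
        fun _ _ _ => rfl⟩, fun h' => absurd hU h'⟩⟩
    obtain ⟨x, y, e1, e2, e3⟩ := hS e he hU
    have hxy : x ≠ y := by
      rintro rfl
      obtain ⟨z, hz⟩ := X.K.ocell_nonempty e
      rw [RCx.ocell, e1, e2, segment_same] at hz
      exact hz.2 (Or.inl hz.1)
    have hfin : ((⋃ i, lvl g t i) ∩ X.K.cell e).Finite := by
      rw [iUnion_inter]
      exact finite_iUnion fun i => (R.gen i).fin.subset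
        (inter_subset_inter_right _ (X.K.cell_subset_skel he.le))
    obtain ⟨θ, a1, a0, z, a2, a3⟩ := wire hxy hfin (fun p hp => ⟨e1 ▸ hp.2, fun hb =>
      let ⟨i, hi⟩ := mem_iUnion.1 hp.1
      disjoint_left.1 (R.gen i).vert hi (X.K.bd_subset_skel he.le (e2 ▸ hb))⟩) e3
    refine ⟨θ.toFun, fun _ => ⟨⟨⟨θ.cast e1.symm e1.symm, fun _ _ => rfl⟩, e2 ▸ a1,
      fun h' => absurd h' hU⟩, fun _ => ⟨⟨z, fun p hp => ?_, a3⟩, x, y, hxy, e1, e2, e3, a0⟩⟩⟩
    rw [RCx.ocell, e2]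
    simpa only [← e1] using a2 p hp
  choose θ hθ using key
  obtain ⟨Θ, b1, b2, b3⟩ := h X θ fun e he => (hθ e he).1
  have b4 : ∀ x ∈ X.U, Θ.invFun x = x := fun x hx => by
    have := Θ.left_inv (hUΩ hx)
    rwa [b1 hx] at this
  let g' : ConHomeo X.Ω (Icc lo hi) := Θ.symm.trans g
  have hg : ∀ x ∈ X.U, g'.toFun x = g.toFun x := fun x hx => congrArg g.toFun (b4 x hx)
  have hl : ∀ i, lvl g' t i = Θ.toFun '' lvl g t i := fun i => by
    refine Subset.antisymm (fun x hx => ⟨_, ⟨Θ.mapsTo_inv hx.1, hx.2⟩, Θ.right_inv hx.1⟩) ?_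
    rintro _ ⟨x, hx, rfl⟩
    refine ⟨Θ.mapsTo hx.1, ?_⟩
    show g.toFun (Θ.invFun (Θ.toFun x)) _ = _
    rw [Θ.left_inv hx.1, hx.2]
  have hlU : ∀ i, ∀ Z ⊆ X.U, lvl g' t i ∩ Z = lvl g t i ∩ Z := fun i Z hZ =>
    Subset.antisymm (fun x hx => ⟨⟨hx.1.1, hg x (hZ hx.2) ▸ hx.1.2⟩, hx.2⟩)
      fun x hx => ⟨⟨hx.1.1, (hg x (hZ hx.2)).symm ▸ hx.1.2⟩, hx.2⟩
  have hl2 : ∀ i j, lvl g' t i ∩ lvl g' t j = Θ.toFun '' (lvl g t i ∩ lvl g t j) := fun i j => by
    rw [hl, hl, Θ.injOn.image_inter (hlΩ i) (hlΩ j)]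
  have hlu : ⋃ i, lvl g' t i = Θ.toFun '' ⋃ i, lvl g t i := by
    simp only [hl, image_iUnion]
  have huΩ : ⋃ i, lvl g t i ⊆ X.Ω := iUnion_subset hlΩ
  have hs : ∀ k, ∀ A ⊆ X.Ω, Θ.toFun '' A ∩ X.K.skel k = Θ.toFun '' (A ∩ X.K.skel k) :=
    fun k A hA => img_inter Θ hA ((X.K.skel_subset_carrier k).trans hKΩ)
      (img_sub Θ b2 (X.K.sub_skel k))
  refine ⟨g', Θ, rfl, b1, b2, hl, hg, fun c => ?_, ⟨R.lt, R.pos, ?_, R.inside, R.sep, fun i x hx hb s hs => ?_,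
    fun i => ?_, fun i j hij => ?_, fun i φ hφ hU => ?_, fun i c hU => ?_, fun c hc hU => ?_,
    fun i => ?_, fun i j hf => ?_⟩, fun e he hU => ?_, fun e he hU => ?_⟩
  · conv_lhs => rw [← b2 c]
    rw [image_image]
    exact image_congr fun x hx => congrArg g.toFun (Θ.left_inv (hcΩ c hx))
  · refine Subset.antisymm (fun x hx => ⟨X.ball.1 hx, ?_⟩) fun x hx => ?_
    · rw [hg x (X.bd_sub hx)]
      exact (R.bd_eq ▸ hx : x ∈ {x ∈ X.Ω | g.toFun x ∈ frontier (Icc lo hi)}).2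
    · have a1 : Θ.invFun x ∈ X.bd := R.bd_eq ▸ ⟨Θ.mapsTo_inv hx.1, hx.2⟩
      have a2 := b1 (X.bd_sub a1)
      rw [Θ.right_inv hx.1] at a2
      exact a2 ▸ a1
  · rw [hg x hx] at hb ⊢
    obtain ⟨a1, a2⟩ := R.keep i x hx hb s hs
    have e : g'.invFun (Function.update (g.toFun x) (X.co i) (t i + 4 * lam * s)) =
      g.invFun (Function.update (g.toFun x) (X.co i) (t i + 4 * lam * s)) := b1 a1
    rw [e]
    exact ⟨a1, a2⟩
  · rw [hlU i _ Subset.rfl]
    exact R.att i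
  · rw [inter_inter_distrib_right, hlU i _ Subset.rfl, hlU j _ Subset.rfl,
      ← inter_inter_distrib_right]
    exact R.att₂ i j hij
  · rw [hlU i _ hU]
    exact R.arc i φ hφ hU
  · refine LipschitzOnWith.of_dist_le_mul fun x hx y hy => ?_
    have a1 := hx.2
    have a2 := hy.2
    rw [hg x (hU hx.1)] at a1 ⊢
    rw [hg y (hU hy.1)] at a2 ⊢
    exact (R.lip i c hU).dist_le_mul x ⟨hx.1, a1⟩ y ⟨hy.1, a2⟩
  · rw [hlu, hs 1 _ huΩ, img_inter Θ (inter_subset_left.trans huΩ) (hcΩ c) (b2 c),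
      (Θ.injOn.mono (inter_subset_right.trans (hcΩ c))).ncard_image]
    exact R.L_ge c hc hU
  · rw [hl]
    refine gen1_img Θ hKΩ b2 (hlΩ i) (fun x hx => ?_) (R.gen i)
    obtain ⟨r, hr, H⟩ := g.conical x hx.1
    refine ⟨r, hr, fun v hv hxv s hs => ⟨(H v hv hxv.1 s hs).1, ?_⟩⟩
    rw [(H v hv hxv.1 s hs).2, Pi.add_apply, Pi.smul_apply, Pi.sub_apply, hxv.2, hx.2, sub_self,
      smul_zero, add_zero]
  · rw [hl2, disjoint_iff_inter_eq_empty, hs 1 _ (inter_subset_left.trans (hlΩ i)),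
      hs 2 _ (inter_subset_left.trans (hlΩ i)), (R.gen₂ i j hf).1.inter_eq, image_empty]
    exact ⟨rfl, (R.gen₂ i j hf).2.image _⟩
  · rw [hlu, img_inter Θ huΩ (hcΩ e) (b2 e), ((b3 e he).mono inter_subset_right).image_eq]
    exact ((hθ e he).2 hU).1
  · rw [hlu, img_inter Θ huΩ (hcΩ e) (b2 e),
      (Θ.injOn.mono (inter_subset_right.trans (hcΩ e))).ncard_image,
      ((b3 e he).mono inter_subset_right).image_eq]
    exact ((hθ e he).2 hU).2

theorem init1_of (h : EVEN) : INIT1 := fun g t _ R hS =>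
  let ⟨g', _, _, _, _, _, a1, a2, a3, a4, _⟩ := init1_centred h g t R hS
  ⟨g', a1, a2, a3, a4⟩

end P073.Wb
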