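import Vale.Agent.P073Y.Wb.Sk
import Vale.Agent.P073Y.Bd.Bas
import Vale.Agent.P073Z.MAN
import Vale.Agent.P073Z.A12.Arcs

/-!
# The bands of the new discs in the cells
-/

open Set Metric Topology Filter
open scoped NNReal

namespace P073.Wb

open P073.Bd (Band I cl Match Sgn Comm Ext PwLip Chart Lev corner Gen1 bas)

namespace CellsAux

section complex

variable {E : Type} [NormedAddCommGroup E] [NormedSpace ℝ E]

theorem bdry_nonempty {n : ℕ} {C B : Set E} (h : ConBall (n + 1) C B) : B.Nonempty := by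
  obtain ⟨-, φ, hφ⟩ := h
  have : (sphere (0 : Fin (n + 1) → ℝ) 1).Nonempty := NormedSpace.sphere_nonempty.2 zero_le_one
  rw [← hφ] at this
  exact this.of_image

/-- every cell contains a vertex -/
theorem exists_vertex (K : RCx E) :
    ∀ (n : ℕ) (i : K.ι), K.dim i ≤ n → ∃ x ∈ K.cell i, x ∈ K.skel 0 := by
  intro n
  induction n with
  | zero =>
    intro i hi
    obtain ⟨x, hx⟩ := K.cell_nonempty i
    exact ⟨x, hx, K.cell_subset_skel hi hx⟩
  | succ n ih =>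
    intro i hi
    rcases hi.lt_or_eq with h | h
    · exact ih i (Nat.lt_succ_iff.1 h)
    · obtain ⟨x, hx⟩ := bdry_nonempty (h ▸ K.ball i)
      obtain ⟨j, -, h2, h3⟩ := K.exists_face_bd hx
      obtain ⟨y, hy, hy0⟩ := ih j (by omega)
      exact ⟨y, K.bd_subset i (h2 hy), hy0⟩

/-- the boundary of a three dimensional cell is the union of its faces -/
theorem iUnion_faces [FiniteDimensional ℝ E] (K : RCx E) {c : K.ι} (hc : K.dim c = 3) :
    ⋃ φ : {φ // K.dim φ = 2 ∧ K.cell φ ⊆ K.cell c}, K.cell φ.1 = K.bd c := by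
  have hb : ConBall 3 (K.cell c) (K.bd c) := hc ▸ K.ball c
  have hm : PLMan 2 (K.bd c) := hb.conSphere.plMan
  refine Subset.antisymm (iUnion_subset fun φ => K.subset_bd_of_dim_lt φ.2.2 ?_) fun x hx => ?_
  · rw [φ.2.1, hc]; norm_num
  · obtain ⟨j, h1, h2, -⟩ := K.exists_face_bd hx
    obtain ⟨φ, f1, f2, f3⟩ := (man K (n := 1) (K.sub_bd c) hm).2.1 j h2
    exact mem_iUnion.2 ⟨⟨φ, f3, f2.trans (K.bd_subset c)⟩, f1 h1.1⟩

omit [NormedAddCommGroup E] [NormedSpace ℝ E] in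
/-- two bands which match a third one match where all three overlap -/
theorem match_via {z b b' : Band E} (h : Match z b) (h' : Match z b') {x : E} (hz : x ∈ z.B)
    (hb : x ∈ b.B) (hb' : x ∈ b'.B) : ∃ ε : ℝ, (ε = 1 ∨ ε = -1) ∧
      b'.u x = ε * b.u x ∧ ∀ s ∈ I, b'.M (x, ε * s) = b.M (x, s) := by
  obtain ⟨ε, hε, h1, h2⟩ := h x hz hb
  obtain ⟨δ, hδ, h3, h4⟩ := h' x hz hb'
  have hsq : ε * ε = 1 := by rcases hε with e | e <;> rw [e] <;> norm_num
  refine ⟨δ * ε, ?_, ?_, fun s hs => ?_⟩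
  · rcases hε with e | e <;> rcases hδ with e' | e' <;> rw [e, e'] <;> norm_num
  · rw [h3, h1, mul_assoc, ← mul_assoc ε, hsq, one_mul]
  · have hs' : ε * s ∈ I := by
      rcases hε with e | e <;> rw [e] <;> constructor <;> linarith [hs.1, hs.2]
    rw [mul_assoc, h4 _ hs', ← h2 _ hs', ← mul_assoc, hsq, one_mul]

end complex

variable {X : Base} {c₀ : ℝ≥0} {Fr : Frame X c₀} {D : X.ι → Set E3}

theorem end_mem (T : Trace Fr D) {a : T.α} {y : E3} (hy : y ∈ ({T.p a, T.q a} : Set E3)) :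
    y ∈ T.A a ∧ y ∈ X.K.bd (T.face a) := by
  rw [← T.ends a] at hy
  exact hy

theorem bd_skel (T : Trace Fr D) (a : T.α) : X.K.bd (T.face a) ⊆ X.K.skel 1 :=
  X.K.bd_subset_skel (by rw [T.dim_face])

theorem end_P (hS : State Fr D) (T : Trace Fr D) {a : T.α} {y : E3}
    (hy : y ∈ ({T.p a, T.q a} : Set E3)) : y ∈ Fr.P :=
  hS.wire (T.lab a) ⟨(T.sub a (end_mem T hy).1).1, bd_skel T a (end_mem T hy).2⟩

/-- a point on a wire has one label -/
theorem lab_eq (hS : State Fr D) (T : Trace Fr D) {a a' : T.α} {y : E3} (h : y ∈ T.A a)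
    (h' : y ∈ T.A a') (hy : y ∈ X.K.skel 1) : T.lab a = T.lab a' := by
  by_contra hne
  exact disjoint_left.1 (hS.wire_disj _ _ hne) ⟨(T.sub a h).1, (T.sub a' h').1⟩ hy

/-- arcs through a common point of a wire lie on the same circle -/
theorem same_circle (hS : State Fr D) (T : Trace Fr D) {a a' : T.α} {k l : T.κ} {y : E3}
    (ha : a ∈ T.s k) (ha' : a' ∈ T.s l) (hkl : T.cel k = T.cel l) (h : y ∈ T.A a)
    (h' : y ∈ T.A a') (hy : y ∈ X.K.skel 1) : k = l := by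
  by_contra hne
  have hl : T.clab k = T.clab l := by
    rw [← (T.mem_s k a ha).1, ← (T.mem_s l a' ha').1]
    exact lab_eq hS T h h' hy
  exact disjoint_left.1 (T.sdisj k l hne hkl hl) (mem_biUnion ha h) (mem_biUnion ha' h')

variable {T : Trace Fr D} {β : T.α → Band E3}

theorem zone_sub (hF : Faces T β) {a : T.α} {y : E3} (hy : y ∈ ({T.p a, T.q a} : Set E3)) :
    (Fr.z y).half.B ⊆ (β a).B ∧ Match (Fr.z y).half (β a) := by
  have h := hF.bd a
  rcases hy with rfl | rfl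
  · exact ⟨fun x hx => (h.symm.subset (Or.inl hx)).1, (hF.mt a).1⟩
  · exact ⟨fun x hx => (h.symm.subset (Or.inr hx)).1, (hF.mt a).2⟩

theorem bd_zone (hF : Faces T β) {a : T.α} {x : E3} (hx : x ∈ (β a).B)
    (hb : x ∈ X.K.bd (T.face a)) :
    ∃ y ∈ ({T.p a, T.q a} : Set E3), x ∈ (Fr.z y).half.B := by
  rcases (hF.bd a).subset ⟨hx, hb⟩ with h | h
  · exact ⟨_, Or.inl rfl, h⟩
  · exact ⟨_, Or.inr rfl, h⟩

theorem W_bd (hS : State Fr D) (hF : Faces T β) {a : T.α} {x : E3} (hx : x ∈ (β a).W)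
    (hb : x ∈ X.K.bd (T.face a)) : x ∈ ({T.p a, T.q a} : Set E3) := by
  obtain ⟨y, hy, hz⟩ := bd_zone hF hx.1 hb
  obtain ⟨ε, hε, h1, -⟩ := (zone_sub hF hy).2 x hz hx.1
  obtain ⟨e, -, -, -, -, hW, -⟩ := Fr.wire y (end_P hS T hy)
  have h0 : (Fr.z y).half.u x = 0 := by
    rw [hx.2] at h1
    rcases hε with e | e <;> rw [e] at h1 <;> linarith
  have h2 : x ∈ (Fr.z y).half.W := ⟨hz, h0⟩
  rw [(bas E3).half_W, hW] at h2
  rw [show x = y from h2]
  exact hy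

theorem inter_bd (T : Trace Fr D) {a : T.α} {φ : X.K.ι} (hφ : X.K.dim φ = 2)
    (hne : T.face a ≠ φ) {x : E3} (hx : x ∈ X.K.cell (T.face a)) (hx' : x ∈ X.K.cell φ) :
    x ∈ X.K.bd (T.face a) :=
  X.K.inter_subset_bd hne (by rw [hφ, T.dim_face]) ⟨hx, hx'⟩

/-- bands in different faces meet in the zone of a common end -/
theorem common (hS : State Fr D) (hF : Faces T β) {a a' : T.α} (hne : T.face a ≠ T.face a')
    {x : E3} (hx : x ∈ (β a).B) (hx' : x ∈ (β a').B) :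
    ∃ y, y ∈ ({T.p a, T.q a} : Set E3) ∧ y ∈ ({T.p a', T.q a'} : Set E3) ∧
      x ∈ (Fr.z y).half.B := by
  have c := (hF.ok a).2.1 hx
  have c' := (hF.ok a').2.1 hx'
  obtain ⟨y, hy, hz⟩ := bd_zone hF hx (inter_bd T (T.dim_face a') hne c c')
  obtain ⟨y', hy', hz'⟩ := bd_zone hF hx' (inter_bd T (T.dim_face a) hne.symm c' c)
  have e : y = y' := by
    by_contra h
    exact disjoint_left.1 (Fr.zdisj y (end_P hS T hy) y' (end_P hS T hy') h) hz.1 hz'.1
  subst e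
  exact ⟨y, hy, hy', hz⟩

theorem disj_face (hS : State Fr D) (hF : Faces T β) {a a' : T.α} {k l : T.κ}
    (ha : a ∈ T.s k) (ha' : a' ∈ T.s l) (hc : T.cel k = T.cel l) (hkl : k ≠ l)
    (hne : T.face a ≠ T.face a') : Disjoint (β a).B (β a').B := by
  refine disjoint_left.2 fun x hx hx' => ?_
  obtain ⟨y, h1, h2, -⟩ := common hS hF hne hx hx'
  exact hkl (same_circle hS T ha ha' hc (end_mem T h1).1 (end_mem T h2).1
    (bd_skel T a (end_mem T h1).2))

theorem vertex_not_mem (hS : State Fr D) (hF : Faces T β) (a : T.α) {x : E3}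
    (hx : x ∈ X.K.skel 0) : x ∉ (β a).B := by
  intro h
  have hb : x ∈ X.K.bd (T.face a) := by
    rw [← X.K.cell_inter_skel (k := 1) (T.dim_face a)]
    exact ⟨(hF.ok a).2.1 h, X.K.skel_mono zero_le_one hx⟩
  obtain ⟨y, hy, hz⟩ := bd_zone hF h hb
  obtain ⟨e, he, -, -, ho, -⟩ := Fr.wire y (end_P hS T hy)
  have := (X.K.mem_skel_iff_dim (ho hz.1)).1 hx
  omega

theorem match_of (hS : State Fr D) (hF : Faces T β) {a a' : T.α} (hl : T.lab a = T.lab a') :
    Match (β a) (β a') := by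
  by_cases e : a = a'
  · rw [e]; exact (bas E3).match_refl _
  intro x hx hx'
  by_cases hf : T.face a = T.face a'
  · exact absurd hx' (disjoint_left.1 (hF.disj a a' e hf (T.disj a a' e hf hl)) hx)
  · obtain ⟨y, h1, h2, hz⟩ := common hS hF hf hx hx'
    exact match_via (zone_sub hF h1).2 (zone_sub hF h2).2 hz hx hx'

/-- the new arcs of a circle form a circle -/
theorem circle (hA : Bd.ARCISO) (hS : State Fr D) (hF : Faces T β) (k : T.κ) :
    IsCircle (⋃ a ∈ T.s k, (β a).W) := by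
  have := T.finα
  have hc : IsCircle (⋃ a ∈ T.s k, T.A a) := (T.tile k).1.isCircleD
  obtain ⟨φ, -⟩ := hA (fun a : T.s k => T.A a) (fun a : T.s k => (β a).W) (fun a => T.p a)
    (fun a => T.q a) (fun a => ⟨T.arc a, hF.arc a⟩) (by
      intro a a' hne
      have e : a.1 ≠ a'.1 := fun h => hne (Subtype.ext h)
      by_cases hf : T.face a = T.face a'
      · have hd := T.disj a a' e hf
          ((T.mem_s k a a.2).1.trans (T.mem_s k a' a'.2).1.symm)
        exact ⟨fun x hx => absurd hx.2 (disjoint_left.1 hd hx.1),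
          fun x hx => absurd hx.2.1 (disjoint_left.1 (hF.disj a a' e hf hd) hx.1.1)⟩
      · refine ⟨fun x hx => ?_, fun x hx => ?_⟩
        · rw [← T.ends a]
          exact ⟨hx.1, inter_bd T (T.dim_face a') hf (T.sub a hx.1).2 (T.sub a' hx.2).2⟩
        · exact W_bd hS hF hx.1
            (inter_bd T (T.dim_face a') hf ((hF.ok a).2.1 hx.1.1) ((hF.ok a').2.1 hx.2.1)))
  rw [biUnion_eq_iUnion] at hc ⊢
  obtain ⟨ψ⟩ := hc
  exact ⟨ψ.trans φ⟩

/-- a band continues across a wire into the neighbouring faces -/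
theorem saturated (hS : State Fr D) (hF : Faces T β) {a : T.α} {φ : X.K.ι} (hφ : X.K.dim φ = 2)
    (hne : T.face a ≠ φ) {x : E3} (hx : x ∈ (β a).B) (hxφ : x ∈ X.K.cell φ) :
    ∃ a' y, T.face a' = φ ∧ x ∈ (β a').B ∧ y ∈ T.A a ∧ y ∈ T.A a' ∧ y ∈ X.K.skel 1 := by
  obtain ⟨y, hy, hz⟩ := bd_zone hF hx (inter_bd T hφ hne ((hF.ok a).2.1 hx) hxφ)
  obtain ⟨e, -, -, -, ho, hW, -⟩ := Fr.wire y (end_P hS T hy)
  have h1 : X.K.cell e ⊆ X.K.cell φ := X.K.cell_subset_of_mem (ho hz.1) hxφ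
  have h2 : y ∈ (Fr.z y).W := by rw [hW]; rfl
  have h3 : y ∈ X.K.cell φ := h1 (ho h2.1).1
  have h4 : y ∈ X.K.skel 1 := bd_skel T a (end_mem T hy).2
  obtain ⟨a', f1, -, f3⟩ := T.sat a φ hφ y (end_mem T hy).1 h3
  have h5 : y ∈ ({T.p a', T.q a'} : Set E3) := by
    rw [← T.ends a', ← X.K.cell_inter_skel (k := 1) (T.dim_face a'), f1]
    exact ⟨f3, h3, h4⟩
  exact ⟨a', y, f1, (zone_sub hF h5).1 hz, (end_mem T hy).1, f3, h4⟩

/-- there are at most as many circles as admissible points -/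
theorem card_le (hS : State Fr D) (T : Trace Fr D) (c : X.K.ι) :
    Nat.card {k // T.cel k = c} ≤ (Fr.P ∩ X.K.cell c).ncard := by
  have hne : ∀ k, ∃ a, a ∈ T.s k := fun k => by
    obtain ⟨x, hx⟩ := bdry_nonempty (T.tile k).1
    obtain ⟨a, ha, -⟩ := mem_iUnion₂.1 hx
    exact ⟨a, ha⟩
  choose a ha using hne
  have hp : ∀ k, T.p (a k) ∈ ({T.p (a k), T.q (a k)} : Set E3) := fun k => Or.inl rfl
  have : Finite (Fr.P ∩ X.K.cell c : Set E3) := (Fr.Pfin.subset inter_subset_left).to_subtype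
  rw [← Nat.card_coe_set_eq]
  refine Nat.card_le_card_of_injective (fun k => ⟨T.p (a k.1), end_P hS T (hp k.1), ?_⟩) ?_
  · exact (congrArg X.K.cell k.2).subset
      ((T.mem_s k.1 _ (ha k.1)).2 (T.sub _ (end_mem T (hp k.1)).1).2)
  · intro k l h
    have e : T.p (a k.1) = T.p (a l.1) := congrArg Subtype.val h
    exact Subtype.ext (same_circle hS T (ha k.1) (ha l.1) (k.2.trans l.2.symm)
      (end_mem T (hp k.1)).1 (e ▸ (end_mem T (hp l.1)).1) (bd_skel T _ (end_mem T (hp k.1)).2))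

/-- the model in one cell -/
theorem one_cell (h : Bd.CELLM c₀) (hA : Bd.ARCISO) (hS : State Fr D) (hF : Faces T β)
    (c : X.K.ι) (hc : X.K.dim c = 3) : ∃ γ : {k // T.cel k = c} → Band E3,
    (∀ k, (γ k).On (X.K.cell c) ∧ ConBall 2 (γ k).W (⋃ a ∈ T.s k.1, (β a).W) ∧
      (γ k).B ∩ X.K.bd c = ⋃ a ∈ T.s k.1, (β a).half.B ∧
      (∀ a ∈ T.s k.1, Match (β a).half (γ k)) ∧
      LipschitzOnWith (X.L c) (γ k).u (X.K.cell c)) ∧
    ∀ k l, k ≠ l → Comm (γ k) (γ l) ∧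
      (X.fam (T.clab k.1) = X.fam (T.clab l.1) → Disjoint (γ k).B (γ l).B) ∧
      ∀ x ∈ (γ k).W ∩ (γ l).W,
        ∃ Z, Z ⊆ (γ k).W ∩ (γ l).W ∧ IsPreconnected Z ∧ x ∈ Z ∧ (Z ∩ X.K.bd c).Nonempty := by
  have := X.fin
  have := T.finα
  have := T.finκ
  choose cir₀ hc1 hc2 using fun a : {a // X.K.cell (T.face a) ⊆ X.K.cell c} =>
    T.cover a.1 c hc a.2
  obtain ⟨cir, hmem⟩ : ∃ cir : {a // X.K.cell (T.face a) ⊆ X.K.cell c} → {k // T.cel k = c},
      ∀ a, a.1 ∈ T.s (cir a).1 := ⟨fun a => ⟨cir₀ a, hc1 a⟩, hc2⟩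
  have hcel : ∀ k l : {k // T.cel k = c}, T.cel k.1 = T.cel l.1 := fun k l => k.2.trans l.2.symm
  have hcir : ∀ a k, a.1 ∈ T.s k.1 → cir a = k := fun a k ha =>
    Subtype.ext (same_circle hS T (hmem a) ha (hcel _ _) (T.arc a).left_mem (T.arc a).left_mem
      (bd_skel T a (end_mem T (Or.inl rfl)).2))
  have hin : ∀ (k : {k // T.cel k = c}), ∀ a ∈ T.s k.1, X.K.cell (T.face a) ⊆ X.K.cell c :=
    fun k a ha => k.2 ▸ (T.mem_s k.1 a ha).2
  have hU : ∀ (f : T.α → Set E3) k, ⋃ a, ⋃ (_ : cir a = k), f a.1 = ⋃ a ∈ T.s k.1, f a := by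
    intro f k
    ext x
    simp only [mem_iUnion]
    constructor
    · rintro ⟨a, rfl, hx⟩
      exact ⟨a.1, hmem a, hx⟩
    · rintro ⟨a, ha, hx⟩
      exact ⟨⟨a, hin k a ha⟩, hcir _ _ ha, hx⟩
  have hlab : ∀ a, T.lab a.1 = T.clab (cir a).1 := fun a => (T.mem_s _ _ (hmem a)).1
  have hbd : ∀ a : {a // X.K.cell (T.face a) ⊆ X.K.cell c}, X.K.cell (T.face a) ⊆ X.K.bd c :=
    fun a => X.K.subset_bd_of_dim_lt a.2 (by rw [T.dim_face, hc]; norm_num)
  obtain ⟨x₀, hx₀, hv⟩ := exists_vertex X.K 3 c hc.le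
  have hx₀' : x₀ ∈ X.K.bd c := by
    rw [← X.K.cell_inter_skel (k := 2) hc]
    exact ⟨hx₀, X.K.skel_mono (by norm_num) hv⟩
  have hch : Chart 3 (X.K.cell c) (X.K.bd c) (X.M₁ c) (X.M₂ c) := by
    have := X.chart c (by omega)
    rwa [hc] at this
  obtain ⟨γ, g1, g2, g3⟩ := h (L := X.L₀ c) (x₀ := x₀)
    (fun φ : {φ // X.K.dim φ = 2 ∧ X.K.cell φ ⊆ X.K.cell c} => X.K.cell φ.1)
    (fun a : {a // X.K.cell (T.face a) ⊆ X.K.cell c} => ⟨T.face a.1, T.dim_face a.1, a.2⟩) cir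
    (fun a => β a.1) hch (fun φ => ⟨X.K.isCompact_cell _, X.K.locCone_cell _⟩)
    (iUnion_faces X.K hc)
    (fun a => by
      refine ⟨(hF.ok a).1, (hF.ok a).2, (hF.arc a).isConnected.isPreconnected,
        vertex_not_mem hS hF a hv,
        (hF.lip a).weaken (X.L_le c _ (hbd a) (by rw [T.dim_face, hc])), ?_⟩
      obtain ⟨x, hx, hx'⟩ := (hF.arc a).conBall.diff_nonempty
      refine ⟨x, hx, (X.K.sub_bd c).cell_mem_nhdsWithin
        ⟨(hF.ok a).2.1 hx.1, fun hb => hx' (W_bd hS hF hx hb)⟩ fun i hi _ => ?_⟩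
      have := X.K.dim_lt hi
      rw [T.dim_face]
      omega)
    (fun k => by rw [hU (fun a => (β a).W) k]; exact circle hA hS hF k.1)
    (fun a a' e => match_of hS hF (by rw [hlab, hlab, e]))
    (fun a φ x hx hxφ => by
      by_cases e : T.face a.1 = φ.1
      · exact ⟨a, rfl, Subtype.ext e, hx⟩
      · obtain ⟨a', y, f1, f2, f3, f4, f5⟩ := saturated hS hF φ.2.1 e hx hxφ
        have ha' : X.K.cell (T.face a') ⊆ X.K.cell c := f1 ▸ φ.2.2
        exact ⟨⟨a', ha'⟩, Subtype.ext (same_circle hS T (hmem ⟨a', ha'⟩) (hmem a) (hcel _ _)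
          f4 f3 f5), Subtype.ext f1, f2⟩)
    (fun a a' e => by
      by_cases hf : T.face a.1 = T.face a'.1
      · exact hF.comm _ _ (fun e' => e (congrArg cir (Subtype.ext e'))) hf
      · exact (bas E3).comm_of_disjoint (hF.ok a).1 (disj_face hS hF (hmem a) (hmem a')
          (hcel _ _) (fun e' => e (Subtype.ext e')) hf))
    hx₀'
  refine ⟨γ, fun k => ⟨(g1 k).1, ?_, ?_, fun a ha => ?_, (g1 k).2.2.2.weaken ?_⟩,
    fun k l hkl => ⟨(g3 k l hkl).1, fun hfam => (g3 k l hkl).2.1 ?_, (g3 k l hkl).2.2⟩⟩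
  · rw [← hU (fun a => (β a).W) k]; exact (g1 k).2.1
  · rw [← hU (fun a => (β a).half.B) k]; exact (g1 k).2.2.1
  · have := g2 ⟨a, hin k a ha⟩
    rwa [hcir _ _ ha] at this
  · refine le_trans ?_ (Fr.L_ge c (by omega) (X.thin c hc))
    have : ((Nat.card {k // T.cel k = c} : ℕ) : ℝ≥0) ≤ ((Fr.P ∩ X.K.cell c).ncard : ℕ) :=
      Nat.cast_le.2 (card_le hS T c)
    gcongr
  · rintro a a' rfl rfl
    have e : a.1 ≠ a'.1 := fun e' => hkl (congrArg cir (Subtype.ext e'))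
    by_cases hf : T.face a.1 = T.face a'.1
    · refine hF.disj _ _ e hf ?_
      by_cases hl : T.lab a.1 = T.lab a'.1
      · exact T.disj _ _ e hf hl
      · exact (hS.disj _ _ hl (by rw [hlab, hlab]; exact hfam)).mono
          (fun x hx => (T.sub _ hx).1) fun x hx => (T.sub _ hx).1
    · exact disj_face hS hF (hmem a) (hmem a') (hcel _ _) (fun e' => hkl (Subtype.ext e')) hf

end CellsAux

open CellsAux in
theorem cells_of {c : ℝ≥0} (h : Bd.CELLM c) (hA : Bd.ARCISO) : CELLS c := by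
  intro X Fr D hS T β hF
  choose γ g1 g2 using fun c hc => one_cell h hA hS hF c hc
  have key : ∀ c hc l (e : T.cel l = c),
      γ (T.cel l) (T.dim_cel l) ⟨l, rfl⟩ = γ c hc ⟨l, e⟩ := by
    intro c hc l e
    subst e
    rfl
  have pair : ∀ k l, k ≠ l → ∀ e : T.cel k = T.cel l,
      (⟨k, rfl⟩ : {j // T.cel j = T.cel k}) ≠ ⟨l, e.symm⟩ :=
    fun k l hkl _ e' => hkl (congrArg Subtype.val e')
  refine ⟨fun k => γ (T.cel k) (T.dim_cel k) ⟨k, rfl⟩, fun k => (g1 _ _ _).1,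
    fun k => (g1 _ _ _).2.1, fun k => (g1 _ _ _).2.2.1,
    fun k => (g1 (T.cel k) (T.dim_cel k) ⟨k, rfl⟩).2.2.2.1,
    fun k l hkl e => ?_, fun k l hkl e => ?_, fun k l hkl e => ?_, fun k => (g1 _ _ _).2.2.2.2⟩
  · rw [key _ (T.dim_cel k) l e.symm]
    exact (g2 _ _ _ _ (pair k l hkl e)).1
  · rw [key _ (T.dim_cel k) l e.symm]
    exact (g2 _ _ _ _ (pair k l hkl e)).2.1
  · rw [key _ (T.dim_cel k) l e.symm]
    exact (g2 _ _ _ _ (pair k l hkl e)).2.2

end P073.Wb
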