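import Vale.Agent.P073Y.Wb.Sk
import Vale.Agent.P073Y.Bd.Glue
import Vale.Agent.P073Y.Bd.Bas

/-!
# Gluing of bands, with given orientation on some of them: GLUE2
-/

open Set Metric Topology Filter
open scoped NNReal

namespace P073.Wb

open P073.Bd (Band I Match Sgn bas)
open P073.Bd.Glue

theorem glue2 : GLUE2 := by
  intro E _ _ _ π κ _ _ X home b P N hX hb hm hsat hP hPc hN hNc hU hW hk
  classical
  have hok := fun k => (hb k).1
  have hBU : ∀ k, (b k).B ⊆ ⋃ a, X a := fun k => (hb k).2.1.trans (subset_iUnion X _)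
  have hz : ∀ k, ∀ x ∈ (b k).B, (x ∈ P ∧ x ∈ N) ↔ (b k).u x = 0 := by
    intro k x hx
    constructor
    · intro h
      have h' : x ∈ P ∩ N := h
      rw [hW] at h'
      obtain ⟨l, hl⟩ := mem_iUnion.1 h'
      have := match_abs (hm l k) hl.1 hx
      rwa [hl.2, abs_zero, abs_eq_zero] at this
    · intro h
      have h' : x ∈ P ∩ N := hW ▸ mem_iUnion.2 ⟨k, hx, h⟩
      exact h'
  have hex : ∀ k, ∃ ε : ℝ, (ε = 1 ∨ ε = -1) ∧ ∀ x ∈ (b k).B,
      (0 ≤ ε * (b k).u x ↔ x ∈ P) ∧ (ε * (b k).u x ≤ 0 ↔ x ∈ N) := by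
    intro k
    rcases hk k with ⟨hpre, x, hx, hn, c1, c2⟩ | h2
    swap
    · refine ⟨1, Or.inl rfl, fun x hx => ?_⟩
      rw [one_mul]
      rcases lt_trichotomy ((b k).u x) 0 with h | h | h
      · have a := (h2 x hx).2 h
        exact ⟨⟨fun c => absurd c (not_le.2 h), fun c => absurd ((hz k x hx).1 ⟨c, a⟩) h.ne⟩,
          ⟨fun _ => a, fun _ => h.le⟩⟩
      · have a := (hz k x hx).2 h
        exact ⟨⟨fun _ => a.1, fun _ => h.ge⟩, ⟨fun _ => a.2, fun _ => h.le⟩⟩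
      · have a := (h2 x hx).1 h
        exact ⟨⟨fun _ => a, fun _ => h.le⟩,
          ⟨fun c => absurd c (not_le.2 h), fun c => absurd ((hz k x hx).1 ⟨a, c⟩) h.ne'⟩⟩
    have hn' : (b k).B ∈ 𝓝[⋃ a, X a] x := by
      have h1 := (hb k).2.2 x hx.1 (by rw [hx.2]; simp)
      exact nhdsWithin_le_iff.2 hn h1
    have hne : ∀ Z ⊆ ⋃ a, X a, x ∈ closure Z → ((b k).B ∩ Z).Nonempty := by
      intro Z hZ hc
      have : NeBot (𝓝[Z] x) := mem_closure_iff_nhdsWithin_neBot.1 hc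
      exact Filter.nonempty_of_mem
        (inter_mem (nhdsWithin_mono x hZ hn') (self_mem_nhdsWithin (a := x) (s := Z)))
    refine exists_sign (bas E) (hok k) hpre hP.isClosed hN.isClosed (hU ▸ hBU k) (hz k)
      (hne _ (fun y hy => hU ▸ Or.inl hy.1) c1) (hne _ (fun y hy => hU ▸ Or.inr hy.1) c2)
  choose ε hε hs using hex
  have cu : ∀ k l, ∀ x ∈ (b k).B, x ∈ (b l).B → ε k * (b k).u x = ε l * (b l).u x := by
    intro k l x hx hx'
    refine eq_of_abs ?_ ((hs k x hx).1.trans (hs l x hx').1.symm)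
    rw [sabs (hε k), sabs (hε l), match_abs (hm k l) hx hx']
  have cM : ∀ k l, ∀ x ∈ (b k).B, x ∈ (b l).B → ∀ s ∈ I,
      (b k).M (x, ε k * s) = (b l).M (x, ε l * s) := by
    intro k l x hx hx' s hsI
    obtain ⟨δ, hδ, -, h2⟩ := hm k l x hx hx'
    have o : (1:ℝ) ∈ I := ⟨by norm_num, le_rfl⟩
    have a1 := (hok k).Mmem x hx 1 o
    have a2 := (hok l).Mmem x hx' (δ * 1) (smem hδ o)
    rw [h2 1 o] at a2
    have a3 := cu k l _ a1.1 a2.1
    rw [a1.2, a2.2, mul_one, mul_one] at a3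
    rw [← h2 _ (smem (hε k) hsI), a3]
    have : δ * (ε l * δ * s) = ε l * s := by
      rcases hδ with rfl | rfl <;> ring
    rw [this]
  set g := glued b ε P with hg
  have gB : g.B = ⋃ k, (b k).B := rfl
  have gu : ∀ k, ∀ x ∈ (b k).B, g.u x = ε k * (b k).u x := by
    intro k x hx
    have h : ∃ k, x ∈ (b k).B := ⟨k, hx⟩
    simp only [hg, glued, dif_pos h]
    exact cu _ _ x h.choose_spec hx
  have gM : ∀ k, ∀ x ∈ (b k).B, ∀ s ∈ I, g.M (x, s) = (b k).M (x, ε k * s) := by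
    intro k x hx s hsI
    have h : ∃ k, x ∈ (b k).B := ⟨k, hx⟩
    simp only [hg, glued, dif_pos h]
    exact cM _ _ x h.choose_spec hx s hsI
  have gout : ∀ x, x ∉ g.B → g.u x = if x ∈ P then 1 else -1 := by
    intro x hx
    have h : ¬ ∃ k, x ∈ (b k).B := fun h => hx (mem_iUnion.2 h)
    simp only [hg, glued, dif_neg h]
  have hcl := fun k => (hok k).cpt.isClosed
  have upl : ∀ k, PLOn g.u (b k).B := fun k =>
    A2.pl_congr (A2.pl_mul (ε k) (hok k).upl) fun x hx => gu k x hx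
  have hgok : g.Ok :=
    { cpt := isCompact_iUnion fun k => (hok k).cpt
      loc := LocCone.iUnion_finite fun k => (hok k).loc
      upl := pl_iUnion hcl upl
      Mpl := by
        rw [gB, iUnion_prod_const]
        refine pl_iUnion (fun k => (hcl k).prod isClosed_Icc) fun k => ?_
        have hc := A2.pl_set (hok k).Mpl
        refine A2.pl_congr (A2.pl_comp (hok k).Mpl
          (A2.pl_prodMk (A2.pl_fst hc) (A2.pl_mul (ε k) (A2.pl_snd hc)))
          fun q hq => ⟨hq.1, smem (hε k) hq.2⟩) fun q hq => gM k q.1 hq.1 q.2 hq.2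
      urange := fun x hx => by
        obtain ⟨k, hx⟩ := mem_iUnion.1 hx
        rw [gu k x hx]
        exact smem (hε k) ((hok k).urange x hx)
      Mmem := fun x hx s hsI => by
        obtain ⟨k, hx⟩ := mem_iUnion.1 hx
        obtain ⟨a1, a2⟩ := (hok k).Mmem x hx _ (smem (hε k) hsI)
        rw [gM k x hx s hsI]
        exact ⟨mem_iUnion.2 ⟨k, a1⟩, by rw [gu k _ a1, a2, smul2 (hε k)]⟩
      Mid := fun x hx => by
        obtain ⟨k, hx⟩ := mem_iUnion.1 hx
        rw [gu k x hx, gM k x hx _ (smem (hε k) ((hok k).urange x hx)), smul2 (hε k),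
          (hok k).Mid x hx]
      MM := fun x hx s hsI t ht => by
        obtain ⟨k, hx⟩ := mem_iUnion.1 hx
        rw [gM k x hx s hsI, gM k x hx t ht,
          gM k _ ((hok k).Mmem x hx _ (smem (hε k) hsI)).1 t ht,
          (hok k).MM x hx _ (smem (hε k) hsI) _ (smem (hε k) ht)] }
  have hside : ∀ x ∈ ⋃ a, X a, (0 ≤ g.u x ↔ x ∈ P) ∧ (g.u x ≤ 0 ↔ x ∈ N) := by
    intro x hx
    by_cases hxB : x ∈ g.B
    · obtain ⟨k, hx⟩ := mem_iUnion.1 hxB
      rw [gu k x hx]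
      exact hs k x hx
    · have hn : ¬ (x ∈ P ∧ x ∈ N) := fun h => by
        have h' : x ∈ P ∩ N := h
        rw [hW] at h'
        obtain ⟨l, hl⟩ := mem_iUnion.1 h'
        exact hxB (mem_iUnion.2 ⟨l, hl.1⟩)
      rw [gout x hxB]
      rw [← hU] at hx
      by_cases hxP : x ∈ P
      · rw [if_pos hxP]
        exact ⟨⟨fun _ => hxP, fun _ => zero_le_one⟩,
          ⟨fun h => absurd h (by norm_num), fun h => (hn ⟨hxP, h⟩).elim⟩⟩
      · rw [if_neg hxP]
        exact ⟨⟨fun h => absurd h (by norm_num), fun h => (hxP h).elim⟩,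
          ⟨fun _ => hx.resolve_left hxP, fun _ => by norm_num⟩⟩
  -- the part off the open bands
  set Y : Set E := ⋂ k, ((b k).Bᶜ ∪ (b k).B ∩ (b k).u ⁻¹' {t : ℝ | |t| = 1}) with hY
  have hYc : LocCone Y := LocCone.iInter_finite fun k => (hok k).loc.compl.union
    (locCone_pre (hcl k) (hok k).loc (hok k).upl
      (locCone_setOf_eq continuous_abs (A2.pl_abs (A2.pl_id A2.conicalSet_univ)).2 1))
  have hYm : ∀ x, x ∈ Y ↔ ∀ k, x ∈ (b k).B → |(b k).u x| = 1 := by
    intro x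
    rw [hY, mem_iInter]
    refine forall_congr' fun k => ⟨fun h hx => ?_, fun h => ?_⟩
    · exact (h.resolve_left fun h' => h' hx).2
    · by_cases hx : x ∈ (b k).B
      · exact Or.inr ⟨hx, h hx⟩
      · exact Or.inl hx
  have hYcl : ∀ Z, IsClosed Z → Z ⊆ ⋃ a, X a → IsClosed (Z ∩ Y) := by
    intro Z hZ hZU
    refine isClosed_of_closure_subset fun x hx => ?_
    have hxZ : x ∈ Z := hZ.closure_subset_iff.2 inter_subset_left hx
    refine ⟨hxZ, (hYm x).2 fun k hxk => ?_⟩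
    by_contra hne
    have hlt : |(b k).u x| < 1 :=
      lt_of_le_of_ne (abs_le.2 ((hok k).urange x hxk)) hne
    have hn : Yᶜ ∈ 𝓝[⋃ a, X a] x := by
      rw [nhdsWithin_iUnion, mem_iSup]
      intro a
      by_cases hxa : x ∈ X a
      · obtain ⟨l, rfl, hxl⟩ := hsat k a x hxk hxa
        have hlt' : |(b l).u x| < 1 := by rwa [match_abs (hm k l) hxk hxl]
        have h1 := (hb l).2.2 x hxl hlt'
        have h2 : ∀ᶠ y in 𝓝[(b l).B] x, |(b l).u y| < 1 :=
          ((hok l).upl.1 x hxl).abs.eventually (gt_mem_nhds hlt')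
        filter_upwards [h1, nhdsWithin_le_iff.2 h1 h2] with y hy hy'
        exact fun hyY => hy'.ne ((hYm y).1 hyY l hy)
      · rw [notMem_closure_iff_nhdsWithin_eq_bot.1 (by rwa [(hX a).1.isClosed.closure_eq])]
        exact mem_bot
    have : NeBot (𝓝[Z ∩ Y] x) := mem_closure_iff_nhdsWithin_neBot.1 hx
    obtain ⟨y, hy1, hy2⟩ := Filter.nonempty_of_mem (inter_mem
      (nhdsWithin_mono x (inter_subset_left.trans hZU) hn)
      (self_mem_nhdsWithin (a := x) (s := Z ∩ Y)))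
    exact hy1 hy2.2
  have hPU : P ⊆ ⋃ a, X a := hU ▸ subset_union_left
  have hNU : N ⊆ ⋃ a, X a := hU ▸ subset_union_right
  have habs : ∀ x ∈ Y, |g.u x| = 1 := by
    intro x hx
    by_cases hxB : x ∈ g.B
    · obtain ⟨k, hk⟩ := mem_iUnion.1 hxB
      rw [gu k x hk, sabs (hε k), (hYm x).1 hx k hk]
    · rw [gout x hxB]
      split_ifs <;> simp
  have hYP : ∀ x ∈ P ∩ Y, g.u x = 1 := fun x hx => by
    rw [← habs x hx.2, abs_of_nonneg ((hside x (hPU hx.1)).1.2 hx.1)]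
  have hYN : ∀ x ∈ N ∩ Y, g.u x = -1 := fun x hx => by
    rw [← habs x hx.2, abs_of_nonpos ((hside x (hNU hx.1)).2.2 hx.1), neg_neg]
  have hcov : ∀ x ∈ ⋃ a, X a, x ∈ g.B ∪ (P ∩ Y ∪ N ∩ Y) := by
    intro x hx
    by_cases hxB : x ∈ g.B
    · exact Or.inl hxB
    · have hxY : x ∈ Y := (hYm x).2 fun k hk => (hxB (mem_iUnion.2 ⟨k, hk⟩)).elim
      rw [← hU] at hx
      exact Or.inr (hx.imp (fun h => ⟨h, hxY⟩) fun h => ⟨h, hxY⟩)
  have hgU : g.B ⊆ ⋃ a, X a := iUnion_subset hBU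
  have c1 := hYcl P hP.isClosed hPU
  have c2 := hYcl N hN.isClosed hNU
  refine ⟨g, ⟨hgok, hgU, ?_, fun x _ hx => ?_⟩, rfl, fun k => ⟨ε k, hε k, fun x hx =>
    ⟨gu k x hx, fun s hsI => by rw [gM k x hx _ (smem (hε k) hsI), smul2 (hε k)]⟩⟩, hside⟩
  · have e : (⋃ a, X a) = g.B ∪ (P ∩ Y ∪ N ∩ Y) := Subset.antisymm hcov
      (union_subset hgU (union_subset (inter_subset_left.trans hPU)
        (inter_subset_left.trans hNU)))
    rw [e]
    exact pl_union hgok.cpt.isClosed (c1.union c2) hgok.upl (pl_union c1 c2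
      (A2.pl_congr (A2.pl_const (1:ℝ) (hPc.inter hYc).conicalSet) hYP)
      (A2.pl_congr (A2.pl_const (-1:ℝ) (hNc.inter hYc).conicalSet) hYN))
  · rw [gout x hx]
    split_ifs
    · exact Or.inl rfl
    · exact Or.inr rfl

end P073.Wb
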