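import Vale.Agent.P073Y.Wb.Sk
import Vale.Agent.P073Y.Bd.Bas
import Vale.Agent.P073Y.Bd.Glue
import Vale.Agent.P073Z.CS.Link

/-!
# The glued walls seen from the cells, the faces and the wires
-/

open Set Metric Topology Filter
open scoped NNReal

namespace P073.Wb

open P073.Bd (Band I cl Match Sgn Comm Ext PwLip)
open P073.Bd.Glue (smem smul2 sabs match_abs)

namespace Sat

section bands

variable {E : Type} {a b g : Band E} {x : E}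

/-- the band `b` is a part of the band `g` -/
def Part (b g : Band E) : Prop := b.B ⊆ g.B ∧ Match b g

theorem Part.trans (h : Part a b) (h' : Part b g) : Part a g := by
  refine ⟨h.1.trans h'.1, fun x hx hg => ?_⟩
  obtain ⟨ε, hε, h1, h2⟩ := h.2 x hx (h.1 hx)
  obtain ⟨ε', hε', h3, h4⟩ := h'.2 x (h.1 hx) hg
  refine ⟨ε' * ε, ?_, by rw [h3, h1, mul_assoc], fun s hs => ?_⟩
  · rcases hε with rfl | rfl <;> rcases hε' with rfl | rfl <;> norm_num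
  · rw [mul_assoc, h4 _ (smem hε hs), h2 s hs]

theorem Part.abs (h : Part b g) (hx : x ∈ b.B) : |g.u x| = |b.u x| := by
  obtain ⟨ε, hε, h1, -⟩ := h.2 x hx (h.1 hx)
  rw [h1, sabs hε]

theorem Part.of_sgn (h : Sgn b g) (hs : b.B ⊆ g.B) : Part b g :=
  let ⟨ε, hε, H⟩ := h
  ⟨hs, fun x hx _ => ⟨ε, hε, H x hx⟩⟩

theorem Part.mem_W (h : Part b g) (hx : x ∈ b.B) : x ∈ g.W ↔ x ∈ b.W := by
  have := h.abs hx
  refine ⟨fun H => ⟨hx, abs_eq_zero.1 ?_⟩, fun H => ⟨h.1 hx, abs_eq_zero.1 ?_⟩⟩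
  · rw [← this, H.2, abs_zero]
  · rw [this, H.2, abs_zero]

theorem Part.W_sub (h : Part b g) : b.W ⊆ g.W := fun _ hx => (h.mem_W hx.1).2 hx

theorem Part.mem_half (h : Part b g) (hx : x ∈ b.B) : x ∈ g.half.B ↔ x ∈ b.half.B :=
  ⟨fun H => ⟨hx, h.abs hx ▸ H.2⟩, fun H => ⟨h.1 hx, (h.abs hx).symm ▸ H.2⟩⟩

theorem Part.half (h : Part b g) : Part b.half g.half :=
  ⟨fun _ hx => (h.mem_half hx.1).2 hx, Bd.Bas1.half_match h.2⟩

variable [NormedAddCommGroup E] [NormedSpace ℝ E]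

theorem Part.move (h : Part b g) (hb : b.Ok) (hx : x ∈ b.B) {s : ℝ} (hs : s ∈ I) :
    g.M (x, s) ∈ b.B := by
  obtain ⟨ε, hε, -, h2⟩ := h.2 x hx (h.1 hx)
  rw [← smul2 hε s, h2 _ (smem hε hs)]
  exact (hb.Mmem x hx _ (smem hε hs)).1

end bands

variable {X : Base} {c₀ : ℝ≥0} {Fr : Frame X c₀} {D : X.ι → Set E3} {T : Trace Fr D}
  {β : T.α → Band E3} {γ : T.κ → Band E3} {b : X.ι → Band E3} {x : E3}

theorem sub_U {c : X.K.ι} (hx : x ∈ X.K.ocell c) (hU : x ∈ X.U) : X.K.cell c ⊆ X.U :=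
  (X.sub.cell_subset hx ⟨X.K.cell_subset_carrier c hx.1, hU⟩).trans inter_subset_right

theorem exists_cell (hx : x ∈ X.Ω) (hU : x ∉ X.U) : ∃ c, X.K.dim c = 3 ∧ x ∈ X.K.cell c :=
  X.top x ((X.cover.ge hx).resolve_right hU)

theorem cell_sub (c : X.K.ι) : X.K.cell c ⊆ X.Ω :=
  (X.K.cell_subset_carrier c).trans (subset_union_left.trans X.cover.le)

/-- every cell lies in a cell of dimension three -/
theorem exists_top (φ : X.K.ι) : ∃ c, X.K.dim c = 3 ∧ X.K.cell φ ⊆ X.K.cell c :=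
  let ⟨y, hy⟩ := X.K.ocell_nonempty φ
  let ⟨c, hc, h⟩ := X.top y (X.K.cell_subset_carrier φ hy.1)
  ⟨c, hc, X.K.cell_subset_of_mem hy h⟩

theorem exists_face {c : X.K.ι} (hc : X.K.dim c = 3) (hx : x ∈ X.K.bd c) :
    ∃ φ, X.K.dim φ = 2 ∧ x ∈ X.K.cell φ ∧ X.K.cell φ ⊆ X.K.cell c :=
  let ⟨_, hj, h⟩ := X.K.sub_bd c x hx
  let ⟨φ, h1, h2, h3⟩ := X.K.exists_facet hc h
  ⟨φ, h3, h1 hj, h2.trans (X.K.bd_subset c)⟩

theorem exists_face' (hx : x ∈ X.K.skel 2) : ∃ φ, X.K.dim φ = 2 ∧ x ∈ X.K.cell φ :=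
  let ⟨_, hc, h⟩ := X.top x (X.K.skel_subset_carrier 2 hx)
  let ⟨φ, h1, h2, _⟩ := exists_face hc ((X.K.cell_inter_skel hc).le ⟨h, hx⟩)
  ⟨φ, h1, h2⟩

/-- `y` is an end of the arc `a` -/
def End (T : Trace Fr D) (a : T.α) (y : E3) : Prop := y = T.p a ∨ y = T.q a

theorem end_iff {a : T.α} {y : E3} : End T a y ↔ y ∈ T.A a ∩ X.K.bd (T.face a) := by
  rw [T.ends]
  rfl

theorem End.mem {a : T.α} {y : E3} (h : End T a y) :
    y ∈ D (T.lab a) ∩ X.K.skel 1 ∧ y ∈ X.K.cell (T.face a) :=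
  have h' := end_iff.1 h
  ⟨⟨(T.sub a h'.1).1, X.K.bd_subset_skel (T.dim_face a).le h'.2⟩, (T.sub a h'.1).2⟩

theorem End.mem_P (S : State Fr D) {a : T.α} {y : E3} (h : End T a y) : y ∈ Fr.P :=
  S.wire _ h.mem.1

theorem End.part (F : Faces T β) {a : T.α} {y : E3} (h : End T a y) :
    Part (Fr.z y).half (β a) := by
  rcases h with rfl | rfl
  · exact ⟨fun _ hx => ((F.bd a).ge (Or.inl hx)).1, (F.mt a).1⟩
  · exact ⟨fun _ hx => ((F.bd a).ge (Or.inr hx)).1, (F.mt a).2⟩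

theorem End.mem_W (F : Faces T β) {a : T.α} {y : E3} (h : End T a y) : y ∈ (β a).W := by
  rcases h with rfl | rfl
  exacts [(F.arc a).left_mem, (F.arc a).right_mem]

theorem exists_end (F : Faces T β) {a : T.α} (hx : x ∈ (β a).B) (hb : x ∈ X.K.bd (T.face a)) :
    ∃ y, End T a y ∧ x ∈ (Fr.z y).half.B :=
  ((F.bd a).le ⟨hx, hb⟩).elim (fun h => ⟨_, Or.inl rfl, h⟩) fun h => ⟨_, Or.inr rfl, h⟩

/-- a zone which meets a face lies on its boundary -/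
theorem zone_bd {y : E3} (hy : y ∈ Fr.P) (hx : x ∈ (Fr.z y).B) {φ : X.K.ι} (hφ : X.K.dim φ = 2)
    (hxφ : x ∈ X.K.cell φ) : y ∈ X.K.bd φ := by
  obtain ⟨e, he, -, -, h1, h2, -⟩ := Fr.wire y hy
  have h3 : y ∈ (Fr.z y).W := h2.ge rfl
  exact X.K.subset_bd_of_dim_lt (X.K.cell_subset_of_mem (h1 hx) hxφ) (by omega) (h1 h3.1).1

/-- an arc through `y` continues in every face at `y` -/
theorem end_sat {a : T.α} {y : E3} (hy : y ∈ T.A a) {φ : X.K.ι} (hφ : X.K.dim φ = 2)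
    (hb : y ∈ X.K.bd φ) : ∃ a', T.face a' = φ ∧ T.lab a' = T.lab a ∧ End T a' y := by
  obtain ⟨a', rfl, h2, h3⟩ := T.sat a φ hφ y hy (X.K.bd_subset φ hb)
  exact ⟨a', rfl, h2, end_iff.2 ⟨h3, hb⟩⟩

/-- points of the frozen walls in a face lie on arcs -/
theorem frozen_arc (S : State Fr D) (T : Trace Fr D) {i : X.ι} {y : E3} (hy : y ∈ (Fr.nb i).W)
    {φ : X.K.ι} (hφ : X.K.dim φ = 2) (h : y ∈ X.K.cell φ) :
    ∃ a, T.face a = φ ∧ T.lab a = i ∧ y ∈ T.A a := by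
  have h1 := (S.frozen i).ge hy
  obtain ⟨a, rfl, ha⟩ := T.full i y ⟨{y}, singleton_subset_iff.2 ⟨h1.1, mem_iUnion₂.2 ⟨φ, hφ, h⟩⟩,
    isPreconnected_singleton, rfl, y, rfl, h1.2⟩
  exact T.sat a φ hφ y ha h

theorem part_cup (W : Walls T γ b) (k : T.κ) : Part (γ k) (b (T.clab k)) :=
  .of_sgn (W.sgn k) fun _ hx => (W.B_eq _).ge (Or.inl (mem_iUnion₂.2 ⟨k, rfl, hx⟩))

theorem sgn_nb (W : Walls T γ b) (i : X.ι) : Sgn (Fr.nb i).half (b i) :=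
  ⟨1, Or.inl rfl, fun x hx => ⟨by rw [one_mul, (W.ext i).2.1 x ((Fr.nb_on i).sub hx.1)],
    fun s hs => by rw [one_mul, (W.ext i).2.2 x hx s hs]⟩⟩

theorem part_nb (W : Walls T γ b) (i : X.ι) : Part (Fr.nb i).half (b i) :=
  .of_sgn (sgn_nb W i) fun _ hx => (W.B_eq _).ge (Or.inr hx)

theorem part_cir (C : Cells T β γ) {k : T.κ} {a : T.α} (ha : a ∈ T.s k) :
    Part (β a).half (γ k) :=
  ⟨fun _ hx => ((C.bd k).ge (mem_iUnion₂.2 ⟨a, ha, hx⟩)).1, C.mt k a ha⟩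

theorem part_arc (C : Cells T β γ) (W : Walls T γ b) (a : T.α) :
    Part (β a).half (b (T.lab a)) := by
  obtain ⟨c, hc, h⟩ := exists_top (T.face a)
  obtain ⟨k, -, hk⟩ := T.cover a c hc h
  rw [(T.mem_s k a hk).1]
  exact (part_cir C hk).trans (part_cup W k)

theorem End.part_zone (F : Faces T β) (C : Cells T β γ) (W : Walls T γ b) {a : T.α} {y : E3}
    (h : End T a y) : Part (Fr.z y).half.half (b (T.lab a)) :=
  (h.part F).half.trans (part_arc C W a)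

theorem End.mem_wall (F : Faces T β) (C : Cells T β γ) (W : Walls T γ b) {a : T.α} {y : E3}
    (h : End T a y) : y ∈ (b (T.lab a)).W :=
  (part_arc C W a).W_sub ((Bd.Bas1.half_W _).ge (h.mem_W F))

/-- the walls on the frozen part -/
theorem sat_U (W : Walls T γ b) {i : X.ι} (hx : x ∈ (b i).B) (hU : x ∈ X.U) :
    x ∈ (Fr.nb i).half.B := (W.ext i).1.le ⟨hx, hU⟩

theorem wall_U (S : State Fr D) (W : Walls T γ b) {i : X.ι} (hx : x ∈ (b i).W) (hU : x ∈ X.U) :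
    x ∈ D i :=
  ((S.frozen i).ge ((Bd.Bas1.half_W _).le (((part_nb W i).mem_W (sat_U W hx.1 hU)).1 hx))).1

/-- the walls in a face -/
theorem sat_face (S : State Fr D) (F : Faces T β) (C : Cells T β γ) (W : Walls T γ b) {i : X.ι}
    (hx : x ∈ (b i).B) {φ : X.K.ι} (hφ : X.K.dim φ = 2) (hxφ : x ∈ X.K.cell φ) :
    ∃ a, T.face a = φ ∧ T.lab a = i ∧ x ∈ (β a).half.B := by
  rcases (W.B_eq i).le hx with h | h
  · obtain ⟨k, rfl, hk⟩ := mem_iUnion₂.1 h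
    have hd := T.dim_cel k
    have h1 : x ∈ X.K.bd (T.cel k) := X.K.inter_subset_bd (fun e => by rw [e] at hd; omega)
      (by omega) ⟨(C.on k).sub hk, hxφ⟩
    obtain ⟨a, ha, h2⟩ := mem_iUnion₂.1 ((C.bd k).le ⟨hk, h1⟩)
    by_cases e : T.face a = φ
    · exact ⟨a, e, (T.mem_s k a ha).1, h2⟩
    · obtain ⟨y, hy, h3⟩ := exists_end F h2.1 (X.K.inter_subset_bd e
        (by rw [hφ, T.dim_face]) ⟨(F.ok a).2.1 h2.1, hxφ⟩)
      obtain ⟨a', e1, e2, hy'⟩ := end_sat (end_iff.1 hy).1 hφ (zone_bd (hy.mem_P S) h3.1 hφ hxφ)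
      exact ⟨a', e1, e2.trans (T.mem_s k a ha).1,
        ((hy'.part F).mem_half h3).2 (((hy.part F).mem_half h3).1 h2)⟩
  · by_cases hb : x ∈ X.K.bd φ
    · obtain ⟨y, hy, h3⟩ := Fr.nb_wire i x ⟨h.1, X.K.bd_subset_skel hφ.le hb⟩
      have h4 := zone_bd hy.1 h3.1 hφ hxφ
      obtain ⟨a, rfl, e2, ha⟩ := frozen_arc S T hy.2 hφ (X.K.bd_subset φ h4)
      exact ⟨a, rfl, e2, (((end_iff.2 ⟨ha, h4⟩).part F).mem_half h3).2
        ((Part.mem_half (Fr.nb_match i y hy) h3).1 h)⟩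
    · have hU := sub_U ⟨hxφ, hb⟩ ((Fr.nb_on i).sub h.1)
      have h0 : (0 : ℝ) ∈ I := ⟨by norm_num, by norm_num⟩
      obtain ⟨a, rfl, rfl, ha⟩ := frozen_arc S T ((Fr.nb_on i).ok.Mmem x h.1 0 h0) hφ
        (Fr.nb_keep i φ x h.1 0 h0 hxφ)
      refine ⟨a, rfl, rfl, ?_⟩
      rw [(F.nat a hU).1]
      exact ⟨⟨⟨h.1, hxφ⟩, ha⟩, h.2⟩

/-- the walls in a cell -/
theorem sat_cell (S : State Fr D) (F : Faces T β) (C : Cells T β γ) (W : Walls T γ b) {i : X.ι}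
    (hx : x ∈ (b i).B) {c : X.K.ι} (hc : X.K.dim c = 3) (hxc : x ∈ X.K.cell c) :
    ∃ k, T.cel k = c ∧ T.clab k = i ∧ x ∈ (γ k).B := by
  by_cases hb : x ∈ X.K.bd c
  · obtain ⟨φ, hφ, h1, h2⟩ := exists_face hc hb
    obtain ⟨a, rfl, rfl, ha⟩ := sat_face S F C W hx hφ h1
    obtain ⟨k, e, hk⟩ := T.cover a c hc h2
    exact ⟨k, e, (T.mem_s k a hk).1.symm, (part_cir C hk).1 ha⟩
  · rcases (W.B_eq i).le hx with h | h
    · obtain ⟨k, e, hk⟩ := mem_iUnion₂.1 h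
      exact ⟨k, (X.K.eq_of_subset_of_dim_le (X.K.cell_subset_of_mem ⟨hxc, hb⟩ ((C.on k).sub hk))
        (by rw [hc, T.dim_cel])).symm, e, hk⟩
    · exact (X.thin c hc (sub_U ⟨hxc, hb⟩ ((Fr.nb_on i).sub h.1))).elim

/-- the walls on the wires -/
theorem sat_wire (S : State Fr D) (F : Faces T β) (C : Cells T β γ) (W : Walls T γ b) {i : X.ι}
    (hx : x ∈ (b i).B) (h : x ∈ X.K.skel 1) :
    ∃ a y, T.lab a = i ∧ End T a y ∧ x ∈ (Fr.z y).half.half.B := by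
  obtain ⟨φ, hφ, h1⟩ := exists_face' (X.K.skel_mono one_le_two h)
  obtain ⟨a, rfl, e, ha⟩ := sat_face S F C W hx hφ h1
  obtain ⟨y, hy, h3⟩ := exists_end F ha.1 ((X.K.cell_inter_skel hφ).le ⟨h1, h⟩)
  exact ⟨a, y, e, hy, ((hy.part F).mem_half h3).1 ha⟩

/-- the points of the walls on the wires are ends of arcs -/
theorem wall_wire (S : State Fr D) (F : Faces T β) (C : Cells T β γ) (W : Walls T γ b) {i : X.ι}
    (hx : x ∈ (b i).W) (h : x ∈ X.K.skel 1) : ∃ a, T.lab a = i ∧ End T a x := by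
  obtain ⟨a, y, rfl, hy, h1⟩ := sat_wire S F C W hx.1 h
  have h2 := ((hy.part_zone F C W).mem_W h1).1 hx
  obtain ⟨-, -, -, -, -, h3, -⟩ := Fr.wire y (hy.mem_P S)
  rw [Bd.Bas1.half_W, Bd.Bas1.half_W, h3] at h2
  exact ⟨a, rfl, h2 ▸ hy⟩

/-- the walls in a face are unions of the new arcs -/
theorem wall_face (S : State Fr D) (F : Faces T β) (C : Cells T β γ) (W : Walls T γ b) {i : X.ι}
    (hx : x ∈ (b i).W) {φ : X.K.ι} (hφ : X.K.dim φ = 2) (hxφ : x ∈ X.K.cell φ) :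
    ∃ a, T.face a = φ ∧ T.lab a = i ∧ x ∈ (β a).W := by
  obtain ⟨a, e, rfl, ha⟩ := sat_face S F C W hx.1 hφ hxφ
  exact ⟨a, e, rfl, (Bd.Bas1.half_W _).le (((part_arc C W a).mem_W ha).1 hx)⟩

/-- two walls meet on the frozen part or in two cups of one cell -/
theorem sat_two (S : State Fr D) (F : Faces T β) (C : Cells T β γ) (W : Walls T γ b) {i j : X.ι}
    (hij : i ≠ j) (hi : x ∈ (b i).B) (hj : x ∈ (b j).B) (hU : x ∉ X.U) :
    ∃ k l, k ≠ l ∧ T.cel k = T.cel l ∧ T.clab k = i ∧ T.clab l = j ∧ x ∈ (γ k).B ∧ x ∈ (γ l).B := by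
  obtain ⟨c, hc, h⟩ := exists_cell ((W.on i).sub hi) hU
  obtain ⟨k, e1, e2, hk⟩ := sat_cell S F C W hi hc h
  obtain ⟨l, e3, e4, hl⟩ := sat_cell S F C W hj hc h
  exact ⟨k, l, fun e => hij (by rw [← e2, ← e4, e]), e1.trans e3.symm, e2, e4, hk, hl⟩

end Sat

end P073.Wb
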