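import Vale.Agent.P073Y.Wb.Sat

/-!
# The pattern of the walls of a model in the faces and in the cells
-/

open Set Metric Topology Filter
open scoped NNReal

namespace P073.Wb

open P073.Bd (Band I cl Match Sgn Comm Ext PwLip Chart Lev corner Gen1)

/-- in every face the set `T` is a disjoint union of proper arcs -/
def Arcs (K : RCx E3) (T : Set E3) : Prop := ∀ φ, K.dim φ = 2 → ∃ 𝒜 : Finset (Set E3),
  T ∩ K.cell φ = ⋃ a ∈ 𝒜, a ∧ (∀ a ∈ 𝒜, ∀ a' ∈ 𝒜, a ≠ a' → Disjoint a a') ∧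
  ∀ a ∈ 𝒜, ∃ p q, IsArc a p q ∧ a ∩ K.bd φ = {p, q}

/-- in every cell of dimension three the set `T` is a disjoint union of proper discs -/
def Discs (K : RCx E3) (T : Set E3) : Prop := ∀ c, K.dim c = 3 → ∃ 𝒟 : Finset (Set E3),
  T ∩ K.cell c = ⋃ d ∈ 𝒟, d ∧ (∀ d ∈ 𝒟, ∀ d' ∈ 𝒟, d ≠ d' → Disjoint d d') ∧
  ∀ d ∈ 𝒟, ConBall 2 d (d ∩ K.bd c)

variable {X : Base} {c₀ : ℝ≥0} {Fr : Frame X c₀} {D : X.ι → Set E3} {T : Trace Fr D}
  {β : T.α → Band E3} {γ : T.κ → Band E3} {b : X.ι → Band E3}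

theorem arcs_of (S : State Fr D) (F : Faces T β) (C : Cells T β γ) (W : Walls T γ b) (i : X.ι) :
    Arcs X.K (b i).W := by
  classical
  intro φ hφ
  have := T.finα
  have hfin : {a | T.face a = φ ∧ T.lab a = i}.Finite := toFinite _
  refine ⟨hfin.toFinset.image fun a => (β a).W, ?_, ?_, ?_⟩
  · ext x
    simp only [mem_iUnion, Finset.mem_image, Finite.mem_toFinset, mem_ofPred_eq, exists_prop]
    constructor
    · rintro ⟨hx, hxφ⟩
      obtain ⟨a, h1, h2, h3⟩ := Sat.wall_face S F C W hx hφ hxφ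
      exact ⟨_, ⟨a, ⟨h1, h2⟩, rfl⟩, h3⟩
    · rintro ⟨_, ⟨a, ⟨rfl, rfl⟩, rfl⟩, hx⟩
      exact ⟨(Sat.part_arc C W a).W_sub ((Bd.Bas1.half_W _).ge hx), (F.ok a).2.1 hx.1⟩
  · intro A hA A' hA' hne
    simp only [Finset.mem_image, Finite.mem_toFinset, mem_ofPred_eq] at hA hA'
    obtain ⟨a, ⟨h1, h2⟩, rfl⟩ := hA
    obtain ⟨a', ⟨h1', h2'⟩, rfl⟩ := hA'
    have haa : a ≠ a' := fun h => hne (h ▸ rfl)
    exact (F.disj a a' haa (h1.trans h1'.symm)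
      (T.disj a a' haa (h1.trans h1'.symm) (h2.trans h2'.symm))).mono (fun _ h => h.1)
      fun _ h => h.1
  · intro A hA
    simp only [Finset.mem_image, Finite.mem_toFinset, mem_ofPred_eq] at hA
    obtain ⟨a, ⟨rfl, -⟩, rfl⟩ := hA
    refine ⟨T.p a, T.q a, F.arc a, Subset.antisymm ?_ ?_⟩
    · rintro x ⟨hx, hb⟩
      obtain ⟨y, hy, hxy⟩ := Sat.exists_end F hx.1 hb
      have h1 := ((hy.part F).mem_W hxy).1 hx
      obtain ⟨-, -, -, -, -, h3, -⟩ := Fr.wire y (hy.mem_P S)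
      rw [Bd.Bas1.half_W, h3] at h1
      rw [show x = y from h1]
      exact hy
    · intro y hy
      exact ⟨Sat.End.mem_W F hy, (Sat.end_iff.1 hy).2⟩

theorem discs_of (S : State Fr D) (F : Faces T β) (C : Cells T β γ) (W : Walls T γ b) (i : X.ι) :
    Discs X.K (b i).W := by
  classical
  intro c hc
  have := T.finκ
  have hfin : {k | T.cel k = c ∧ T.clab k = i}.Finite := toFinite _
  refine ⟨hfin.toFinset.image fun k => (γ k).W, ?_, ?_, ?_⟩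
  · ext x
    simp only [mem_iUnion, Finset.mem_image, Finite.mem_toFinset, mem_ofPred_eq, exists_prop]
    constructor
    · rintro ⟨hx, hxc⟩
      obtain ⟨k, h1, rfl, h3⟩ := Sat.sat_cell S F C W hx.1 hc hxc
      exact ⟨_, ⟨k, ⟨h1, rfl⟩, rfl⟩, ((Sat.part_cup W k).mem_W h3).1 hx⟩
    · rintro ⟨_, ⟨k, ⟨rfl, rfl⟩, rfl⟩, hx⟩
      exact ⟨(Sat.part_cup W k).W_sub hx, (C.on k).sub hx.1⟩
  · intro A hA A' hA' hne
    simp only [Finset.mem_image, Finite.mem_toFinset, mem_ofPred_eq] at hA hA'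
    obtain ⟨k, ⟨h1, h2⟩, rfl⟩ := hA
    obtain ⟨k', ⟨h1', h2'⟩, rfl⟩ := hA'
    have hkk : k ≠ k' := fun h => hne (h ▸ rfl)
    exact (C.disj k k' hkk (h1.trans h1'.symm) (by rw [h2, h2'])).mono (fun _ h => h.1)
      fun _ h => h.1
  · intro A hA
    simp only [Finset.mem_image, Finite.mem_toFinset, mem_ofPred_eq] at hA
    obtain ⟨k, ⟨rfl, -⟩, rfl⟩ := hA
    have h := C.disc k
    convert h using 1
    ext x
    constructor
    · rintro ⟨hx, hb⟩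
      obtain ⟨a, ha, hxa⟩ := mem_iUnion₂.1 ((C.bd k).le ⟨hx.1, hb⟩)
      exact mem_iUnion₂.2 ⟨a, ha, (Bd.Bas1.half_W _).le (((Sat.part_cir C ha).mem_W hxa).1 hx)⟩
    · intro hx
      refine ⟨h.1 hx, ?_⟩
      obtain ⟨a, ha, hxa⟩ := mem_iUnion₂.1 hx
      exact ((C.bd k).ge (mem_iUnion₂.2 ⟨a, ha, ((Bd.Bas1.half_W _).ge hxa).1⟩)).2

end P073.Wb
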