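import Vale.Agent.P073Y.Wb.Sk
import Vale.Agent.P073Y.Bd.Tile

/-!
# The circles of a connected trace bound discs which tile the wall off the trace
-/

open Set Metric Topology Filter

namespace P073.Wb

namespace Tile2

open A12 Bd.Tile

/-- the planar case -/
theorem plane {κ : Type} [Finite κ] {Q Γ : Set (ℝ × ℝ)} (J P P₀ : κ → Set (ℝ × ℝ))
    (hQ : AmbDisc Q) (hB : frontier Q ⊆ Γ) (hΓ : Γ ⊆ Q) (hc : IsPreconnected Γ)
    (hcl : IsClosed Γ) (hJ : ∀ k, IsCircle (J k) ∧ J k ⊆ Γ ∧ IsClosed (P k) ∧ P₀ k ⊆ P k ∧ P k ⊆ Q ∧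
      (∀ x ∈ P₀ k, P₀ k ∈ 𝓝[Q] x ∧ x ∉ Γ) ∧
      ∀ x ∈ J k, x ∈ closure (P₀ k) ∧ ∀ᶠ y in 𝓝 x, y ∈ P k → y ∈ P₀ k ∨ y ∈ J k)
    (hcov : ∀ x ∈ Γ, ∀ᶠ y in 𝓝 x, y ∈ Q → y ∈ Γ ∨ ∃ k, x ∈ J k ∧ y ∈ P k)
    (hd : ∀ k l, k ≠ l → J k = J l → Disjoint (P₀ k) (P₀ l)) :
    ∃ Δ : κ → Set (ℝ × ℝ), (∀ k, AmbDisc (Δ k) ∧ frontier (Δ k) = J k ∧ Δ k ⊆ Q ∧
      Δ k ∩ Γ = J k) ∧ (⋃ k, Δ k) ∪ Γ = Q ∧ ∀ k l, k ≠ l → Δ k ∩ Δ l ⊆ J k := by
  choose Δ hΔ hf using fun k => SCH.schoenflies (hJ k).1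
  have hsub : ∀ k, Δ k ⊆ Q := fun k => ambDisc_subset hQ (hΔ k) (hf k ▸ (hJ k).2.1.trans hΓ)
  have key : ∀ k, Δ k ∩ Γ = J k ∧ ∀ x ∈ J k, (∀ᶠ y in 𝓝 x, y ∈ P k → y ∈ Δ k) ∧
      ∀ᶠ y in 𝓝 x, y ∈ interior (Δ k) → y ∈ P₀ k := by
    intro k
    obtain ⟨-, h2, h3, h4, h5, h6, h7⟩ := hJ k
    rw [← hf k] at h2 h7 ⊢
    refine one hQ hB hΓ hc (hΔ k) h2 h3 h4 h5 (isOpen_iff_mem_nhds.2 fun x hx => ?_)
      (disjoint_left.2 fun x hx => (h6 x hx).2) h7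
    have h8 : x ∈ interior Q := ambDisc_sdiff_frontier hQ ▸
      (⟨h5 (h4 hx), fun h => (h6 x hx).2 (hB h)⟩ : x ∈ Q \ frontier Q)
    have h9 := (h6 x hx).1
    rwa [nhdsWithin_eq_nhds.2 (mem_interior_iff_mem_nhds.1 h8)] at h9
  have hint : ∀ k {y}, y ∈ Δ k → y ∉ J k → y ∈ interior (Δ k) := fun k _ h1 h2 =>
    ambDisc_sdiff_frontier (hΔ k) ▸ (⟨h1, hf k ▸ h2⟩ : _ ∈ Δ k \ frontier (Δ k))
  have hJΔ : ∀ k, J k ⊆ Δ k := fun k => hf k ▸ (hΔ k).isClosed.frontier_subset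
  have hni : ∀ k, ∀ y ∈ interior (Δ k), y ∉ Γ := fun k y hy hyΓ =>
    disjoint_left.1 disjoint_interior_frontier hy
      (hf k ▸ (key k).1 ▸ (⟨interior_subset hy, hyΓ⟩ : y ∈ Δ k ∩ Γ))
  refine ⟨Δ, fun k => ⟨hΔ k, hf k, hsub k, (key k).1⟩,
    Subset.antisymm (union_subset (iUnion_subset hsub) hΓ) ?_, fun k l hkl x hx => ?_⟩
  · obtain ⟨b, hb⟩ := (circle_isConnected hQ.frontier_isCircle).nonempty
    have hQc : IsPreconnected Q :=
      hQ.closure_interior ▸ hQ.isConnected_interior.isPreconnected.closure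
    refine all_of (p := fun x => x ∈ (⋃ k, Δ k) ∪ Γ) hQc (hΓ (hB hb)) (Or.inr (hB hb))
      (fun x _ hx => ?_) fun x _ hx => ?_
    · by_cases hxΓ : x ∈ Γ
      · have h1 : ∀ᶠ y in 𝓝 x, ∀ l, x ∈ J l → y ∈ P l → y ∈ Δ l := eventually_all.2 fun l => by
          by_cases h : x ∈ J l
          · filter_upwards [((key l).2 x h).1] with y hy _ using hy
          · exact Eventually.of_forall fun y h' => absurd h' h
        filter_upwards [hcov x hxΓ, h1] with y hy1 hy2 hyQ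
        rcases hy1 hyQ with h | ⟨l, hl1, hl2⟩
        · exact Or.inr h
        · exact Or.inl (mem_iUnion.2 ⟨l, hy2 l hl1 hl2⟩)
      · obtain ⟨k, hk⟩ := mem_iUnion.1 (hx.resolve_right hxΓ)
        filter_upwards [mem_interior_iff_mem_nhds.1 (hint k hk fun h => hxΓ ((hJ k).2.1 h))]
          with y hy _
        exact Or.inl (mem_iUnion.2 ⟨k, hy⟩)
    · filter_upwards [((isClosed_iUnion_of_finite fun k =>
        (hΔ k).isClosed).union hcl).isOpen_compl.mem_nhds hx] with y hy _ using hy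
  · by_contra hn
    have h1 := hint k hx.1 hn
    rcases subset_interior_or_compl (D := Δ l) (hΔ k).isConnected_interior.isPreconnected
      (disjoint_left.2 fun y hy hy' => hni k y hy ((hJ l).2.1 (hf l ▸ hy'))) with h | h
    · have h2 : Δ k ⊆ Δ l := by
        rw [← (hΔ k).closure_interior]
        exact closure_minimal (h.trans interior_subset) (hΔ l).isClosed
      have h3 : J k = J l := circle_eq_of_subset (hJ k).1 (hJ l).1 fun y hy =>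
        (key l).1 ▸ (⟨h2 (hJΔ k hy), (hJ k).2.1 hy⟩ : y ∈ Δ l ∩ Γ)
      obtain ⟨a, ha⟩ := (circle_isConnected (hJ k).1).nonempty
      have h4 : a ∈ closure (interior (Δ k)) := (hΔ k).closure_interior.symm ▸ hJΔ k ha
      obtain ⟨y, hy1, hy2, hy3⟩ := ((mem_closure_iff_frequently.1 h4).and_eventually
        (((key k).2 a ha).2.and ((key l).2 a (h3 ▸ ha)).2)).exists
      exact disjoint_left.1 (hd k l hkl h3) (hy2 hy1) (hy3 (h hy1))
    · exact h h1 (subset_closure hx.2)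

end Tile2

open A12 in
theorem tile2 : TILE2 := by
  intro E _ _ κ _ D B Γ J X X₀ hD hB hΓ hc hcl hJ hcov hd
  obtain ⟨hBD, φ, hφ⟩ := conBall_two_iff.1 hD
  have hJD : ∀ k, J k ⊆ D := fun k => (hJ k).2.1.trans hΓ
  have ev : ∀ {p : E → Prop}, ∀ x ∈ D, (∀ᶠ y in 𝓝 x, p y) →
      ∀ᶠ z in 𝓝 (φ.toFun x), z ∈ closedBall (0 : ℝ × ℝ) 1 → p (φ.invFun z) := by
    intro p x hx h
    have h1 := φ.cont_inv _ (φ.mapsTo hx)
    rw [ContinuousWithinAt, φ.left_inv hx] at h1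
    exact eventually_nhdsWithin_iff.1 (h1.eventually h)
  obtain ⟨Δ, h1, h2, h3⟩ := Tile2.plane (Γ := φ.toFun '' Γ) (fun k => φ.toFun '' J k)
    (fun k => φ.toFun '' (D ∩ X k)) (fun k => φ.toFun '' (D ∩ X₀ k)) ambDisc_square
    (by rw [frontier_square, ← hφ]; exact image_mono hB) (φ.imgSubD hΓ)
    (hc.image _ (φ.cont.mono hΓ))
    ((hD.isCompact.of_isClosed_subset hcl hΓ).image_of_continuousOn (φ.cont.mono hΓ)).isClosed
    (fun k => by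
      obtain ⟨a1, a2, a3, a4, a5, a6⟩ := hJ k
      refine ⟨circle_image a1 φ (hJD k), image_mono a2,
        ((hD.isCompact.inter_right a3).image_of_continuousOn
          (φ.cont.mono inter_subset_left)).isClosed,
        image_mono (inter_subset_inter_right _ a4), φ.imgSubD inter_subset_left, ?_, ?_⟩
      · rintro _ ⟨x, hx, rfl⟩
        refine ⟨?_, fun h => (a5 x hx).2 ((φ.memImgD hΓ hx.1).1 h)⟩
        have b1 := ev x hx.1 (eventually_nhdsWithin_iff.1 (a5 x hx).1)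
        refine eventually_nhdsWithin_iff.2 (b1.mono fun z hz hzQ => ?_)
        exact ⟨_, ⟨φ.mapsTo_inv hzQ, hz hzQ (φ.mapsTo_inv hzQ)⟩, φ.right_inv hzQ⟩
      · rintro _ ⟨x, hx, rfl⟩
        refine ⟨((φ.cont x (hJD k hx)).mono inter_subset_left).mem_closure_image (a6 x hx).1, ?_⟩
        filter_upwards [ev x (hJD k hx) (a6 x hx).2]
        rintro _ hz ⟨y, hy, rfl⟩
        have b1 := hz (φ.mapsTo hy.1)
        rw [φ.left_inv hy.1] at b1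
        exact (b1 hy.1 hy.2).imp (fun h => mem_image_of_mem _ ⟨hy.1, h⟩) (mem_image_of_mem _))
    (by
      rintro _ ⟨x, hx, rfl⟩
      filter_upwards [ev x (hΓ hx) (hcov x hx)] with z hz hzQ
      rcases hz hzQ (φ.mapsTo_inv hzQ) with h | ⟨k, hk1, hk2⟩
      · exact Or.inl ⟨_, h, φ.right_inv hzQ⟩
      · exact Or.inr ⟨k, mem_image_of_mem _ hk1, _, ⟨φ.mapsTo_inv hzQ, hk2⟩, φ.right_inv hzQ⟩)
    (fun k l hkl h => by
      have b1 : J k = J l := by rw [← φ.invImgD (hJD k), ← φ.invImgD (hJD l), h]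
      refine disjoint_left.2 ?_
      rintro _ ⟨x, hx, rfl⟩ h'
      exact disjoint_left.1 (hd k l hkl b1) hx.2 ((φ.memImgD inter_subset_left hx.1).1 h').2)
  refine ⟨fun k => φ.invFun '' Δ k, fun k => ⟨?_, ?_⟩, ?_, fun k l hkl x hx => ?_⟩
  · have := (h1 k).1.conBallD.image φ.symm (h1 k).2.2.1
    rwa [(h1 k).2.1, ConHomeo.symm_toFun, φ.invImgD (hJD k)] at this
  · ext x
    rw [mem_inter_iff, φ.memInvD (h1 k).2.2.1]
    constructor
    · rintro ⟨⟨hx, hx'⟩, hxΓ⟩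
      exact (φ.memImgD (hJD k) hx).1 ((h1 k).2.2.2 ▸
        (⟨hx', mem_image_of_mem _ hxΓ⟩ : φ.toFun x ∈ Δ k ∩ φ.toFun '' Γ))
    · intro hx
      have : φ.toFun x ∈ Δ k ∩ φ.toFun '' Γ := (h1 k).2.2.2.symm ▸ mem_image_of_mem _ hx
      exact ⟨⟨hJD k hx, this.1⟩, (hJ k).2.1 hx⟩
  · rw [← image_iUnion, ← φ.invImgD hΓ, ← image_union, h2]
    exact φ.symm.image_eq
  · have b1 := (φ.memInvD (h1 k).2.2.1).1 hx.1
    have b2 := (φ.memInvD (h1 l).2.2.1).1 hx.2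
    exact (φ.memImgD (hJD k) b1.1).1 (h3 k l hkl ⟨b1.2, b2.2⟩)

end P073.Wb
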