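import Vale.Agent.P073Y.Wb.TraceA
import Vale.Agent.P073Z.A14.Cyc

/-!
# The trace of the walls on the faces: circles and tiles
-/

open Set Metric Topology Filter
open scoped NNReal

namespace P073.Wb

namespace Trc

variable {X : Base} {c₀ : ℝ≥0} {Fr : Frame X c₀} {D : X.ι → Set E3}

/-- an end of an arc which lies in a subarc is an end of the subarc -/
theorem end_of_sub {A A' : Set E3} {p q a b : E3} (h : IsArc A p q) (h' : IsArc A' a b)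
    (hs : A' ⊆ A) (hp : p ∈ A') : p = a ∨ p = b := by
  obtain ⟨φ, h0, -⟩ := h
  have e := A12.arc_real (h'.image φ.symm hs)
  have ha := hs h'.left_mem
  have hb := hs h'.right_mem
  have h1 : (0:ℝ) ∈ uIcc (φ.invFun a) (φ.invFun b) := by
    refine e.le ⟨p, hp, ?_⟩
    rw [← h0]
    exact φ.left_inv ⟨le_rfl, zero_le_one⟩
  have h2 := (φ.mapsTo_inv ha).1
  have h3 := (φ.mapsTo_inv hb).1
  rcases mem_uIcc.1 h1 with h4 | h4
  · exact Or.inl (by rw [← h0, ← φ.right_inv ha, le_antisymm h4.1 h2])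
  · exact Or.inr (by rw [← h0, ← φ.right_inv hb, le_antisymm h4.1 h3])

namespace Tr1

variable (T : Tr1 X D)

theorem uniq {a a' : T.α} {x : E3} (h1 : T.face a = T.face a') (h2 : T.lab a = T.lab a')
    (hx : x ∈ T.A a) (hx' : x ∈ T.A a') : a = a' := by
  by_contra hne
  exact disjoint_left.1 (T.disj a a' hne h1 h2) hx hx'

theorem inter_ends {a a' : T.α} (hne : a ≠ a') (h2 : T.lab a = T.lab a') :
    T.A a ∩ T.A a' ⊆ {T.p a, T.q a} := by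
  intro x hx
  refine (T.ends a).le ⟨hx.1, X.K.inter_subset_bd (fun e => hne (T.uniq e h2 hx.1 hx.2))
    (by rw [T.dim_face, T.dim_face]) ⟨(T.sub a hx.1).2, (T.sub a' hx.2).2⟩⟩

/-- exactly two arcs on the boundary of a cell end at a point of a wire -/
theorem deg_two (h : State Fr D) {c : X.K.ι} (hc : X.K.dim c = 3) {a : T.α} {x : E3}
    (ha : X.K.cell (T.face a) ⊆ X.K.cell c) (hx : x ∈ ({T.p a, T.q a} : Set E3)) :
    {a' | (T.lab a' = T.lab a ∧ X.K.cell (T.face a') ⊆ X.K.cell c) ∧ x ∈ T.A a'}.ncard = 2 := by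
  have h1 := (T.ends a).ge hx
  have fb : ∀ {φ}, X.K.dim φ = 2 → X.K.cell φ ⊆ X.K.cell c → X.K.cell φ ⊆ X.K.bd c :=
    fun h2 h3 => X.K.subset_bd_of_dim_lt h3 (by omega)
  obtain ⟨e, he, -, -, h2, h3, -⟩ := Fr.wire x (h.wire _ ⟨(T.sub a h1.1).1,
    X.K.bd_subset_skel (T.dim_face a).le h1.2⟩)
  have h4 : x ∈ X.K.ocell e := h2 (h3.ge (mem_singleton x)).1
  obtain ⟨j₁, j₂, hne, hj⟩ := Man.two_top (n := 1) (X.K.sub_bd c)
    (ConBall.conSphere (hc ▸ X.K.ball c : ConBall (2 + 1) _ _)).plMan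
    ((X.K.cell_subset_of_mem h4 (T.sub a h1.1).2).trans (fb (T.dim_face a) ha)) he
  obtain ⟨e1, b1, d1⟩ := (hj j₁).2 (Or.inl rfl)
  obtain ⟨e2, b2, d2⟩ := (hj j₂).2 (Or.inr rfl)
  obtain ⟨a₁, f1, l1, m1⟩ := T.sat a j₁ d1 x h1.1 (e1 h4.1)
  obtain ⟨a₂, f2, l2, m2⟩ := T.sat a j₂ d2 x h1.1 (e2 h4.1)
  refine ncard_eq_two.2 ⟨a₁, a₂, fun e => hne (by rw [← f1, ← f2, e]), Subset.antisymm ?_ ?_⟩
  · rintro a' ⟨⟨h5, h6⟩, h7⟩
    rcases (hj _).1 ⟨X.K.cell_subset_of_mem h4 (T.sub a' h7).2, fb (T.dim_face a') h6,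
      T.dim_face a'⟩ with h8 | h8
    · exact Or.inl (T.uniq (h8.trans f1.symm) (h5.trans l1.symm) h7 m1)
    · exact Or.inr (T.uniq (h8.trans f2.symm) (h5.trans l2.symm) h7 m2)
  · rintro a' (rfl | rfl)
    · exact ⟨⟨l1, f1 ▸ b1.trans (X.K.bd_subset c)⟩, m1⟩
    · exact ⟨⟨l2, f2 ▸ b2.trans (X.K.bd_subset c)⟩, m2⟩

/-- the arcs of one wall on the boundary of one cell form disjoint circles -/
theorem circles (h : State Fr D) (c : X.K.ι) (i : X.ι) (hc : X.K.dim c = 3) :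
    ∃ 𝒞 : Finset (Finset T.α),
      (∀ s ∈ 𝒞, ∀ a ∈ s, T.lab a = i ∧ X.K.cell (T.face a) ⊆ X.K.cell c) ∧
      (∀ a, T.lab a = i → X.K.cell (T.face a) ⊆ X.K.cell c → ∃ s ∈ 𝒞, a ∈ s) ∧
      (∀ s ∈ 𝒞, ∀ s' ∈ 𝒞, s ≠ s' → Disjoint (⋃ a ∈ s, T.A a) (⋃ a ∈ s', T.A a)) ∧
      ∀ s ∈ 𝒞, IsCircle (⋃ a ∈ s, T.A a) := by
  have := T.finα
  obtain ⟨S, hS⟩ : ∃ S : Finset T.α, ∀ a,
      a ∈ S ↔ T.lab a = i ∧ X.K.cell (T.face a) ⊆ X.K.cell c :=
    ⟨(toFinite {a | T.lab a = i ∧ X.K.cell (T.face a) ⊆ X.K.cell c}).toFinset,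
      fun a => Finite.mem_toFinset _⟩
  have d2 : ∀ a ∈ S, ∀ x ∈ ({T.p a, T.q a} : Set E3), {j | j ∈ S ∧ x ∈ T.A j}.ncard = 2 := by
    intro a ha x hx
    simp only [hS, ← ((hS a).1 ha).1]
    exact T.deg_two h hc ((hS a).1 ha).2 hx
  have ie : ∀ a ∈ S, ∀ a' ∈ S, a ≠ a' → T.A a ∩ T.A a' ⊆ {T.p a, T.q a} := fun a ha a' ha' hne =>
    T.inter_ends hne (((hS a).1 ha).1.trans ((hS a').1 ha').1.symm)
  obtain ⟨𝒞, h1, h2, h3, h4⟩ := cyc S T.A T.p T.q (fun a _ => T.arc a)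
    (fun a ha a' ha' hne => subset_inter (ie a ha a' ha' hne)
      ((inter_comm _ _).le.trans (ie a' ha' a ha hne.symm))) (fun x => by
      by_contra hn
      obtain ⟨a, ha, a', ha', hne⟩ := (one_lt_ncard (toFinite {j | j ∈ S ∧ x ∈ T.A j})).1 (by omega)
      exact hn (d2 a ha.1 x (ie a ha.1 a' ha'.1 hne ⟨ha.2, ha'.2⟩)).le)
  refine ⟨𝒞, fun s hs a ha => (hS a).1 (h1 s hs ha), fun a e1 e2 => h2 a ((hS a).2 ⟨e1, e2⟩), h3,
    fun s hs => ?_⟩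
  rcases h4 s hs with h5 | ⟨p, q, h5, h6⟩
  · exact h5.1
  · obtain ⟨a, ha, hp⟩ := mem_iUnion₂.1 h5.left_mem
    have h7 : p ∈ ({T.p a, T.q a} : Set E3) :=
      end_of_sub h5 (T.arc a) (subset_biUnion_of_mem (u := T.A) ha) hp
    have h8 := (h6 a ha p h7).2 (Or.inl rfl)
    rw [d2 a (h1 s hs ha) p h7] at h8
    omega

end Tr1

/-- the circles -/
structure Tr2 (T : Tr1 X D) where
  /-- circles -/
  κ : Type
  finκ : Finite κ
  /-- the cell of a circle -/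
  cel : κ → X.K.ι
  /-- the wall of a circle -/
  clab : κ → X.ι
  /-- the arcs of a circle -/
  s : κ → Set T.α
  dim_cel : ∀ k, X.K.dim (cel k) = 3
  mem_s : ∀ k, ∀ a ∈ s k, T.lab a = clab k ∧ X.K.cell (T.face a) ⊆ X.K.cell (cel k)
  cover : ∀ a c, X.K.dim c = 3 → X.K.cell (T.face a) ⊆ X.K.cell c → ∃ k, cel k = c ∧ a ∈ s k
  sdisj : ∀ k l, k ≠ l → cel k = cel l → clab k = clab l →
    Disjoint (⋃ a ∈ s k, T.A a) (⋃ a ∈ s l, T.A a)
  circ : ∀ k, IsCircle (⋃ a ∈ s k, T.A a)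

theorem exists_tr2 (h : State Fr D) (T : Tr1 X D) : Nonempty (Tr2 T) := by
  have := X.fin
  have := X.finι
  have h0 := T.circles h
  choose! 𝒞 h1 h2 h3 h4 using h0
  refine ⟨⟨{k : Σ (c : X.K.ι) (i : X.ι), {s // s ∈ 𝒞 c i} // X.K.dim k.1 = 3}, inferInstance,
    fun k => k.1.1, fun k => k.1.2.1, fun k => k.1.2.2.1, fun k => k.2,
    fun k a ha => h1 _ _ k.2 _ k.1.2.2.2 a ha, fun a c hc ha => ?_, ?_,
    fun k => h4 _ _ k.2 _ k.1.2.2.2⟩⟩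
  · obtain ⟨s, hs, h5⟩ := h2 c _ hc a rfl ha
    exact ⟨⟨⟨c, T.lab a, s, hs⟩, hc⟩, rfl, h5⟩
  · rintro ⟨⟨c, i, s, hs⟩, hc⟩ ⟨⟨c', i', s', hs'⟩, hc'⟩ hne (rfl : c = c') (rfl : i = i')
    refine h3 c i hc s hs s' hs' ?_
    rintro rfl
    exact hne rfl

/-- the tiling of one wall -/
theorem Tr2.tiles {T : Tr1 X D} (U : Tr2 T) (hT : TILE2) (h : State Fr D) (i : X.ι) :
    ∃ Δ : U.κ → Set E3, (∀ k, U.clab k = i → ConBall 2 (Δ k) (⋃ a ∈ U.s k, T.A a) ∧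
        Δ k ∩ ({x | Att X D X.faces i x} ∪ (Fr.nb i).W) = ⋃ a ∈ U.s k, T.A a) ∧
      (⋃ k, ⋃ (_ : U.clab k = i), Δ k) ∪ (Fr.nb i).W = D i ∧
      ∀ k l, k ≠ l → U.clab k = i → U.clab l = i → Δ k ∩ Δ l ⊆ ⋃ a ∈ U.s k, T.A a := by
  classical
  have := U.finκ
  have := T.finα
  have := X.fin
  -- attached points on a face of a cell lie on a circle of this cell
  have key : ∀ c φ x, X.K.dim c = 3 → X.K.dim φ = 2 → X.K.cell φ ⊆ X.K.cell c → x ∈ X.K.cell φ →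
      Att X D X.faces i x → ∃ k a, U.cel k = c ∧ U.clab k = i ∧ a ∈ U.s k ∧ x ∈ T.A a := by
    intro c φ x hc hφ h1 h2 h3
    obtain ⟨a, h4, h5⟩ := T.full i x h3
    obtain ⟨a', h6, h7, h8⟩ := T.sat a φ hφ x h5 h2
    obtain ⟨k, h9, h10⟩ := U.cover a' c hc (h6 ▸ h1)
    exact ⟨k, a', h9, (U.mem_s k a' h10).1.symm.trans (h7.trans h4), h10, h8⟩
  have hW : (Fr.nb i).W ⊆ D i ∩ X.U := (h.frozen i).ge
  have hΓ : {x | Att X D X.faces i x} ∪ (Fr.nb i).W ⊆ D i :=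
    union_subset (fun x hx => (att_mem hx).1) fun x hx => (hW hx).1
  have notop : ∀ c x, X.K.dim c = 3 → x ∈ X.K.ocell c →
      x ∉ {x | Att X D X.faces i x} ∪ (Fr.nb i).W := by
    rintro c x hc hx (h1 | h1)
    · obtain ⟨φ, hφ, h2⟩ := mem_iUnion₂.1 (att_mem h1).2
      have h3 := X.K.dim_le (X.K.cell_subset_of_mem hx h2)
      have h4 : X.K.dim φ = 2 := hφ
      omega
    · exact ocell_notU hc hx (hW h1).2
  have jatt : ∀ k, U.clab k = i → ∀ x ∈ ⋃ a ∈ U.s k, T.A a, Att X D X.faces i x := by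
    intro k hk x hx
    obtain ⟨a, ha, h1⟩ := mem_iUnion₂.1 hx
    exact hk ▸ (U.mem_s k a ha).1 ▸ T.att a x h1
  have near : ∀ x, ∀ᶠ y in 𝓝 x, ∀ a, y ∈ T.A a → x ∈ T.A a := fun x =>
    eventually_all.2 fun a => by
      by_cases hx : x ∈ T.A a
      · exact Eventually.of_forall fun _ _ => hx
      · filter_upwards [(T.arc a).isClosed.isOpen_compl.mem_nhds hx] with y hy h using absurd h hy
  have hcl : IsClosed {x | Att X D X.faces i x} := by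
    have e : {x | Att X D X.faces i x} = ⋃ a, ⋃ (_ : T.lab a = i), T.A a := by
      ext x
      simp only [mem_iUnion, exists_prop]
      exact ⟨T.full i x, fun ⟨a, h1, h2⟩ => h1 ▸ T.att a x h2⟩
    rw [e]
    exact isClosed_iUnion_of_finite fun a => isClosed_iUnion_of_finite fun _ => (T.arc a).isClosed
  have main := hT (κ := {k // U.clab k = i}) (Γ := {x | Att X D X.faces i x} ∪ (Fr.nb i).W)
    (fun k => ⋃ a ∈ U.s k.1, T.A a) (fun k => X.K.cell (U.cel k.1))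
    (fun k => X.K.ocell (U.cel k.1)) (h.disc i) (fun x hx => Or.inr hx.1) hΓ (att_conn h i)
    (hcl.union (Bd.Bas1.W_cpt (Fr.nb_on i).ok).1.isClosed)
    (fun k => ⟨U.circ k, fun x hx => Or.inl (jatt k k.2 x hx), X.K.isClosed_cell _,
      X.K.ocell_subset _, fun x hx => ⟨nhdsWithin_mono _ (h.sub i) (ocell_nhds (U.dim_cel k) hx.2),
        notop _ x (U.dim_cel k) hx.2⟩, fun x hx => ⟨?_, ?_⟩⟩) (fun x hx => ?_)
    (fun k l hkl e => ?_)
  · obtain ⟨Δ, h1, h2, h3⟩ := main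
    refine ⟨fun k => if hk : U.clab k = i then Δ ⟨k, hk⟩ else ∅, fun k hk => ?_, ?_,
      fun k l hkl hk hl => ?_⟩
    · simp only [dif_pos hk]
      exact h1 ⟨k, hk⟩
    · have e : (⋃ k, ⋃ (_ : U.clab k = i), if hk : U.clab k = i then Δ ⟨k, hk⟩ else ∅) =
          ⋃ k, Δ k := by
        rw [iUnion_subtype]
        exact iUnion_congr fun k => iUnion_congr fun hk => dif_pos hk
      rw [e, ← h2]
      refine Subset.antisymm (union_subset_union_right _ subset_union_right)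
        (union_subset subset_union_left (union_subset (fun x hx => ?_) subset_union_right))
      obtain ⟨φ, hφ, f1⟩ := mem_iUnion₂.1 (att_mem hx).2
      obtain ⟨c, hc, f2⟩ := exists_top φ
      obtain ⟨k, a, -, k2, k3, k4⟩ := key c φ x hc hφ f2 f1 hx
      exact Or.inl (mem_iUnion.2 ⟨⟨k, k2⟩, (h1 ⟨k, k2⟩).1.1 (mem_biUnion k3 k4)⟩)
    · simp only [dif_pos hk, dif_pos hl]
      exact h3 ⟨k, hk⟩ ⟨l, hl⟩ fun e => hkl (congrArg Subtype.val e)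
  · obtain ⟨a, ha, h1⟩ := mem_iUnion₂.1 hx
    exact h.two i _ (U.dim_cel k) ⟨(att_mem (jatt k k.2 x hx)).1,
      (U.mem_s k a ha).2 (T.sub a h1).2⟩
  · filter_upwards [att_open h (jatt k k.2 x hx), near x] with y y1 y2 y3 y4
    by_cases hb : y ∈ X.K.bd (U.cel k)
    swap
    · exact Or.inl ⟨y4, hb⟩
    obtain ⟨φ, hφ, f1, f2⟩ := face_of_bd (U.dim_cel k) hb
    obtain ⟨l, a, l1, l2, l3, l4⟩ := key _ φ y (U.dim_cel k) hφ (f2.trans (X.K.bd_subset _)) f1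
      (y1 φ hφ y3 f1)
    by_cases e : l = k
    · exact Or.inr (mem_biUnion (e ▸ l3) l4)
    · exact (disjoint_left.1 (U.sdisj l k e l1 (l2.trans k.2.symm))
        (mem_biUnion l3 (y2 a l4)) hx).elim
  · filter_upwards [near_cell (X := X) x] with y y1 y2
    rcases X.cover.ge (h.sub i y2) with y3 | y3
    swap
    · exact Or.inl (Or.inr ((h.frozen i).le ⟨y2, y3⟩))
    obtain ⟨c, hc, h1⟩ := X.top y y3
    obtain ⟨φ, hφ, f1, f2⟩ := face_of_bd hc (x := x)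
      (by_contra fun hb => notop c x hc ⟨y1 c h1, hb⟩ hx)
    obtain ⟨k, a, k1, k2, k3, k4⟩ := key c φ x hc hφ (f2.trans (X.K.bd_subset _)) f1
      (hx.elim id fun h2 => att_frozen hφ (hW h2).1 f1 (hW h2).2)
    exact Or.inr ⟨⟨k, k2⟩, mem_biUnion k3 k4, k1 ▸ h1⟩
  · refine X.K.disj _ _ fun e' => ?_
    obtain ⟨x, hx⟩ := (A12.circle_isConnected (U.circ k)).nonempty
    exact disjoint_left.1 (U.sdisj k l (fun e'' => hkl (Subtype.ext e'')) e' (k.2.trans l.2.symm))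
      hx (e.le hx)

end Trc

open Trc

theorem trace_of (hT : TILE2) : TRACE := by
  intro X c₀ Fr D h
  obtain ⟨T⟩ := exists_tr1 h
  obtain ⟨U⟩ := exists_tr2 h T
  choose Δ h1 h2 h3 using U.tiles hT h
  exact ⟨{ T, U with
    Δ := fun k => Δ (U.clab k) k
    tile := fun k => ⟨(h1 _ k rfl).1, fun x hx => (h1 _ k rfl).2.le ⟨hx.1, Or.inr
      ((h.frozen _).le ⟨(h2 _).le (Or.inl (mem_iUnion₂.2 ⟨k, rfl, hx.1⟩)), hx.2⟩)⟩,
      fun a ha x hx => (h1 _ k rfl).2.le ⟨hx.1, Or.inl (ha ▸ T.att a x hx.2)⟩⟩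
    tile_union := fun i => by
      rw [← h2 i]
      exact congrArg (· ∪ _) (iUnion_congr fun k => iUnion_congr fun hk => by rw [hk])
    tile_inter := fun k l hkl e => by
      have := h3 (U.clab k) k l hkl rfl e.symm
      rwa [e] at this ⊢ }⟩

end P073.Wb
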