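import Vale.Agent.P073Y.Wb.Engine
import Vale.Agent.P073Y.Bd.Bas
import Vale.Agent.P073Y.Bd.Map
import Vale.Agent.P073Z.JB
import Vale.Agent.P073Z.SCH3F
import Vale.Agent.P073Z.A12.Arcs

/-!
# Assembly of the two family engine
-/

open Set Metric Topology Filter
open scoped NNReal

namespace P073.Wb

open P073.Bd (Band I cl Match Sgn Comm Ext PwLip Chart Lev corner Gen1)

variable {X : Base} {c₀ : ℝ≥0} {Fr : Frame X c₀}

theorem cl_half (a : ℝ) : cl (2 * cl (a / 2)) = cl a := by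
  rcases le_total 2 a with h | h
  · rw [Bd.Bas1.cl_of_ge (show 1 ≤ a / 2 by linarith), Bd.Bas1.cl_of_ge (show (1:ℝ) ≤ 2 * 1 by norm_num),
      Bd.Bas1.cl_of_ge (show 1 ≤ a by linarith)]
  rcases le_total a (-2) with h' | h'
  · rw [Bd.Bas1.cl_of_le (show a / 2 ≤ -1 by linarith),
      Bd.Bas1.cl_of_le (show (2:ℝ) * -1 ≤ -1 by norm_num), Bd.Bas1.cl_of_le (show a ≤ -1 by linarith)]
  · rw [Bd.Bas1.cl_of_mem (show a / 2 ∈ I from ⟨by linarith, by linarith⟩)]
    congr 1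
    ring

theorem abs_cl_le_half {a : ℝ} : |cl a| ≤ 1 / 2 ↔ |a| ≤ 1 / 2 := by
  unfold cl
  rw [abs_le, abs_le]
  simp only [max_def, min_def]
  split_ifs <;> constructor <;> rintro ⟨h1, h2⟩ <;> constructor <;> linarith

theorem cl_eq_one {a : ℝ} (h : cl a = 1) : 1 ≤ a := by
  unfold cl at h
  simp only [max_def, min_def] at h
  split_ifs at h <;> linarith

theorem cl_eq_neg_one {a : ℝ} (h : cl a = -1) : a ≤ -1 := by
  unfold cl at h
  simp only [max_def, min_def] at h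
  split_ifs at h <;> linarith

theorem cl_eq_zero' {a : ℝ} : cl a = 0 ↔ a = 0 := by
  unfold cl
  simp only [max_def, min_def]
  split_ifs <;> constructor <;> intro h <;> linarith

theorem Base.co_ne_two (X : Base) (i : X.ι) : X.co i ≠ 2 := by
  unfold Base.co; split_ifs <;> decide

theorem Base.co_eq_iff (X : Base) (i j : X.ι) : X.co i = X.co j ↔ X.fam i = X.fam j := by
  unfold Base.co
  cases X.fam i <;> cases X.fam j <;> simp

theorem Base.bd_subset (X : Base) : X.bd ⊆ X.Ω := X.ball.1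

theorem Base.U_subset (X : Base) : X.U ⊆ X.Ω := X.cover ▸ subset_union_right

theorem Base.cell_subset (X : Base) (c : X.K.ι) : X.K.cell c ⊆ X.Ω :=
  (X.K.cell_subset_carrier c).trans (X.cover ▸ subset_union_left)

theorem Base.isOpen_ocell (X : Base) {c : X.K.ι} (hc : X.K.dim c = 3) : IsOpen (X.K.ocell c) := by
  have hb : ConBall 3 (X.K.cell c) (X.K.bd c) := by
    have := X.K.ball c
    rwa [hc] at this
  have h1 := jb.2 hb
  have h2 := (jb.1 (ConBall.conSphere (n := 2) hb)).1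
  rwa [h1] at h2

theorem Base.ocell_disjoint (X : Base) {c : X.K.ι} (hc : X.K.dim c = 3) :
    Disjoint (X.K.ocell c) X.U := by
  rw [Set.disjoint_left]
  intro x hx hU
  obtain ⟨j, hj, hsub⟩ := X.sub x ⟨X.K.cell_subset_carrier c hx.1, hU⟩
  exact X.thin c hc fun y hy => (hsub (X.K.cell_subset_of_mem hx hj hy)).2

/-- natural form of the half band on the frozen part -/
theorem Flat.half {lo hi : E3} {g : ConHomeo X.Ω (Icc lo hi)} {t : X.ι → ℝ} {lam : ℝ}
    (hF : Flat Fr g t lam) {b : X.ι → Band E3} (hb : Model Fr b) (i : X.ι) {x : E3}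
    (hx : x ∈ X.U) : (x ∈ (b i).B ↔ |g.toFun x (X.co i) - t i| ≤ lam) ∧
    (b i).u x = cl ((g.toFun x (X.co i) - t i) / lam) ∧
    (x ∈ (b i).B → ∀ s ∈ I, (b i).M (x, s) = (Fr.nb i).M (x, s / 2) ∧ x ∈ (Fr.nb i).B ∧
      g.toFun ((b i).M (x, s)) = Function.update (g.toFun x) (X.co i) (t i + lam * s)) := by
  obtain ⟨h1, h2, h3⟩ := hF.nat i x hx
  obtain ⟨e1, e2, e3⟩ := hb.ext i
  have hl := hF.pos
  have hq : (g.toFun x (X.co i) - t i) / (2 * lam) = (g.toFun x (X.co i) - t i) / lam / 2 := by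
    field_simp
  have hmem : x ∈ (b i).B ↔ x ∈ (Fr.nb i).half.B := by
    rw [← e1]; exact ⟨fun h => ⟨h, hx⟩, fun h => h.1⟩
  refine ⟨?_, ?_, fun hB s hs => ?_⟩
  · rw [hmem]
    show x ∈ (Fr.nb i).B ∧ |(Fr.nb i).u x| ≤ 1 / 2 ↔ _
    rw [h1, h2, abs_cl_le_half, abs_div, abs_of_pos (by positivity : (0:ℝ) < 2 * lam),
      div_le_iff₀ (by positivity)]
    constructor
    · rintro ⟨-, h⟩; linarith
    · intro h; constructor <;> linarith
  · rw [e2 x hx]
    show cl (2 * (Fr.nb i).u x) = _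
    rw [h2, hq, cl_half]
  · have hB' := hmem.1 hB
    have hs' : s / 2 ∈ I := ⟨by linarith [hs.1], by linarith [hs.2]⟩
    have hM : (b i).M (x, s) = (Fr.nb i).M (x, s / 2) := e3 x hB' s hs
    refine ⟨hM, hB'.1, ?_⟩
    rw [hM, h3 hB'.1 _ hs']
    congr 1
    ring

theorem wbox_of (hT : TRACE) (hFa : FACES c₀) (hC : CELLS c₀) (hW : WALLS) (hM : MODEL)
    (hN : NORMLE) (hE : ENGINE) (hA : ARC1) (hG : MGEN) (hI : INIT2) (hL : LOCATT) (hD : DRIFT)
    (hF2 : Bd.FLAT2) : WBOX c₀ := by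
  intro X lo hi g t lam hR hZ
  have hB := Bd.bas E3
  haveI := X.finι
  obtain ⟨Fr, hF, hS⟩ := hI g t hR hZ
  have hl : (0:ℝ) < lam := hF.pos
  obtain ⟨D', b, -, -, hb, h0, -, hle, -, hatt⟩ := hE (Fr := Fr) (fun _ _ => True)
    (fun D hD => by
      obtain ⟨T⟩ := hT hD
      obtain ⟨β, hβ⟩ := hFa hD T
      obtain ⟨γ, hγ⟩ := hC hD T β hβ
      obtain ⟨b, hb⟩ := hW hD T β γ hβ hγ
      obtain ⟨h1, h2⟩ := hN hD T β γ b hβ hγ hb
      exact ⟨b, hM hD T β γ b hβ hγ hb, h1, trivial, h2⟩) _ hS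
  obtain ⟨hSb, hgen⟩ := hG hb
  -- the boundary map
  have himg : g.toFun '' X.bd = frontier (Icc lo hi) := by
    rw [hF.bd_eq]
    ext y
    constructor
    · rintro ⟨x, hx, rfl⟩; exact hx.2
    · intro hy
      have hy' : y ∈ Icc lo hi := isClosed_Icc.frontier_subset hy
      exact ⟨g.invFun y, ⟨g.mapsTo_inv hy', by rwa [g.right_inv hy']⟩, g.right_inv hy'⟩
  let φ : ConHomeo X.bd (frontier (Icc lo hi)) :=
    (g.restr X.ball.locCone_bdry.conicalSet X.bd_subset).cast rfl himg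
  have hφ : φ.toFun = g.toFun := rfl
  have hWbd : ∀ i, (b i).W ∩ X.bd = (Fr.nb i).W ∩ X.bd := fun i => by
    rw [← hSb.frozen i, inter_assoc, inter_eq_right.2 X.bd_sub]
  obtain ⟨G, hGb, hGn⟩ := hF2 b t X.co φ X.ball hF.lt hl
    (fun i => ⟨X.co_ne_two i, by linarith [(hF.inside i).1], by linarith [(hF.inside i).2]⟩)
    (fun i j hij => ⟨hb.comm i j hij, fun h => ⟨hb.disj i j hij ((X.co_eq_iff i j).1 h),
      by linarith [hF.sep i j hij ((X.co_eq_iff i j).1 h)]⟩,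
      fun h => hA hb h0 i j fun h' => h ((X.co_eq_iff i j).2 h')⟩)
    (fun i => ⟨hb.on i, by rw [hWbd i]; exact hb.disc i, fun x hx => by
      obtain ⟨h1, h2, h3⟩ := hF.half hb i (X.bd_sub hx)
      refine ⟨h1, h2, fun hxB s hs => ⟨?_, (h3 hxB s hs).2.2⟩⟩
      obtain ⟨e1, e2, -⟩ := h3 hxB s hs
      rw [e1]
      exact Fr.nb_keep_bd i x e2 _ ⟨by linarith [hs.1], by linarith [hs.2]⟩ hx⟩)
  have hlvl : lvl G t = fun i => (b i).W := by
    funext i
    rw [hB.on_W (hb.on i)]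
    ext x
    refine and_congr_right fun hx => ?_
    rw [(hGn i x hx).2.1, cl_eq_zero', div_eq_zero_iff, sub_eq_zero]
    simp [hl.ne']
  have hlab : Lab g t (fun i => (b i).W) := by
    intro i p hp
    obtain ⟨j, hj⟩ := hatt i p hp
    refine ⟨j, hj.mem, fun L hL1 hL2 hL3 hL4 hL5 => ?_⟩
    have h1 := hL g t hF hS j p hj L hL1 hL2 hL3 hL4
    have h2 := hle.pers (near g L) (fun φ hφ => ⟨hφ.1, hL5 φ hφ⟩) j p hp.2 h1
    by_contra hij
    exact Set.disjoint_left.1 (hb.wire_disj i j hij) ⟨hp.1, h2.mem⟩ hp.2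
  have hinv : ∀ i, ∀ x ∈ X.Ω, |G.toFun x (X.co i) - t i| ≤ lam → ∀ s ∈ I, x ∈ (b i).B ∧
      G.invFun (Function.update (G.toFun x) (X.co i) (t i + lam * s)) = (b i).M (x, s) := by
    intro i x hx hxl s hs
    have hxB := (hGn i x hx).1.2 hxl
    refine ⟨hxB, ?_⟩
    rw [← (hGn i x hx).2.2 hxB s hs]
    exact G.left_inv ((hb.on i).sub ((hb.on i).ok.Mmem x hxB s hs).1)
  refine ⟨G, hGb, fun i x hx => ?_, hlvl ▸ hle, hlvl ▸ hlab, fun i => by rw [hlvl]; exact hgen i,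
    fun i c => by rw [hlvl]; exact hb.touch i c, ?_, ?_, ?_, ?_⟩
  · rw [← (hGn i x (X.U_subset hx)).2.1, (hF.half hb i hx).2.1]
  · rw [hlvl]
    intro i j hij x hx
    by_cases hx2 : x ∈ X.K.skel 2 ∪ X.U
    · exact ⟨{x}, singleton_subset_iff.2 hx, isPreconnected_singleton, rfl, ⟨x, rfl, hx2⟩,
        fun c _ hc => singleton_subset_iff.2 hc.1⟩
    · have hxΩ : x ∈ X.Ω := (hb.on i).sub hx.1.1
      have hxK : x ∈ X.K.carrier := by
        rw [← X.cover] at hxΩ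
        exact hxΩ.resolve_right fun h => hx2 (Or.inr h)
      obtain ⟨c, hc⟩ := X.K.exists_ocell hxK
      have hc3 : X.K.dim c = 3 := by
        have h1 := X.dim_le c
        by_contra h
        exact hx2 (Or.inl (X.K.mem_skel.2 ⟨c, by omega, hc.1⟩))
      have hfam : X.fam i ≠ X.fam j := fun h =>
        Set.disjoint_left.1 (hb.disj i j hij h) hx.1.1 hx.2.1
      obtain ⟨p, hp, q, hq, harc⟩ := hA hb h0 i j hfam
      have hpc : p ∉ X.K.ocell c := fun h =>
        Set.disjoint_left.1 (X.ocell_disjoint hc3) h (X.bd_sub hp)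
      have hne : p ≠ x := fun h => hpc (h ▸ hc)
      obtain ⟨A', ⟨hA', hsub⟩, -⟩ := (arcs (E := E3)).1 harc harc.left_mem hx hne
      obtain ⟨a, ha, A'', hA'', hsub', hK⟩ := (arcs (E := E3)).2.2.2.2.2.2 hA'
        (X.isOpen_ocell hc3).isClosed_compl hpc (fun h => h hc)
      have hin : A'' \ {a} ⊆ X.K.ocell c := fun y hy => by
        by_contra h
        exact hy.2 (hK ▸ (⟨hy.1, h⟩ : y ∈ A'' ∩ (X.K.ocell c)ᶜ))
      have hac : a ∈ X.K.cell c := by
        have h1 : a ∈ closure (A'' \ {a, x}) := hA''.conBall.subset_closure_int hA''.left_mem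
        refine (X.K.isClosed_cell c).closure_subset (closure_mono (fun y hy => ?_) h1)
        exact (hin ⟨hy.1, fun h => hy.2 (Or.inl h)⟩).1
      refine ⟨A'', hsub'.trans hsub, hA''.conBall.isConnected.isPreconnected, hA''.right_mem,
        ⟨a, hA''.left_mem, Or.inl ?_⟩, fun c' _ hc' => ?_⟩
      · have hab : a ∈ X.K.bd c := by
          by_contra h
          exact ha.2 ⟨hac, h⟩
        obtain ⟨j', h1, -, h3⟩ := X.K.exists_face_bd hab
        exact X.K.mem_skel.2 ⟨j', by omega, h1.1⟩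
      · rw [X.K.ocell_unique hc' hc]
        intro y hy
        by_cases h : y = a
        · exact h ▸ hac
        · exact (hin ⟨hy, h⟩).1
  · intro i x hx hxl s hs
    obtain ⟨hxB, he⟩ := hinv i x hx hxl s hs
    rw [he]
    refine ⟨fun hU => ?_, fun c hc => hb.keep i c x hxB s hs hc⟩
    rw [← ((hF.half hb i hU).2.2 hxB s hs).2.2]
    exact (g.left_inv ((hb.on i).sub ((hb.on i).ok.Mmem x hxB s hs).1)).symm
  · intro c s hs
    obtain ⟨𝒞, h1, h2⟩ := (Bd.lipg (E := E3)).2 (L := 4 * X.L c) s b (X.K.isClosed_cell c)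
      (fun i _ => ⟨(hb.on i).upl.1.mono (X.cell_subset c), (hb.on i).ok.cpt.isClosed, hb.lip i c,
        fun x hx hxB => (hb.on i).out x (X.cell_subset c hx) hxB⟩)
      (fun i hi j hj hij => hb.disj i j hij (hs i hi j hj))
    classical
    refine ⟨𝒞.image (· ∩ X.K.cell c), ?_, fun x hx => ?_⟩
    · intro Y hY
      obtain ⟨Y', hY', rfl⟩ := Finset.mem_image.1 hY
      refine ⟨(h1 Y' hY').1.inter (X.K.isClosed_cell c), fun x hx y hy => ?_⟩
      have := (h1 Y' hY').2 hx.1 hy.1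
      simp only at this ⊢
      rw [← Finset.sum_congr rfl fun i _ => (hGn i x (X.cell_subset c hx.2)).2.1,
        ← Finset.sum_congr rfl fun i _ => (hGn i y (X.cell_subset c hy.2)).2.1]
      exact this
    · obtain ⟨Y, hY, hxY⟩ := mem_iUnion₂.1 (h2 hx)
      exact mem_iUnion₂.2 ⟨_, Finset.mem_image_of_mem _ hY, hxY, hx⟩
  · intro i o κ ho h1 h2 x hx
    obtain ⟨d1, d2⟩ := hD g t i hF hb hlab ho h1 h2 x hx
    have hu := (hGn i x hx).2.1
    refine ⟨fun a1 a2 => ?_, fun a1 a2 => ?_⟩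
    · have := cl_eq_one (hu ▸ d1 a1 a2)
      rw [le_div_iff₀ hl] at this
      linarith
    · have := cl_eq_neg_one (hu ▸ d2 a1 a2)
      rw [div_le_iff₀ hl] at this
      linarith

end P073.Wb
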