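import Vale.Agent.P073Y.Wb.Sk
import Vale.Agent.P073Y.Bd.Bas
import Vale.Agent.P073Z.A12.Arcs
import Vale.Agent.P073Z.RCX

/-!
# The exchange makes the walls simpler; without extra circles two walls meet in one arc
-/

open Set Metric Topology Filter
open scoped NNReal

namespace P073.Wb

open P073.Bd (Band I cl Match Sgn Comm Ext PwLip Chart Lev corner Gen1 bas)

namespace Sw3

/-- the component of a point in a one-manifold -/
theorem comp {E : Type} [NormedAddCommGroup E] [NormedSpace ℝ E] {T S : Set E} (h : Lev T S)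
    {x : E} (hx : x ∈ T) : ∃ c, c ⊆ T ∧ x ∈ c ∧
      (∀ Z, Z ⊆ T → IsPreconnected Z → (Z ∩ c).Nonempty → Z ⊆ c) ∧
      ((IsCircle c ∧ Disjoint c S) ∨ ∃ p q, IsArc c p q ∧ c ∩ S = {p, q}) := by
  classical
  obtain ⟨𝒞, rfl, hd, hc⟩ := h
  obtain ⟨c, hc𝒞, hxc⟩ := mem_iUnion₂.1 hx
  have hcl : ∀ c ∈ 𝒞, IsClosed c := fun c h => by
    rcases hc c h with h | ⟨p, q, h, -⟩
    · exact h.1.isCompact.isClosed
    · exact h.isClosed
  refine ⟨c, subset_biUnion_of_mem (u := fun c => c) hc𝒞, hxc, fun Z hZ hp hne => ?_, hc c hc𝒞⟩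
  have hv : IsClosed (⋃ d ∈ 𝒞.erase c, d) :=
    isClosed_biUnion_finset fun d h => hcl d (Finset.mem_of_mem_erase h)
  have hdis : ∀ y ∈ c, y ∉ ⋃ d ∈ 𝒞.erase c, d := fun y hy hy' => by
    obtain ⟨d, h1, h2⟩ := mem_iUnion₂.1 hy'
    exact disjoint_left.1 (hd d (Finset.mem_of_mem_erase h1) c hc𝒞 (Finset.ne_of_mem_erase h1))
      h2 hy
  rcases isPreconnected_iff_subset_of_disjoint_closed.1 hp c _ (hcl c hc𝒞) hv
    (fun y hy => by
      obtain ⟨d, h1, h2⟩ := mem_iUnion₂.1 (hZ hy)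
      by_cases e : d = c
      · exact Or.inl (e ▸ h2)
      · exact Or.inr (mem_iUnion₂.2 ⟨d, Finset.mem_erase.2 ⟨e, h1⟩, h2⟩))
    (eq_empty_of_forall_notMem fun y hy => hdis y hy.2.1 hy.2.2) with h | h
  · exact h
  · obtain ⟨y, hy⟩ := hne
    exact (hdis y hy.2 (h hy.1)).elim

variable {X : Base} {c₀ : ℝ≥0} {Fr : Frame X c₀} {b : X.ι → Band E3} {D : X.ι → Set E3}

theorem zero_mem : (0:ℝ) ∈ I := ⟨by norm_num, by norm_num⟩

theorem half_mem {s : ℝ} (hs : s ∈ I) : s / 2 ∈ I := ⟨by linarith [hs.1], by linarith [hs.2]⟩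

/-- on the frozen part the wall is the given one -/
theorem frozen (h : Model Fr b) (i : X.ι) : (b i).W ∩ X.U = (Fr.nb i).W := by
  obtain ⟨h1, h2, -⟩ := h.ext i
  rw [← (bas E3).half_W (Fr.nb i)]
  ext x
  constructor
  · rintro ⟨⟨hB, hu⟩, hU⟩
    exact ⟨h1 ▸ (⟨hB, hU⟩ : x ∈ (b i).B ∩ X.U), (h2 x hU).symm.trans hu⟩
  · rintro ⟨hB, hu⟩
    have h3 : x ∈ (b i).B ∩ X.U := h1.symm ▸ hB
    exact ⟨⟨h3.1, (h2 x h3.2).trans hu⟩, h3.2⟩

theorem nb_sub (h : Model Fr b) (i : X.ι) : (Fr.nb i).W ⊆ (b i).W :=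
  frozen h i ▸ inter_subset_left

theorem nb_U (i : X.ι) : (Fr.nb i).W ⊆ X.U := fun _ hx => (Fr.nb_on i).sub hx.1

theorem mem_nb (h : Model Fr b) {i : X.ι} {x : E3} (hx : x ∈ (b i).W) (hU : x ∈ X.U) :
    x ∈ (Fr.nb i).W := frozen h i ▸ (⟨hx, hU⟩ : x ∈ (b i).W ∩ X.U)

theorem move (h : Model Fr b) {i : X.ι} {x : E3} (hx : x ∈ (b i).B) (hU : x ∈ X.U) {s : ℝ}
    (hs : s ∈ I) : x ∈ (Fr.nb i).B ∧ (b i).M (x, s) = (Fr.nb i).M (x, s / 2) := by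
  obtain ⟨h1, -, h3⟩ := h.ext i
  have h4 : x ∈ (Fr.nb i).half.B := h1 ▸ (⟨hx, hU⟩ : x ∈ (b i).B ∩ X.U)
  exact ⟨h4.1, h3 x h4 s hs⟩

theorem keeps_U (h : Model Fr b) (i : X.ι) : (b i).Keeps X.U := fun x hx _ hs hU => by
  obtain ⟨h1, h2⟩ := move h hx hU hs
  rw [h2]
  exact (Fr.nb_on i).sub ((Fr.nb_on i).ok.Mmem x h1 _ (half_mem hs)).1

theorem keeps_bd (h : Model Fr b) (i : X.ι) : (b i).Keeps X.bd := fun x hx _ hs hb => by
  obtain ⟨h1, h2⟩ := move h hx (X.bd_sub hb) hs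
  rw [h2]
  exact Fr.nb_keep_bd i x h1 _ (half_mem hs) hb

theorem keeps_W (h : Model Fr b) {i j : X.ι} (hij : j ≠ i) : (b j).Keeps (b i).W :=
  fun x hx s hs hW => by
    obtain ⟨h1, h2⟩ := h.comm j i hij x hx s hs
    exact ⟨h1.2 hW.1, (h2 hW.1).1.trans hW.2⟩

theorem proj_mem (h : Model Fr b) {i : X.ι} {x : E3} (hx : x ∈ (b i).B) :
    (b i).M (x, 0) ∈ (b i).W := (h.on i).ok.Mmem x hx 0 zero_mem

/-- two walls meet in a one-manifold -/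
theorem lev (h : Model Fr b) {i j : X.ι} (hij : i ≠ j) :
    Lev ((b i).W ∩ (b j).W) ((Fr.nb j).W ∩ X.bd) :=
  (bas E3).lev (h.on i) (fun _ hx => (h.on j).sub hx.1) (h.disc j) (keeps_W h hij)
    fun x hx s hs hS => by
      have h1 := keeps_bd h i x hx s hs hS.2
      exact ⟨mem_nb h (keeps_W h hij x hx s hs (nb_sub h j hS.1)) (X.bd_sub h1), h1⟩

/-- an extra circle is a whole component -/
theorem comp_circle (h : Model Fr b) {i j : X.ι} (hij : i ≠ j) {g : Set E3} (hg : IsCircle g)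
    (hs : g ⊆ (b i).W ∩ (b j).W) {Z : Set E3} (hZ : Z ⊆ (b i).W ∩ (b j).W)
    (hp : IsPreconnected Z) (hne : (Z ∩ g).Nonempty) : Z ⊆ extra b ∧ Disjoint Z X.bd := by
  obtain ⟨x, hxZ, hxg⟩ := hne
  obtain ⟨c, h1, h2, h3, h4⟩ := comp (lev h hij) (hs hxg)
  have h5 := h3 Z hZ hp ⟨x, hxZ, h2⟩
  rcases h4 with ⟨h4, h6⟩ | ⟨p, q, h4, -⟩
  · refine ⟨fun y hy => ⟨i, j, c, hij, h4, h1, h5 hy⟩, disjoint_left.2 fun y hy hb => ?_⟩
    exact disjoint_left.1 h6 (h5 hy) ⟨mem_nb h (hZ hy).2 (X.bd_sub hb), hb⟩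
  · exact (A12.circle_not_subset_arc hg h4
      (h3 g hs (A12.circle_isConnected hg).isPreconnected ⟨x, hxg, h2⟩)).elim

/-- the extra circles miss the frozen part -/
theorem extra_U (h : Model Fr b) {x : E3} (hx : x ∈ extra b) : x ∉ X.U := fun hU => by
  obtain ⟨i, j, g, hij, hg, hs, hxg⟩ := hx
  obtain ⟨Z, h1, h2, h3, y, h4, h5⟩ :=
    Fr.nb_att₂ i j hij x ⟨mem_nb h (hs hxg).1 hU, mem_nb h (hs hxg).2 hU⟩
  exact disjoint_left.1 (comp_circle h hij hg hs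
    (h1.trans (inter_subset_inter (nb_sub h i) (nb_sub h j))) h2 ⟨x, h3, hxg⟩).2 h4 h5

/-- the crossing zone misses the wires -/
theorem zone_wire (h : Model Fr b) {j k : X.ι} (hjk : j ≠ k) {p : E3} (hj : p ∈ (b j).B)
    (hk : p ∈ (b k).B) : p ∉ X.K.skel 1 := fun hp => by
  obtain ⟨e, he, hpe⟩ := X.K.mem_skel.1 hp
  have h1 : (b j).M (p, 0) ∈ (b k).B := (h.comm j k hjk p hj 0 zero_mem).1.2 hk
  exact disjoint_left.1 (h.wire_disj j k hjk)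
    ⟨keeps_W h hjk.symm _ h1 0 zero_mem (proj_mem h hj), proj_mem h h1⟩
    (X.K.cell_subset_skel he (h.keep k e _ h1 0 zero_mem (h.keep j e p hj 0 zero_mem hpe)))

theorem mem_B (h : Model Fr b) {i : X.ι} {x : E3} (hx : x ∈ X.Ω) (hu : |(b i).u x| < 1) :
    x ∈ (b i).B := by
  by_contra hB
  rcases (h.on i).out x hx hB with e | e <;> rw [e] at hu <;> norm_num at hu

theorem le (h : Model Fr b) (hD : Swapped Fr b D) : Le X D (fun i => (b i).W) where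
  cnt := fun _ _ i j hij => encard_le_encard
    (inter_subset_inter_left _ ((hD.inter i j hij).trans sdiff_subset))
  pts := fun i p hp => by
    obtain ⟨O, -, hO, ⟨k, hk⟩ | ⟨j, k, -, -, hjk, -, -, -, hu, -⟩⟩ := hD.loc i p hp.1
    · exact ⟨k, (hk ▸ (⟨hp.1, hO⟩ : p ∈ D i ∩ O) : p ∈ (b k).W ∩ O).1⟩
    · have h1 := hD.sub i hp.1
      obtain ⟨h2, h3⟩ := hu p ⟨hO, h1⟩
      exact (zone_wire h hjk (mem_B h h1 h2) (mem_B h h1 h3) hp.2).elim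
  pers := fun 𝓕 h𝓕 i p _ hA => by
    obtain ⟨Z, h1, h2, h3, y, hyZ, hyU⟩ := hA
    obtain ⟨Z', h4, h5, h6, w, hw, hwb⟩ := Fr.nb_att i y (mem_nb h (h1 hyZ).1 hyU)
    have key := hD.pers i (Z ∪ Z')
      (union_subset (h1.trans inter_subset_left) (h4.trans (nb_sub h i)))
      (h2.union y hyZ h6 h5) ⟨w, Or.inr hw, hwb⟩ (by
        rintro x (hx | hx) j hji hB he
        · obtain ⟨φ, hφ, hxφ⟩ := mem_iUnion₂.1 (h1 hx).2
          have h7 : (b j).M (x, 0) ∈ cross X (fun i => (b i).W) φ :=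
            ⟨h.keep j φ x hB 0 zero_mem hxφ, j, i, hji, proj_mem h hB,
              keeps_W h hji x hB 0 zero_mem (h1 hx).1⟩
          rw [(h𝓕 φ hφ).2] at h7
          exact h7
        · exact extra_U h he (keeps_U h j x hB 0 zero_mem (nb_U i (h4 hx))))
    exact ⟨Z, fun x hx => ⟨key (Or.inl hx), (h1 hx).2⟩, h2, h3, y, hyZ, hyU⟩

theorem lt (h : Model Fr b) (hD : Swapped Fr b D) (hne : (extra b).Nonempty) :
    ∃ φ i j, X.K.dim φ = 2 ∧ i ≠ j ∧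
      (D i ∩ D j ∩ X.K.cell φ).encard < ((b i).W ∩ (b j).W ∩ X.K.cell φ).encard := by
  obtain ⟨x, i, j, g, hij, hg, hs, hxg⟩ := hne
  obtain ⟨Z, h1, h2, h3, y, hyZ, hy⟩ := h.reach i j hij x (hs hxg)
  have h4 : y ∈ extra b := (comp_circle h hij hg hs h1 h2 ⟨x, h3, hxg⟩).1 hyZ
  obtain ⟨φ, hφ, hyφ⟩ := X.K.mem_skel.1 (hy.resolve_right (extra_U h h4))
  have h5 : X.K.dim φ = 2 := by
    by_contra h6
    exact disjoint_left.1 (h.wire_disj i j hij) (h1 hyZ)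
      (X.K.cell_subset_skel (by omega) hyφ)
  have h6 : D i ∩ D j ∩ X.K.cell φ ⊆ (b i).W ∩ (b j).W ∩ X.K.cell φ :=
    inter_subset_inter_left _ ((hD.inter i j hij).trans sdiff_subset)
  have h7 : ((b i).W ∩ (b j).W ∩ X.K.cell φ).Finite :=
    (h.fin i j hij).subset (inter_subset_inter_right _ (X.K.cell_subset_skel hφ))
  refine ⟨φ, i, j, h5, hij, (h7.subset h6).encard_lt_encard ⟨h6, fun h8 => ?_⟩⟩
  exact (hD.inter i j hij (h8 ⟨h1 hyZ, hyφ⟩).1).2 h4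

end Sw3

theorem swap3 : SWAP3 := fun h hD => ⟨Sw3.le h hD, Sw3.lt h hD⟩

theorem arc1 : ARC1 := by
  intro X c₀ Fr b h he i j hf
  have hij : i ≠ j := fun e => hf (e ▸ rfl)
  obtain ⟨p, q, hpq, hc⟩ := Fr.nb_cross i j hf
  have hp : p ∈ (Fr.nb i).W ∩ (Fr.nb j).W ∩ X.bd := hc ▸ mem_insert p {q}
  have key : ∀ x ∈ (b i).W ∩ (b j).W, ∃ c, c ⊆ (b i).W ∩ (b j).W ∧ x ∈ c ∧ p ∈ c ∧
      (∀ Z, Z ⊆ (b i).W ∩ (b j).W → IsPreconnected Z → (Z ∩ c).Nonempty → Z ⊆ c) ∧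
      ∃ p' ∈ X.bd, ∃ q' ∈ X.bd, IsArc c p' q' := by
    intro x hx
    obtain ⟨c, h1, h2, h3, h4⟩ := Sw3.comp (Sw3.lev h hij) hx
    rcases h4 with ⟨h4, -⟩ | ⟨p', q', h4, h5⟩
    · have h5 : x ∈ extra b := ⟨i, j, c, hij, h4, h1, h2⟩
      rw [he] at h5
      exact h5.elim
    · have h6 : ∀ y ∈ ({p', q'} : Set E3), y ∈ X.bd ∧ (y = p ∨ y = q) := fun y hy => by
        rw [← h5] at hy
        have h7 : y ∈ ({p, q} : Set E3) :=
          hc ▸ ⟨⟨Sw3.mem_nb h (h1 hy.1).1 (X.bd_sub hy.2.2), hy.2.1⟩, hy.2.2⟩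
        exact ⟨hy.2.2, h7⟩
      obtain ⟨a1, a2⟩ := h6 p' (mem_insert _ _)
      obtain ⟨b1, b2⟩ := h6 q' (mem_insert_of_mem _ rfl)
      refine ⟨c, h1, h2, ?_, h3, p', a1, q', b1, h4⟩
      rcases a2 with rfl | rfl
      · exact h4.left_mem
      · rcases b2 with rfl | rfl
        · exact h4.right_mem
        · exact (h4.ne rfl).elim
  obtain ⟨c, h1, h2, -, h3, p', a1, q', b1, h4⟩ :=
    key p ⟨Sw3.nb_sub h i hp.1.1, Sw3.nb_sub h j hp.1.2⟩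
  refine ⟨p', a1, q', b1, ?_⟩
  have e : (b i).W ∩ (b j).W = c := Subset.antisymm (fun x hx => by
    obtain ⟨c', k1, k2, k3, -, p₁, -, q₁, -, k4⟩ := key x hx
    exact h3 c' k1 k4.isConnected.isPreconnected ⟨p, k3, h2⟩ k2) h1
  rwa [e]

end P073.Wb
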