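import Vale.Agent.P073Y.Wb.Sk
import Vale.Agent.P073Y.Bd.Bas
import Vale.Agent.P073Y.Cut.One
import Vale.Agent.P073Y.Cut.Box
import Vale.Agent.P073Y.Cut.Cut
import Vale.Agent.P073Z.A2.Basic

/-!
# The first state: the frame of the natural bands
-/

open Set Metric Topology Filter
open scoped NNReal

namespace P073.Wb

open P073.Bd (Band I cl Match Sgn Comm Ext PwLip Chart Lev corner Gen1)
open P073.A2 P073.Bd.Bas1

namespace Init2

/-- the two halves of the boundary -/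
theorem bside {E : Type} [NormedAddCommGroup E] [NormedSpace ℝ E] {n : ℕ} (h : Cut.CUT n)
    {C B : Set E} {u : E → ℝ} {a : ℝ} (hC : ConBall (n + 1) C B) (hu : ContinuousOn u C)
    (hD : ConBall n {x ∈ C | u x = a} {x ∈ B | u x = a}) {x y : E} (hx : x ∈ C) (hxa : u x < a)
    (hy : y ∈ C) (hya : a < u y) :
    ConBall n {x ∈ B | a ≤ u x} {x ∈ B | u x = a} ∧
      ConBall n {x ∈ B | u x ≤ a} {x ∈ B | u x = a} := by
  have e : {x ∈ C | u x = a} ∩ B = {x ∈ B | u x = a} :=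
    Subset.antisymm (fun z hz => ⟨hz.2, hz.1.2⟩) fun z hz => ⟨⟨hC.1 hz.1, hz.2⟩, hz.1⟩
  obtain ⟨C₁, C₂, c₁, c₂, d₁, d₂, cU, cI⟩ := h hC (D := {x ∈ C | u x = a}) (fun _ hz => hz.1)
    (e.symm ▸ hD)
  rw [e] at d₁ d₂
  have sg : ∀ {P : Set E}, ConBall (n + 1) P ({x ∈ C | u x = a} ∪ P ∩ B) → P ⊆ C → ∀ z ∈ P,
      ∀ w ∈ P, u z < a → u w ≤ a := by
    intro P hP hPC z hz w hw hza
    by_cases hwa : u w = a
    · exact hwa.le
    · exact (Cut.sign_const (Cut.preconn_diff hP subset_union_left) (hu.mono fun _ h => hPC h.1)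
        (fun w hw h => hw.2 ⟨hPC hw.1, h⟩) ⟨hz, fun h => hza.ne h.2⟩ ⟨hw, fun h => hwa h.2⟩
        hza).le
  have key : ∀ {P Q : Set E}, ConBall (n + 1) P ({x ∈ C | u x = a} ∪ P ∩ B) →
      ConBall (n + 1) Q ({x ∈ C | u x = a} ∪ Q ∩ B) → P ∪ Q = C → P ∩ Q = {x ∈ C | u x = a} →
      x ∈ P → Q ∩ B = {x ∈ B | a ≤ u x} ∧ P ∩ B = {x ∈ B | u x ≤ a} := by
    intro P Q hP hQ hU hI hxP
    have sP : P ⊆ C := hU ▸ subset_union_left
    have sQ : Q ⊆ C := hU ▸ subset_union_right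
    have l₁ : ∀ z ∈ P, u z ≤ a := fun z hz => sg hP sP x hxP z hz hxa
    have hyQ : y ∈ Q := (hU ▸ hy : y ∈ P ∪ Q).resolve_left fun h => (l₁ y h).not_gt hya
    have l₂ : ∀ z ∈ Q, a ≤ u z := fun z hz =>
      not_lt.1 fun h => (sg hQ sQ z hz y hyQ h).not_gt hya
    have hI' : ∀ z ∈ C, u z = a → z ∈ P ∩ Q := fun z hz h => hI ▸ ⟨hz, h⟩
    refine ⟨Subset.antisymm (fun z hz => ⟨hz.2, l₂ z hz.1⟩) fun z hz => ⟨?_, hz.1⟩,
      Subset.antisymm (fun z hz => ⟨hz.2, l₁ z hz.1⟩) fun z hz => ⟨?_, hz.1⟩⟩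
    · rcases (hU ▸ hC.1 hz.1 : z ∈ P ∪ Q) with h | h
      · exact (hI' z (hC.1 hz.1) (le_antisymm (l₁ z h) hz.2)).2
      · exact h
    · rcases (hU ▸ hC.1 hz.1 : z ∈ P ∪ Q) with h | h
      · exact h
      · exact (hI' z (hC.1 hz.1) (le_antisymm hz.2 (l₂ z h))).1
  rcases (cU ▸ hx : x ∈ C₁ ∪ C₂) with h1 | h1
  · obtain ⟨a1, a2⟩ := key c₁ c₂ cU cI h1
    exact ⟨a1 ▸ d₂, a2 ▸ d₁⟩
  · obtain ⟨a1, a2⟩ := key c₂ c₁ (by rw [union_comm, cU]) (by rw [inter_comm, cI]) h1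
    exact ⟨a1 ▸ d₁, a2 ▸ d₂⟩

theorem lip_cl : LipschitzWith 1 cl := (LipschitzWith.id.min_const 1).const_max (-1)

theorem abs_cl_sub (a b : ℝ) : |cl a - cl b| ≤ |a - b| := by
  simpa [Real.dist_eq] using lip_cl.dist_le_mul a b

theorem div_mem {a w : ℝ} (hw : 0 < w) : a / w ∈ I ↔ |a| ≤ w := by
  rw [abs_le, mem_Icc, le_div_iff₀ hw, div_le_iff₀ hw, neg_mul, one_mul]

theorem cl_nonneg {a : ℝ} : 0 ≤ cl a ↔ 0 ≤ a := by
  rcases le_total a (-1) with h | h
  · rw [cl_of_le h]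
    constructor <;> intro <;> linarith
  rcases le_total a 1 with h' | h'
  · rw [cl_of_mem ⟨h, h'⟩]
  · rw [cl_of_ge h']
    constructor <;> intro <;> linarith

theorem cl_nonpos {a : ℝ} : cl a ≤ 0 ↔ a ≤ 0 := by
  rw [← neg_nonneg, ← cl_neg, cl_nonneg, neg_nonneg]

theorem cl_two (a : ℝ) : cl (2 * cl a) = cl (2 * a) := by
  rcases le_total a (-1) with h | h
  · rw [cl_of_le h, cl_of_le (by norm_num), cl_of_le (by linarith)]
  rcases le_total a 1 with h' | h'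
  · rw [cl_of_mem ⟨h, h'⟩]
  · rw [cl_of_ge h', cl_of_ge (by norm_num), cl_of_ge (by linarith)]

section nat

variable {Ω V : Set E3} {lo hi : E3} (g : ConHomeo Ω (Icc lo hi)) {k : Fin 3} {τ w : ℝ}

/-- the natural band of half width `w` about the level `τ` of the coordinate `k`, on `V` -/
noncomputable def nat (V : Set E3) (k : Fin 3) (τ w : ℝ) : Band E3 where
  B := {x ∈ V | |g.toFun x k - τ| ≤ w}
  u := fun x => cl ((g.toFun x k - τ) / w)
  M := fun q => g.invFun (Function.update (g.toFun q.1) k (τ + w * q.2))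

theorem upd_mem (hw : 0 < w) (h1 : lo k + w < τ) (h2 : τ + w < hi k) {y : E3}
    (hy : y ∈ Icc lo hi) {s : ℝ} (hs : s ∈ I) : Function.update y k (τ + w * s) ∈ Icc lo hi := by
  refine ⟨fun j => ?_, fun j => ?_⟩ <;> by_cases hj : j = k
  · subst hj
    rw [Function.update_self]
    nlinarith [hs.1]
  · rw [Function.update_of_ne hj]
    exact hy.1 j
  · subst hj
    rw [Function.update_self]
    nlinarith [hs.2]
  · rw [Function.update_of_ne hj]
    exact hy.2 j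

theorem g_M (hw : 0 < w) (h1 : lo k + w < τ) (h2 : τ + w < hi k) {x : E3} (hx : x ∈ Ω) {s : ℝ}
    (hs : s ∈ I) :
    g.toFun ((nat g V k τ w).M (x, s)) = Function.update (g.toFun x) k (τ + w * s) :=
  g.right_inv (upd_mem hw h1 h2 (g.mapsTo hx) hs)

theorem nat_on (hw : 0 < w) (h1 : lo k + w < τ) (h2 : τ + w < hi k) (hV : V ⊆ Ω)
    (hc : IsCompact V) (hl : LocCone V) (hk : (nat g V k τ w).Keeps V) : (nat g V k τ w).On V := by
  have hg : PLOn g.toFun V := pl_mono ⟨g.cont, g.conical⟩ hl.conicalSet hV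
  have hB : IsCompact (nat g V k τ w).B ∧ LocCone (nat g V k τ w).B := by
    have e : (nat g V k τ w).B = {x ∈ V | g.toFun x k ∈ Icc (τ - w) (τ + w)} := by
      ext x
      refine and_congr_right fun _ => ?_
      rw [abs_le, mem_Icc]
      constructor <;> rintro ⟨a, b⟩ <;> constructor <;> linarith
    rw [e]
    exact cpt_Icc hc hl (pl_apply hg k) _ _
  have hu : PLOn (nat g V k τ w).u V := by
    refine pl_cl (pl_congr (pl_mul w⁻¹ (pl_sub (pl_apply hg k) (pl_const τ hl.conicalSet))) ?_)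
    exact fun x _ => div_eq_inv_mul _ _
  have hM : ∀ x ∈ (nat g V k τ w).B, ∀ s ∈ I,
      g.toFun ((nat g V k τ w).M (x, s)) k - τ = w * s := fun x hx s hs => by
    rw [g_M g hw h1 h2 (hV hx.1) hs, Function.update_self, add_sub_cancel_left]
  refine ⟨⟨hB.1, hB.2, pl_mono hu hB.2.conicalSet fun _ hx => hx.1, ?_, fun x _ => cl_mem _,
    fun x hx s hs => ⟨⟨hk x hx s hs hx.1, ?_⟩, ?_⟩, fun x hx => ?_, fun x hx s hs t _ => ?_⟩,
    fun _ hx => hx.1, hu, fun x hx hn => ?_⟩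
  · have hcs : ConicalSet ((nat g V k τ w).B ×ˢ I) :=
      Sh.conicalSet_prod hB.2.conicalSet Bd.Bas2.cs_I
    have hf : PLOn (fun q : E3 × ℝ => g.toFun q.1) ((nat g V k τ w).B ×ˢ I) :=
      pl_comp hg (pl_fst hcs) fun _ hq => hq.1.1
    refine pl_comp (g := g.invFun) ⟨g.cont_inv, g.conical_inv⟩ (pl_pi hcs fun j => ?_)
      fun q hq => upd_mem hw h1 h2 (g.mapsTo (hV hq.1.1)) hq.2
    by_cases hj : j = k
    · subst hj
      exact pl_congr (pl_add (pl_const τ hcs) (pl_mul w (pl_snd hcs)))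
        fun q _ => Function.update_self _ _ _
    · exact pl_congr (pl_apply hf j) fun q _ => Function.update_of_ne hj _ _
  · rw [hM x hx s hs, abs_mul, abs_of_pos hw]
    exact mul_le_of_le_one_right hw.le (abs_le.2 hs)
  · show cl (_ / w) = s
    rw [hM x hx s hs, mul_div_cancel_left₀ _ hw.ne', cl_of_mem hs]
  · show g.invFun (Function.update (g.toFun x) k (τ + w * cl ((g.toFun x k - τ) / w))) = x
    rw [cl_of_mem ((div_mem hw).2 hx.2), mul_div_cancel₀ _ hw.ne', add_sub_cancel,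
      Function.update_eq_self, g.left_inv (hV hx.1)]
  · show g.invFun (Function.update (g.toFun ((nat g V k τ w).M (x, s))) k (τ + w * t)) = _
    rw [g_M g hw h1 h2 (hV hx.1) hs, Function.update_idem]
    rfl
  · have h3 : w < |g.toFun x k - τ| := not_le.1 fun h => hn ⟨hx, h⟩
    rcases lt_abs.1 h3 with h | h
    · exact Or.inl (cl_of_ge (by rw [le_div_iff₀ hw]; linarith))
    · exact Or.inr (cl_of_le (by rw [div_le_iff₀ hw]; linarith))

theorem nat_u_zero (hw : 0 < w) {x : E3} : (nat g V k τ w).u x = 0 ↔ g.toFun x k = τ := by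
  show cl (_ / w) = 0 ↔ _
  rw [cl_eq_zero, div_eq_zero_iff, or_iff_left hw.ne', sub_eq_zero]

theorem nat_W (hw : 0 < w) : (nat g V k τ w).W = {x ∈ V | g.toFun x k = τ} := by
  ext x
  constructor
  · exact fun hx => ⟨hx.1.1, (nat_u_zero g hw).1 hx.2⟩
  · exact fun hx => ⟨⟨hx.1, by rw [hx.2, sub_self, abs_zero]; exact hw.le⟩,
      (nat_u_zero g hw).2 hx.2⟩

/-- natural bands in different directions commute -/
theorem nat_comm {k' : Fin 3} {τ' : ℝ} (hw : 0 < w) (h1 : lo k + w < τ) (h2 : τ + w < hi k)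
    (h1' : lo k' + w < τ') (h2' : τ' + w < hi k') (hV : V ⊆ Ω) (hk : (nat g V k τ w).Keeps V)
    (hne : k' ≠ k) : Comm (nat g V k τ w) (nat g V k' τ' w) := by
  intro x hx s hs
  have e := g_M g (V := V) hw h1 h2 (hV hx.1) hs
  have e' : g.toFun ((nat g V k τ w).M (x, s)) k' = g.toFun x k' := by
    rw [e, Function.update_of_ne hne]
  refine ⟨⟨fun h => ⟨hx.1, e' ▸ h.2⟩, fun h => ⟨hk x hx s hs hx.1, e'.symm ▸ h.2⟩⟩,
    fun _ => ⟨?_, fun t ht => ?_⟩⟩
  · show cl (_ / w) = cl (_ / w)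
    rw [e']
  · show g.invFun (Function.update (g.toFun ((nat g V k τ w).M (x, s))) k' _) =
      g.invFun (Function.update (g.toFun ((nat g V k' τ' w).M (x, t))) k _)
    rw [e, g_M g hw h1' h2' (hV hx.1) ht, Function.update_comm hne]

theorem pre_eq {T : Set E3} (hT : T ⊆ Icc lo hi) : g.invFun '' T = {x ∈ Ω | g.toFun x ∈ T} := by
  refine Subset.antisymm ?_ fun x hx => ⟨_, hx.2, g.left_inv hx.1⟩
  rintro _ ⟨y, hy, rfl⟩
  exact ⟨g.mapsTo_inv (hT hy), by rwa [g.right_inv (hT hy)]⟩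

theorem lip_nat {A : Set E3} {lam L : ℝ≥0} (hlam : 0 < lam)
    (h : LipschitzOnWith (lam * L) (fun x => g.toFun x k) A) {x y : E3} (hx : x ∈ A) (hy : y ∈ A) :
    |(nat g V k τ (4 * lam)).u x - (nat g V k τ (4 * lam)).u y| ≤ L / 4 * dist x y := by
  have hl : (0:ℝ) < lam := hlam
  have h1 := h.dist_le_mul x hx y hy
  rw [Real.dist_eq, NNReal.coe_mul] at h1
  refine (abs_cl_sub _ _).trans ?_
  rw [← sub_div, sub_sub_sub_cancel_right, abs_div, abs_of_pos (by positivity : (0:ℝ) < 4 * lam),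
    div_le_iff₀ (by positivity)]
  linarith

end nat

theorem co_eq {X : Base} {i j : X.ι} : X.co i = X.co j ↔ X.fam i = X.fam j := by
  unfold Base.co
  cases X.fam i <;> cases X.fam j <;> simp

end Init2

/-- explicit zones on the inner wires -/
def Zones (X : Base) (P : Set E3) (ζ : X.K.ι → E3 → Band E3) : Prop :=
  ∀ e, X.K.dim e = 1 → ¬ X.K.cell e ⊆ X.U →
    (∀ p ∈ P ∩ X.K.cell e, (ζ e p).Ok ∧ (ζ e p).In (X.K.cell e) ∧ (ζ e p).B ⊆ X.K.ocell e ∧
      (ζ e p).W = {p} ∧ LipschitzOnWith (X.L e) (ζ e p).u (ζ e p).B) ∧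
    ∀ p ∈ P ∩ X.K.cell e, ∀ q ∈ P ∩ X.K.cell e, p ≠ q → Disjoint (ζ e p).B (ζ e q).B

theorem Zoned.zones {X : Base} {P : Set E3} (h : Zoned X P) : ∃ ζ, Zones X P ζ := by
  have : Nonempty (Band E3) := ⟨⟨∅, fun _ => 0, Prod.fst⟩⟩
  choose! ζ hζ using h
  exact ⟨ζ, hζ⟩

open Init2 in
/-- the first state, with prescribed zones on the inner wires -/
theorem init2_zones_of (hcut : Cut.CUT 2) {X : Base} {c₀ : ℝ≥0} {lo hi : E3}
    (g : ConHomeo X.Ω (Icc lo hi)) (t : X.ι → ℝ) {lam : ℝ≥0} (R : Raw X c₀ g t lam)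
    {ζ : X.K.ι → E3 → Band E3} (hZ : Zones X (⋃ i, lvl g t i) ζ) :
    ∃ Fr : Frame X c₀, Flat Fr g t lam ∧ State Fr (lvl g t) ∧
      Fr.P = (⋃ i, lvl g t i) ∩ X.K.skel 1 ∧
      (∀ i, Fr.nb i = (nat g X.U (X.co i) (t i) (4 * lam)).half) ∧
      (∀ e, X.K.dim e = 1 → ¬ X.K.cell e ⊆ X.U → ∀ p ∈ Fr.P ∩ X.K.cell e, Fr.z p = ζ e p) ∧
      ∀ e i, X.K.dim e = 1 → ∀ p ∈ lvl g t i ∩ X.U ∩ X.K.cell e,
        Fr.z p = (nat g X.U (X.co i) (t i) (4 * lam)).restr (X.K.cell e) {p} := by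
  classical
  have := X.finι
  have hB := Bd.bas E3
  have hl : (0:ℝ) < lam := R.pos
  have hw : (0:ℝ) < 4 * lam := by positivity
  have hUΩ : X.U ⊆ X.Ω := X.cover ▸ subset_union_right
  have hKΩ : X.K.carrier ⊆ X.Ω := X.cover ▸ subset_union_left
  obtain ⟨-, hfr, hsec, hline⟩ := Cut.box R.lt
  let wb : X.ι → Band E3 := fun i => nat g X.U (X.co i) (t i) (4 * lam)
  have hkU : ∀ i, (wb i).Keeps X.U := fun i x hx s hs _ => (R.keep i x hx.1 hx.2 s hs).1
  have hkc : ∀ i c, (wb i).Keeps (X.K.cell c) := fun i c x hx s hs hc =>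
    (R.keep i x hx.1 hx.2 s hs).2 c hc
  have hon : ∀ i, (wb i).On X.U := fun i =>
    nat_on g hw (R.inside i).1 (R.inside i).2 hUΩ X.U_cpt X.U_loc (hkU i)
  have hgM : ∀ i, ∀ x ∈ X.U, ∀ s ∈ I, g.toFun ((wb i).M (x, s)) =
      Function.update (g.toFun x) (X.co i) (t i + 4 * lam * s) := fun i x hx s hs =>
    g_M g hw (R.inside i).1 (R.inside i).2 (hUΩ hx) hs
  have hW : ∀ i, (wb i).W = lvl g t i ∩ X.U := fun i => by
    rw [show (wb i).W = _ from nat_W g hw]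
    exact Subset.antisymm (fun x hx => ⟨⟨hUΩ hx.1, hx.2⟩, hx.1⟩) fun x hx => ⟨hx.2, hx.1.2⟩
  have hW' : ∀ i, (wb i).half.W = lvl g t i ∩ X.U := fun i => by rw [hB.half_W, hW]
  have h0 : ∀ i, ∀ x ∈ (wb i).B, (wb i).M (x, 0) ∈ lvl g t i ∩ X.U := fun i x hx =>
    hW i ▸ Bd.Bas2.M_mem_W (hon i).ok hx
  have hdis : ∀ i j, i ≠ j → X.fam i = X.fam j → Disjoint (wb i).B (wb j).B := by
    intro i j hij hf
    refine disjoint_left.2 fun x hx hx' => ?_
    have a1 := abs_le.1 hx.2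
    have a2 := abs_le.1 hx'.2
    rw [← co_eq.2 hf] at a2
    rcases lt_abs.1 (R.sep i j hij hf) with h | h <;> linarith [a1.1, a1.2, a2.1, a2.2]
  have hldis : ∀ i j, i ≠ j → X.fam i = X.fam j → Disjoint (lvl g t i) (lvl g t j) := by
    intro i j hij hf
    refine disjoint_left.2 fun x hx hx' => ?_
    have a := R.sep i j hij hf
    rw [← hx.2, ← hx'.2, co_eq.2 hf, sub_self, abs_zero] at a
    linarith
  have huniq : ∀ i j, i ≠ j → Disjoint (lvl g t i ∩ lvl g t j) (X.K.skel 1) := by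
    intro i j hij
    by_cases hf : X.fam i = X.fam j
    · rw [(hldis i j hij hf).inter_eq]
      exact empty_disjoint _
    · exact (R.gen₂ i j hf).1
  have hcomm : ∀ i j, i ≠ j → Comm (wb i) (wb j) := by
    intro i j hij
    by_cases hf : X.fam i = X.fam j
    · exact hB.comm_of_disjoint (hon i).ok (hdis i j hij hf)
    · exact nat_comm g hw (R.inside i).1 (R.inside i).2 (R.inside j).1 (R.inside j).2 hUΩ (hkU i)
        fun h => hf (co_eq.1 h).symm
  have hcU : ∀ {c x}, x ∈ X.K.ocell c → x ∈ X.U → X.K.cell c ⊆ X.U := fun hx hU =>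
    (X.sub.cell_subset hx ⟨X.K.cell_subset_carrier _ hx.1, hU⟩).trans inter_subset_right
  -- points of the walls on the wires lie on open wires
  have hedge : ∀ i, ∀ p ∈ lvl g t i, ∀ c, X.K.dim c ≤ 1 → p ∈ X.K.cell c →
      X.K.dim c = 1 ∧ p ∈ X.K.ocell c := by
    intro i p hp c hc hpc
    have hn : p ∉ X.K.skel 0 := disjoint_left.1 (R.gen i).vert hp
    have h1 : X.K.dim c = 1 := by
      by_contra h
      exact hn (X.K.cell_subset_skel (by omega) hpc)
    exact ⟨h1, hpc, fun h => hn (X.K.bd_subset_skel h1.le h)⟩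
  -- the zones
  have : Nonempty (Band E3) := ⟨⟨∅, fun _ => 0, Prod.fst⟩⟩
  have hζ := fun e he hU => (hZ e he hU).1
  have hζ' := fun e he hU => (hZ e he hU).2
  have hz : ∀ p, ∃ zp : Band E3, ∀ e, X.K.dim e = 1 → p ∈ X.K.ocell e →
      (¬ X.K.cell e ⊆ X.U → zp = ζ e p) ∧
      ∀ i, X.K.cell e ⊆ X.U → p ∈ lvl g t i → zp = (wb i).restr (X.K.cell e) {p} := by
    intro p
    by_cases h1 : ∃ e, X.K.dim e = 1 ∧ p ∈ X.K.ocell e
    · obtain ⟨e, he, hpe⟩ := h1
      by_cases h2 : ∃ i, X.K.cell e ⊆ X.U ∧ p ∈ lvl g t i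
      · obtain ⟨i, hU, hi⟩ := h2
        refine ⟨(wb i).restr (X.K.cell e) {p}, fun e' _ h' => ?_⟩
        obtain rfl := X.K.ocell_unique hpe h'
        refine ⟨fun h => absurd hU h, fun j _ hj => ?_⟩
        by_cases hij : i = j
        · rw [hij]
        · exact absurd (X.K.cell_subset_skel he.le hpe.1)
            (disjoint_left.1 (huniq i j hij) ⟨hi, hj⟩)
      · refine ⟨ζ e p, fun e' _ h' => ?_⟩
        obtain rfl := X.K.ocell_unique hpe h'
        exact ⟨fun _ => rfl, fun j hU hj => absurd ⟨j, hU, hj⟩ h2⟩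
    · exact ⟨Classical.arbitrary _, fun e he h => absurd ⟨e, he, h⟩ h1⟩
  choose z hz using hz
  let P : Set E3 := (⋃ i, lvl g t i) ∩ X.K.skel 1
  have hP : ∀ p ∈ P, ∃ i e, p ∈ lvl g t i ∧ X.K.dim e = 1 ∧ p ∈ X.K.ocell e := by
    rintro p ⟨h1, h2⟩
    obtain ⟨i, hi⟩ := mem_iUnion.1 h1
    obtain ⟨c, hc, hpc⟩ := X.K.mem_skel.1 h2
    exact ⟨i, c, hi, hedge i p hi c hc hpc⟩
  have hwire : ∀ p ∈ P, ∀ e, X.K.dim e = 1 → p ∈ X.K.ocell e → (z p).Ok ∧
      (z p).In (X.K.cell e) ∧ (z p).B ⊆ X.K.ocell e ∧ (z p).W = {p} ∧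
      LipschitzOnWith (X.L e) (z p).u (z p).B := by
    intro p hp e he hpe
    by_cases hU : X.K.cell e ⊆ X.U
    · obtain ⟨i, hi⟩ := mem_iUnion.1 hp.1
      rw [(hz p e he hpe).2 i hU hi]
      have hfin : ((wb i).W ∩ X.K.cell e).Finite := (R.gen i).fin.subset fun x hx =>
        ⟨(hW i ▸ hx.1 : x ∈ lvl g t i ∩ X.U).1, X.K.cell_subset_skel he.le hx.2⟩
      obtain ⟨a1, a2, a3⟩ := hB.restr (V := {p}) (hon i).ok (hB.on_in (hon i)) hU
        (X.K.isCompact_cell e) (X.K.locCone_cell e) (hkc i e)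
        (singleton_subset_iff.2 ⟨hW i ▸ ⟨hi, hU hpe.1⟩, hpe.1⟩) isCompact_singleton
        (Icc_self p ▸ locCone_Icc_pi p p) (hfin.subset sdiff_subset).isClosed
      refine ⟨a1, a2, fun x hx => ⟨hx.1.2, fun hb => ?_⟩, a3, ?_⟩
      · obtain ⟨j, hj, hxj, -⟩ := X.K.exists_face_bd hb
        have hj0 : X.K.dim j ≤ 0 := by have := X.K.dim_lt hxj; omega
        exact disjoint_left.1 (R.gen i).vert (h0 i x hx.1.1).1
          (X.K.cell_subset_skel hj0 (hkc i j x hx.1.1 0 Bd.Bas2.zero_mem_I hj.1))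
      · refine LipschitzOnWith.of_dist_le_mul fun x hx y hy => ?_
        refine (lip_nat g (V := X.U) R.pos (R.lip i e hU) ⟨hx.1.2, hx.1.1.2⟩
          ⟨hy.1.2, hy.1.1.2⟩).trans ?_
        nlinarith [mul_nonneg (X.L e).coe_nonneg (dist_nonneg (x := x) (y := y))]
    · rw [(hz p e he hpe).1 hU]
      exact hζ e he hU p ⟨hp.1, hpe.1⟩
  have hzU : ∀ i, ∀ p ∈ lvl g t i ∩ X.U, ∀ e, X.K.dim e ≤ 1 → p ∈ X.K.cell e →
      z p = (wb i).restr (X.K.cell e) {p} := fun i p hp e he hpe =>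
    let ⟨a1, a2⟩ := hedge i p hp.1 e he hpe
    (hz p e a1 a2).2 i (hcU a2 hp.2) hp.1
  have hbd : ∀ i, {x ∈ X.bd | g.toFun x (X.co i) = t i} = (wb i).half.W ∩ X.bd := fun i => by
    rw [hW']
    exact Subset.antisymm (fun x hx => ⟨⟨⟨X.ball.1 hx.1, hx.2⟩, X.bd_sub hx.1⟩, hx.1⟩)
      fun x hx => ⟨hx.2, hx.1.1.2⟩
  have hin : ∀ i, t i ∈ Ioo (lo (X.co i)) (hi (X.co i)) := fun i =>
    ⟨by linarith [(R.inside i).1], by linarith [(R.inside i).2]⟩
  have hfs : frontier (Icc lo hi) ⊆ Icc lo hi := fun y hy => ((hfr y).1 hy).1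
  have hdisc : ∀ i, ConBall 2 (lvl g t i) {x ∈ X.bd | g.toFun x (X.co i) = t i} := fun i => by
    have h1 := (hsec (X.co i) (t i) (hin i)).image g.symm fun _ hy => hy.1
    rw [ConHomeo.symm_toFun, pre_eq g fun _ hy => hy.1, pre_eq g fun _ hy => hfs hy.1] at h1
    convert h1 using 1
    · exact Subset.antisymm (fun x hx => ⟨hx.1, g.mapsTo hx.1, hx.2⟩) fun x hx => ⟨hx.1, hx.2.2⟩
    · rw [R.bd_eq]
      exact Subset.antisymm (fun x hx => ⟨hx.1.1, hx.1.2, hx.2⟩) fun x hx => ⟨⟨hx.1, hx.2.1⟩, hx.2.2⟩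
  have hle : lo ≤ hi := fun k => (R.lt k).le
  have hcross : ∀ i j, X.fam i = true → X.fam j = false →
      ∃ p q, p ≠ q ∧ (wb i).half.W ∩ (wb j).half.W ∩ X.bd = {p, q} := by
    intro i j hi' hj'
    have ci : X.co i = 0 := by simp [Base.co, hi']
    have cj : X.co j = 1 := by simp [Base.co, hj']
    obtain ⟨a1, a2⟩ := hline (t i) (ci ▸ hin i) (t j) (cj ▸ hin j)
    refine ⟨g.invFun ![t i, t j, lo 2], g.invFun ![t i, t j, hi 2],
      fun h => a1.ne (g.symm.injOn a1.left_mem.1 a1.right_mem.1 h), ?_⟩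
    rw [← image_pair, ← a2, pre_eq g fun _ hy => hfs hy.1, hW', hW', R.bd_eq]
    refine Subset.antisymm (fun x hx => ⟨hx.2.1, hx.2.2, ci ▸ hx.1.1.1.2, cj ▸ hx.1.2.1.2⟩)
      fun x hx => ?_
    have hxU : x ∈ X.U := X.bd_sub (R.bd_eq ▸ ⟨hx.1, hx.2.1⟩)
    exact ⟨⟨⟨⟨hx.1, ci ▸ hx.2.2.1⟩, hxU⟩, ⟨hx.1, cj ▸ hx.2.2.2⟩, hxU⟩, hx.1, hx.2.1⟩
  have hu2 : ∀ i x, (wb i).half.u x = cl ((g.toFun x (X.co i) - t i) / (2 * lam)) := fun i x => by
    show cl (2 * cl _) = _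
    rw [cl_two]
    congr 1
    field_simp
    ring
  let Fr : Frame X c₀ :=
    { P := P
      z := z
      nb := fun i => (wb i).half
      Pfin := by
        show ((⋃ i, lvl g t i) ∩ X.K.skel 1).Finite
        rw [iUnion_inter]
        exact finite_iUnion fun i => (R.gen i).fin
      wire := fun p hp =>
        let ⟨_, e, _, a1, a2⟩ := hP p hp
        ⟨e, a1, hwire p hp e a1 a2⟩
      zdisj := by
        intro p hp q hq hne
        obtain ⟨i, e, hi, a1, a2⟩ := hP p hp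
        obtain ⟨j, e', hj, b1, b2⟩ := hP q hq
        refine disjoint_left.2 fun x hx hx' => ?_
        obtain rfl := X.K.ocell_unique ((hwire p hp e a1 a2).2.2.1 hx)
          ((hwire q hq e' b1 b2).2.2.1 hx')
        by_cases hU : X.K.cell e ⊆ X.U
        · rw [(hz p e a1 a2).2 i hU hi] at hx
          rw [(hz q e a1 b2).2 j hU hj] at hx'
          by_cases hij : i = j
          · subst hij
            exact hne ((mem_singleton_iff.1 hx.2).symm.trans hx'.2)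
          by_cases hf : X.fam i = X.fam j
          · exact disjoint_left.1 (hdis i j hij hf) hx.1.1 hx'.1.1
          · have c1 := ((hcomm i j hij x hx.1.1 0 Bd.Bas2.zero_mem_I).1.2 hx'.1.1)
            have c2 := h0 j _ c1
            have c3 := hkc j e _ c1 0 Bd.Bas2.zero_mem_I
              (hkc i e x hx.1.1 0 Bd.Bas2.zero_mem_I hx.1.2)
            refine disjoint_left.1 (huniq i j hij) ⟨⟨c2.1.1, ?_⟩, c2.1⟩
              (X.K.cell_subset_skel a1.le c3)
            rw [hgM j _ c1.1 0 Bd.Bas2.zero_mem_I,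
              Function.update_of_ne fun h => hf (co_eq.1 h)]
            exact (h0 i x hx.1.1).1.2
        · rw [(hz p e a1 a2).1 hU] at hx
          rw [(hz q e a1 b2).1 hU] at hx'
          exact disjoint_left.1 (hζ' e a1 hU p ⟨hp.1, a2.1⟩ q ⟨hq.1, b2.1⟩ hne) hx hx'
      nb_on := fun i => hB.half_on (hon i)
      nb_keep := fun i c x hx s hs hc => hkc i c x hx.1 _ (half_mem hs) hc
      nb_keep_bd := by
        intro i x hx s hs hb
        rw [R.bd_eq] at hb ⊢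
        have a1 := hkU i x hx.1 _ (half_mem hs) hx.1.1
        refine ⟨hUΩ a1, (hfr _).2 ⟨g.mapsTo (hUΩ a1), ?_⟩⟩
        obtain ⟨k, hk⟩ := ((hfr _).1 hb.2).2
        have a2 := abs_le.1 hx.1.2
        have hne : k ≠ X.co i := by
          rintro rfl
          rcases hk with hk | hk <;> linarith [(R.inside i).1, (R.inside i).2, a2.1, a2.2]
        refine ⟨k, ?_⟩
        show g.toFun ((wb i).M (x, s / 2)) k = _ ∨ g.toFun ((wb i).M (x, s / 2)) k = _
        rwa [hgM i x hx.1.1 _ (half_mem hs), Function.update_of_ne hne]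
      nb_comm := fun i j hij => hB.half_comm (hon i).ok (hon j).ok (hcomm i j hij)
      nb_disj := fun i j hij hf => (hdis i j hij hf).mono (fun _ h => h.1) fun _ h => h.1
      nb_side := by
        intro i
        have a := bside hcut (u := fun x => g.toFun x (X.co i)) X.ball
          ((continuous_apply (X.co i)).comp_continuousOn g.cont) (hdisc i)
          (g.mapsTo_inv (left_mem_Icc.2 hle))
          (by
            show g.toFun (g.invFun lo) (X.co i) < _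
            rw [g.right_inv (left_mem_Icc.2 hle)]
            exact (hin i).1)
          (g.mapsTo_inv (right_mem_Icc.2 hle))
          (by
            show _ < g.toFun (g.invFun hi) (X.co i)
            rw [g.right_inv (right_mem_Icc.2 hle)]
            exact (hin i).2)
        have h2 : (0:ℝ) < 2 * lam := by positivity
        simpa only [← hbd, hu2, cl_nonneg, cl_nonpos, le_div_iff₀ h2, div_le_iff₀ h2, zero_mul,
          sub_nonneg, sub_nonpos] using a
      nb_wire := by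
        rintro i x ⟨hx, hs⟩
        obtain ⟨c, hc, hxc⟩ := X.K.mem_skel.1 hs
        have a1 := h0 i x hx.1
        have a2 := hkc i c x hx.1 0 Bd.Bas2.zero_mem_I hxc
        refine ⟨_, ⟨⟨mem_iUnion.2 ⟨i, a1.1⟩, X.K.cell_subset_skel hc a2⟩, hW' i ▸ a1⟩, ?_⟩
        rw [hzU i _ a1 c hc a2]
        exact ⟨⟨⟨hx.1, hxc⟩, rfl⟩, hx.2⟩
      nb_match := by
        rintro i p ⟨hp, hp'⟩
        obtain ⟨c, hc, hpc⟩ := X.K.mem_skel.1 hp.2
        rw [hzU i p (hW' i ▸ hp') c hc hpc]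
        exact ⟨fun x hx => ⟨hx.1.1.1, hx.2⟩,
          fun x _ _ => ⟨1, Or.inl rfl, (one_mul _).symm, fun s _ => by rw [one_mul]; rfl⟩⟩
      nb_att := fun i => by
        rw [hW']
        exact R.att i
      nb_att₂ := fun i j hij => by
        rw [hW', hW', ← inter_inter_distrib_right]
        exact R.att₂ i j hij
      nb_arc := by
        intro i φ hφ x hx
        rw [hW'] at hx ⊢
        have hU := hcU hx.2 hx.1.2
        obtain ⟨Z, a1, a2⟩ := R.arc i φ hφ hU x ⟨hx.1.1, hx.2.1⟩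
        exact ⟨Z, fun y hy => ⟨⟨(a1 hy).1, hU (a1 hy).2⟩, (a1 hy).2⟩, a2⟩
      nb_cross := by
        intro i j hf
        cases hi' : X.fam i <;> cases hj' : X.fam j
        · exact absurd (hi'.trans hj'.symm) hf
        · rw [inter_comm (wb i).half.W]
          exact hcross j i hj' hi'
        · exact hcross i j hi' hj'
        · exact absurd (hi'.trans hj'.symm) hf
      nb_lip := by
        intro i φ _ hU
        refine LipschitzOnWith.of_dist_le_mul fun x hx y hy => ?_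
        have a := lip_nat g (V := X.U) (τ := t i) R.pos (R.lip i φ hU) ⟨hx.2, hx.1.1.2⟩
          ⟨hy.2, hy.1.1.2⟩
        refine (abs_cl_sub _ _).trans ?_
        rw [← mul_sub, abs_mul, abs_two]
        nlinarith [mul_nonneg (X.L φ).coe_nonneg (dist_nonneg (x := x) (y := y))]
      L_ge := R.L_ge }
  refine ⟨Fr, ⟨R.lt, hl, R.bd_eq, fun i => ⟨by linarith [(R.inside i).1],
    by linarith [(R.inside i).2]⟩, fun i j hij hf => by linarith [R.sep i j hij hf],
    fun i x hx => ⟨?_, hu2 i x, fun hx' s hs => ?_⟩⟩,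
    ⟨fun i _ hx => hx.1, fun i => hbd i ▸ hdisc i, fun i => (hW' i).symm, hldis,
      fun i x hx => ⟨mem_iUnion.2 ⟨i, hx.1⟩, hx.2⟩, huniq, fun i => (R.gen i).lev,
      fun i => (R.gen i).two, fun i j hij => ?_⟩, rfl, fun _ => rfl, fun e he hU p hp => ?_,
    fun e i he p hp => hzU i p hp.1 e he.le hp.2⟩
  · show x ∈ (wb i).half.B ↔ _
    constructor
    · rintro ⟨a1, a2⟩
      have a3 : (wb i).u x = (g.toFun x (X.co i) - t i) / (4 * lam) :=
        cl_of_mem ((div_mem hw).2 a1.2)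
      rw [a3, abs_div, abs_of_pos hw, div_le_iff₀ hw] at a2
      linarith
    · intro h
      have a1 : |g.toFun x (X.co i) - t i| ≤ 4 * lam := by linarith
      have a3 : (wb i).u x = (g.toFun x (X.co i) - t i) / (4 * lam) :=
        cl_of_mem ((div_mem hw).2 a1)
      refine ⟨⟨hx, a1⟩, ?_⟩
      rw [a3, abs_div, abs_of_pos hw, div_le_iff₀ hw]
      linarith
  · show g.toFun ((wb i).M (x, s / 2)) = _
    rw [hgM i x hx _ (half_mem hs)]
    congr 2
    ring
  · by_cases hf : X.fam i = X.fam j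
    · rw [(hldis i j hij hf).inter_eq, empty_inter]
      exact finite_empty
    · exact (R.gen₂ i j hf).2
  · obtain ⟨i, hi⟩ := mem_iUnion.1 hp.1.1
    exact (hz p e he (hedge i p hi e he.le hp.2).2).1 hU

theorem init2_of (hcut : Cut.CUT 2) : INIT2 := fun g t _ R hZ =>
  let ⟨_, hζ⟩ := hZ.zones
  let ⟨Fr, a1, a2, _⟩ := init2_zones_of hcut g t R hζ
  ⟨Fr, a1, a2⟩

/-- the first state -/
theorem init2 : INIT2 := init2_of Cut.cut2

end P073.Wb
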