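import Vale.Agent.P073Y.Wb.Sk
import Vale.Agent.P073Y.Bd.Bas
import Vale.Agent.P073Y.Cut.Box
import Vale.Agent.P073Z.Lam

/-!
# Attachment near a path; the drift of the walls
-/

open Set Metric Topology Filter

namespace P073.Wb

open P073.Bd (Band I cl Ext bas)

namespace Drift

/-- the two ends of a closed set of parameters -/
theorem ends {S : Set ℝ} {a b s₀ : ℝ} {P : ℝ → Prop} (hS : IsClosed S) (hI : S ⊆ Icc a b)
    (h0 : s₀ ∈ S) (h : ∀ s ∈ S, ¬ P s → s ≠ a ∧ s ≠ b ∧ S ∈ 𝓝[Icc a b] s) :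
    (∃ s ∈ S, s ≤ s₀ ∧ P s) ∧ ∃ s ∈ S, s₀ ≤ s ∧ P s := by
  have hc : IsCompact S := isCompact_Icc.of_isClosed_subset hS hI
  have key : ∀ s ∈ S, ¬ P s → S ∈ 𝓝 s := fun s hs hP => by
    obtain ⟨h1, h2, h3⟩ := h s hs hP
    rwa [nhdsWithin_eq_nhds.2
      (Icc_mem_nhds ((hI hs).1.lt_of_ne h1.symm) ((hI hs).2.lt_of_ne h2))] at h3
  obtain ⟨m, hm, hm'⟩ := hc.exists_isLeast ⟨s₀, h0⟩
  obtain ⟨M, hM, hM'⟩ := hc.exists_isGreatest ⟨s₀, h0⟩
  refine ⟨⟨m, hm, hm' h0, by_contra fun hP => ?_⟩, M, hM, hM' h0, by_contra fun hP => ?_⟩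
  · obtain ⟨s, hs, hs'⟩ := ((frequently_lt_nhds m).and_eventually (key m hm hP)).exists
    exact not_le.2 hs (hm' hs')
  · obtain ⟨s, hs, hs'⟩ := ((frequently_gt_nhds M).and_eventually (key M hM hP)).exists
    exact not_le.2 hs (hM' hs')

variable {X : Base} {c₀ : NNReal} {Fr : Frame X c₀} {lo hi : E3}
  (g : ConHomeo X.Ω (Icc lo hi)) {t : X.ι → ℝ} {lam : ℝ}

theorem co_ne (i : X.ι) : X.co i ≠ 2 := by
  unfold Base.co
  split_ifs <;> decide

theorem co_eq {i j : X.ι} (h : X.fam i = X.fam j) : X.co i = X.co j := by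
  unfold Base.co
  rw [h]

/-- the vertical line through a point -/
def ver (x : E3) (s : ℝ) : E3 := g.invFun (Function.update (g.toFun x) 2 s)

variable {x : E3}

theorem upd_mem (hx : x ∈ X.Ω) {s : ℝ} (hs : s ∈ Icc (lo 2) (hi 2)) :
    Function.update (g.toFun x) 2 s ∈ Icc lo hi := by
  have h := g.mapsTo hx
  constructor <;> intro k <;> by_cases e : k = 2
  · rw [e, Function.update_self]; exact hs.1
  · rw [Function.update_of_ne e]; exact h.1 k
  · rw [e, Function.update_self]; exact hs.2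
  · rw [Function.update_of_ne e]; exact h.2 k

theorem ver_mem (hx : x ∈ X.Ω) {s : ℝ} (hs : s ∈ Icc (lo 2) (hi 2)) : ver g x s ∈ X.Ω :=
  g.mapsTo_inv (upd_mem g hx hs)

theorem g_ver (hx : x ∈ X.Ω) {s : ℝ} (hs : s ∈ Icc (lo 2) (hi 2)) :
    g.toFun (ver g x s) = Function.update (g.toFun x) 2 s := g.right_inv (upd_mem g hx hs)

theorem g_ver_co (hx : x ∈ X.Ω) {s : ℝ} (hs : s ∈ Icc (lo 2) (hi 2)) (i : X.ι) :
    g.toFun (ver g x s) (X.co i) = g.toFun x (X.co i) := by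
  rw [g_ver g hx hs, Function.update_of_ne (co_ne i)]

theorem self_mem (hx : x ∈ X.Ω) : g.toFun x 2 ∈ Icc (lo 2) (hi 2) :=
  ⟨(g.mapsTo hx).1 2, (g.mapsTo hx).2 2⟩

theorem ver_self (hx : x ∈ X.Ω) : ver g x (g.toFun x 2) = x := by
  rw [ver, Function.update_eq_self, g.left_inv hx]

theorem ver_cont (hx : x ∈ X.Ω) : ContinuousOn (ver g x) (Icc (lo 2) (hi 2)) :=
  g.cont_inv.comp (f := fun s => Function.update (g.toFun x) 2 s)
    (by fun_prop) fun _ hs => upd_mem g hx hs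

theorem ver_end (hF : Flat Fr g t lam) (hx : x ∈ X.Ω) {s : ℝ} (hs : s ∈ Icc (lo 2) (hi 2))
    (h : s = lo 2 ∨ s = hi 2) : ver g x s ∈ X.U := by
  refine X.bd_sub ?_
  rw [hF.bd_eq, Cut.Box.frontier_box]
  refine ⟨ver_mem g hx hs, g.mapsTo (ver_mem g hx hs), 2, ?_⟩
  rwa [g_ver g hx hs, Function.update_self]

/-- a subdisc of a flat wall lies in the convex hull of its boundary -/
theorem mem_hull (hF : Flat Fr g t lam) {j : X.ι} {B Δ J : Set E3} (hD : ConBall 2 (lvl g t j) B)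
    (hΔ : ConBall 2 Δ J) (hs : Δ ⊆ lvl g t j) (hU : Δ ∩ X.U ⊆ J) (hx : x ∈ Δ) :
    g.toFun x ∈ convexHull ℝ (g.toFun '' J) := by
  have hxΩ : x ∈ X.Ω := (hs hx).1
  have hm : MapsTo (ver g x) (Icc (lo 2) (hi 2)) (lvl g t j) := fun s hs' =>
    ⟨ver_mem g hxΩ hs', (g_ver_co g hxΩ hs' j).trans (hs hx).2⟩
  obtain ⟨⟨a, ha, ha1, ha2⟩, b, hb, hb1, hb2⟩ := ends (s₀ := g.toFun x 2)
    (P := fun s => ver g x s ∈ J)
    ((ver_cont g hxΩ).preimage_isClosed_of_isClosed isClosed_Icc hΔ.isClosed) inter_subset_left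
    ⟨self_mem g hxΩ, by rw [mem_preimage, ver_self g hxΩ]; exact hx⟩ fun s hs' hP => by
      refine ⟨fun e => hP (hU ⟨hs'.2, ver_end g hF hxΩ hs'.1 (Or.inl e)⟩),
        fun e => hP (hU ⟨hs'.2, ver_end g hF hxΩ hs'.1 (Or.inr e)⟩),
        inter_mem self_mem_nhdsWithin ?_⟩
      exact ((ver_cont g hxΩ s hs'.1).tendsto_nhdsWithin hm)
        ((Lam.sub_open hD hΔ hs).2 _ ⟨hs'.2, hP⟩)
  have h1 := subset_convexHull ℝ _ (mem_image_of_mem g.toFun ha2)
  have h2 := subset_convexHull ℝ _ (mem_image_of_mem g.toFun hb2)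
  rw [g_ver g hxΩ ha.1] at h1
  rw [g_ver g hxΩ hb.1] at h2
  obtain ⟨u, v, hu, hv, huv, e⟩ := (Icc_subset_segment (𝕜 := ℝ) ⟨ha1, hb1⟩ :
    g.toFun x 2 ∈ segment ℝ a b)
  have h3 := convex_convexHull ℝ _ h1 h2 hu hv huv
  convert h3 using 1
  ext k
  by_cases hk : k = 2
  · rw [hk]
    simpa using e.symm
  · simp only [Pi.add_apply, Pi.smul_apply, Function.update_of_ne hk, smul_eq_mul]
    rw [← add_mul, huv, one_mul]

theorem exists_cell (φ : X.K.ι) : ∃ c, X.K.dim c = 3 ∧ X.K.cell φ ⊆ X.K.cell c := by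
  obtain ⟨y, hy⟩ := X.K.ocell_nonempty φ
  obtain ⟨c, hc, hy'⟩ := X.top y (X.K.cell_subset_carrier φ hy.1)
  exact ⟨c, hc, X.K.cell_subset_of_mem hy hy'⟩

theorem cell_sub (c : X.K.ι) : X.K.cell c ⊆ X.Ω := fun _ h =>
  X.cover ▸ Or.inl (X.K.cell_subset_carrier c h)

theorem abs_le_of_cl {z : ℝ} (h : |cl z| ≤ 1 / 2) : |z| ≤ 1 / 2 := by
  unfold cl at h
  rw [abs_le] at h ⊢
  obtain ⟨h1, h2⟩ := h
  constructor
  · rcases le_max_iff.1 h1 with h | h
    · linarith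
    · exact (le_min_iff.1 h).1
  · rcases min_le_iff.1 (max_le_iff.1 h2).2 with h | h
    · exact h
    · linarith

theorem cl_top {z : ℝ} (h : 1 / 2 ≤ z) : cl (2 * cl z) = 1 := by
  have h1 : 1 / 2 ≤ cl z := le_max_of_le_right (le_min h (by norm_num))
  rw [cl, min_eq_right (by linarith), max_eq_right (by norm_num)]

theorem cl_bot {z : ℝ} (h : z ≤ -(1 / 2)) : cl (2 * cl z) = -1 := by
  have h1 : cl z ≤ -(1 / 2) := max_le (by norm_num) (min_le_of_left_le h)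
  rw [cl, max_eq_left (min_le_of_left_le (by linarith))]

variable {b : X.ι → Band E3} {o κ : ℝ} {i : X.ι}

/-- the band misses the plane -/
theorem miss (hF : Flat Fr g t lam) (hM : Model Fr b) (hL : Lab g t fun i => (b i).W) (ho : 0 ≤ o)
    (hosc : ∀ c, ∀ x ∈ X.K.cell c, ∀ y ∈ X.K.cell c,
      |g.toFun x (X.co i) - g.toFun y (X.co i)| ≤ o)
    (hκ : ∀ j, X.fam j = X.fam i → 2 * o + lam < |t j - κ|) (hx : x ∈ (b i).B) :
    g.toFun x (X.co i) ≠ κ := by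
  intro e
  have hpos := hF.pos
  rcases (X.cover.symm ▸ (hM.on i).sub hx : x ∈ X.K.carrier ∪ X.U) with h | h
  · obtain ⟨c, hc⟩ := X.K.mem_carrier.1 h
    have h0 : (0 : ℝ) ∈ I := ⟨by norm_num, by norm_num⟩
    obtain ⟨p, ⟨hp, hpc⟩, hp1⟩ :=
      hM.touch i c ⟨_, (hM.on i).ok.Mmem x hx 0 h0, hM.keep i c x hx 0 h0 hc⟩
    obtain ⟨j, hj, hj'⟩ := hL i p ⟨hp, hp1⟩
    have h1 := hosc c p hpc x hc
    rw [e] at h1
    have h2 : X.fam j ≠ X.fam i := fun h' => by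
      have := hκ j h'
      rw [← co_eq h', hj.2] at h1
      linarith
    refine h2 (congrArg X.fam (hj' (ver g p '' Icc (lo 2) (hi 2)) ?_
      (isPreconnected_Icc.image _ (ver_cont g hj.1)) ⟨_, self_mem g hj.1, ver_self g hj.1⟩
      ⟨_, mem_image_of_mem _ (right_mem_Icc.2 (hF.lt 2).le),
        ver_end g hF hj.1 (right_mem_Icc.2 (hF.lt 2).le) (Or.inr rfl)⟩ ?_).symm)
    · rintro _ ⟨s, hs, rfl⟩
      exact ⟨ver_mem g hj.1 hs, (g_ver_co g hj.1 hs j).trans hj.2⟩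
    · rintro φ ⟨-, c', -, hφ, _, ⟨s, hs, rfl⟩, hy⟩
      refine eq_empty_of_forall_notMem ?_
      have key : ∀ z ∈ X.K.cell φ, ∀ k, X.fam k = X.fam i → z ∉ lvl g t k := by
        intro z hz k hk hzk
        have h3 : g.toFun (ver g p s) ∈ {v : E3 | v (X.co i) ∈ Icc (t k - o) (t k + o)} := by
          refine convexHull_min ?_ ((convex_Icc _ _).linear_preimage
            (LinearMap.proj (X.co i) : E3 →ₗ[ℝ] ℝ)) hy
          rintro _ ⟨w, hw, rfl⟩
          have h4 := abs_le.1 (hosc c' w hw z (hφ hz))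
          have h5 : g.toFun z (X.co i) = t k := co_eq hk ▸ hzk.2
          change g.toFun w (X.co i) ∈ Icc (t k - o) (t k + o)
          exact ⟨by linarith [h4.1], by linarith [h4.2]⟩
        rw [mem_ofPred_eq, g_ver_co g hj.1 hs] at h3
        have h6 := hκ k hk
        rw [abs_le] at h1
        rcases lt_abs.1 h6 with h7 | h7 <;> linarith [h1.1, h1.2, h3.1, h3.2]
      rintro z ⟨hz, k, l, hkl, hk, hl⟩
      by_cases h3 : X.fam k = X.fam l
      · have h4 := hF.sep k l hkl h3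
        rw [← hk.2, ← hl.2, co_eq h3, sub_self, abs_zero] at h4
        linarith
      · by_cases h4 : X.fam k = X.fam i
        · exact key z hz k h4 hk
        · exact key z hz l (by revert h3 h4; cases X.fam k <;> cases X.fam l <;> cases X.fam i <;>
            simp) hl
  · have h1 : x ∈ (Fr.nb i).half.B := (hM.ext i).1 ▸ (⟨hx, h⟩ : x ∈ (b i).B ∩ X.U)
    have h2 := h1.2
    rw [(hF.nat i x h).2.1, e] at h2
    have h3 := abs_le_of_cl h2
    rw [abs_div, abs_of_pos (by linarith : 0 < 2 * lam), div_le_iff₀ (by linarith),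
      abs_sub_comm] at h3
    linarith [hκ i rfl]

/-- a point of the band on the original level -/
theorem exists_pt (hF : Flat Fr g t lam) (hM : Model Fr b) (i : X.ι) :
    ∃ w ∈ (b i).B, g.toFun w (X.co i) = t i := by
  obtain ⟨w, hw⟩ := Lam.bd_nonempty (hM.disc i)
  refine ⟨w, ((hM.disc i).1 hw).1, ?_⟩
  have hpos := hF.pos
  have h1 := hw.1.2
  rw [(hF.nat i w (X.bd_sub hw.2)).2.1] at h1
  have h2 := abs_le.1 (abs_le_of_cl (z := (g.toFun w (X.co i) - t i) / (2 * lam))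
    (by rw [h1]; norm_num))
  rw [cl, min_eq_left (by linarith [h2.2]), max_eq_right (by linarith [h2.1]),
    div_eq_zero_iff] at h1
  rcases h1 with h | h <;> linarith

/-- off the band the level function is read off at the top of the vertical line -/
theorem u_eq (hF : Flat Fr g t lam) (hM : Model Fr b) (hx : x ∈ X.Ω)
    (h : ∀ y ∈ (b i).B, g.toFun y (X.co i) ≠ g.toFun x (X.co i)) :
    (b i).u x = cl (2 * cl ((g.toFun x (X.co i) - t i) / (2 * lam))) := by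
  have ht := right_mem_Icc.2 (hF.lt 2).le
  have hU := ver_end g hF hx ht (Or.inr rfl)
  have h1 : (b i).u (ver g x (hi 2)) = cl (2 * (Fr.nb i).u (ver g x (hi 2))) :=
    (hM.ext i).2.1 _ hU
  rw [(hF.nat i _ hU).2.1, g_ver_co g hx ht] at h1
  rw [← h1]
  have hc : ContinuousOn (fun s => (b i).u (ver g x s)) (Icc (lo 2) (hi 2)) :=
    (hM.on i).upl.1.comp (ver_cont g hx) fun s hs => ver_mem g hx hs
  have hv : ∀ s ∈ Icc (lo 2) (hi 2), (b i).u (ver g x s) = 1 ∨ (b i).u (ver g x s) = -1 :=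
    fun s hs => (hM.on i).out _ (ver_mem g hx hs) fun hB => h _ hB (g_ver_co g hx hs i)
  have h2 := isPreconnected_Icc.intermediate_value (self_mem g hx) ht hc
  have h3 := isPreconnected_Icc.intermediate_value ht (self_mem g hx) hc
  have h4 := hv _ (self_mem g hx)
  rw [ver_self g hx] at h2 h3 h4
  rcases h4 with h4 | h4 <;> rcases hv _ ht with h5 | h5
  · rw [h4, h5]
  · obtain ⟨s, hs, e⟩ := h3 (show (0 : ℝ) ∈ _ by rw [h4, h5]; norm_num)
    rcases hv s hs with h6 | h6 <;> simp only [h6] at e <;> norm_num at e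
  · obtain ⟨s, hs, e⟩ := h2 (show (0 : ℝ) ∈ _ by rw [h4, h5]; norm_num)
    rcases hv s hs with h6 | h6 <;> simp only [h6] at e <;> norm_num at e
  · rw [h4, h5]

end Drift

open Drift

theorem drift : DRIFT := by
  intro X c₀ Fr b lo hi g t lam o κ i hF hM hL ho hosc hκ x hx
  have hpos := hF.pos
  have hB : IsPreconnected (b i).B :=
    ((bas E3).pre (hM.on i).ok (hM.disc i).isConnected.isPreconnected).1
  have hc : ContinuousOn (fun y => g.toFun y (X.co i)) (b i).B :=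
    (continuous_apply _).comp_continuousOn (g.cont.mono (hM.on i).sub)
  obtain ⟨w, hw, hw'⟩ := exists_pt g hF hM i
  have h0 := hκ i rfl
  refine ⟨fun h1 h2 => ?_, fun h1 h2 => ?_⟩
  · rw [u_eq g hF hM hx fun y hy e => ?_]
    · refine cl_top ?_
      rw [le_div_iff₀ (by linarith)]
      rw [abs_of_neg (by linarith)] at h0
      linarith
    · obtain ⟨z, hz, e'⟩ := hB.intermediate_value hw hy hc
        (show κ ∈ _ from ⟨by rw [hw']; exact h1.le, by rw [e]; exact h2⟩)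
      exact miss g hF hM hL ho hosc hκ hz e'
  · rw [u_eq g hF hM hx fun y hy e => ?_]
    · refine cl_bot ?_
      rw [div_le_iff₀ (by linarith)]
      rw [abs_of_pos (by linarith)] at h0
      linarith
    · obtain ⟨z, hz, e'⟩ := hB.intermediate_value hy hw hc
        (show κ ∈ _ from ⟨by rw [e]; exact h2, by rw [hw']; exact h1.le⟩)
      exact miss g hF hM hL ho hosc hκ hz e'

theorem locatt_of (h : TRACE) : LOCATT := by
  intro X c₀ Fr lo hi g t lam hF hS j p hp L hL hLc hpL hLU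
  obtain ⟨T⟩ := h hS
  have := T.finκ
  obtain ⟨a, ha, hpa⟩ := T.full j p hp
  obtain ⟨c, hc, hac⟩ := exists_cell (T.face a)
  obtain ⟨k₀, -, hk₀⟩ := T.cover a c hc hac
  set J : T.κ → Set E3 := fun k => ⋃ a ∈ T.s k, T.A a with hJ
  have hΔ : ∀ k, T.clab k = j → T.Δ k ⊆ lvl g t j := fun k hk y hy =>
    T.tile_union j ▸ Or.inl (mem_iUnion₂.2 ⟨k, hk, hy⟩)
  have hJc : ∀ k, J k ⊆ X.K.cell (T.cel k) := fun k =>
    iUnion₂_subset fun a ha => (T.sub a).trans (inter_subset_right.trans (T.mem_s k a ha).2)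
  have hJs : ∀ k, T.clab k = j → (T.Δ k ∩ L).Nonempty →
      J k ⊆ lvl g t j ∩ ⋃ φ ∈ near g L, X.K.cell φ := by
    rintro k hk ⟨y, hy, hyL⟩
    refine subset_inter ((T.tile k).1.1.trans (hΔ k hk)) (iUnion₂_subset fun a ha => ?_)
    refine (T.sub a).trans (inter_subset_right.trans (subset_biUnion_of_mem (u := X.K.cell) ?_))
    exact ⟨T.dim_face a, T.cel k, T.dim_cel k, (T.mem_s k a ha).2, y, hyL,
      convexHull_mono (image_mono (hJc k))
        (mem_hull g hF (hS.disc j) (T.tile k).1 (hΔ k hk) (T.tile k).2.1 hy)⟩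
  set Z := connectedComponentIn (lvl g t j ∩ ⋃ φ ∈ near g L, X.K.cell φ) p with hZ
  have hk₀j : T.clab k₀ = j := (T.mem_s k₀ a hk₀).1.symm.trans ha
  have hpJ : p ∈ J k₀ := mem_biUnion hk₀ hpa
  have hpZ : p ∈ Z := mem_connectedComponentIn (hJs k₀ hk₀j ⟨p, (T.tile k₀).1.1 hpJ, hpL⟩ hpJ)
  have hJZ : ∀ k, T.clab k = j → (T.Δ k ∩ L).Nonempty → ∀ x ∈ J k, x ∈ Z → J k ⊆ Z :=
    fun k hk hk' x hx hxZ => by
      rw [hZ, connectedComponentIn_eq hxZ]
      exact (A12.circle_isConnected (T.tile k).1.isCircleD).isPreconnected.subset_connectedComponentIn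
        hx (hJs k hk hk')
  refine ⟨Z, connectedComponentIn_subset _ _, isPreconnected_connectedComponentIn, hpZ, ?_⟩
  obtain ⟨x, hxL, hx1, hx2⟩ := isPreconnected_closed_iff.1 hLc
    (⋃ k, ⋃ (_ : T.clab k = j ∧ J k ⊆ Z), T.Δ k)
    ((⋃ k, ⋃ (_ : T.clab k = j ∧ ¬ J k ⊆ Z), T.Δ k) ∪ X.U)
    (isClosed_iUnion_of_finite fun k => isClosed_iUnion_of_finite fun _ => (T.tile k).1.isClosed)
    ((isClosed_iUnion_of_finite fun k =>
      isClosed_iUnion_of_finite fun _ => (T.tile k).1.isClosed).union X.U_cpt.isClosed)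
    (fun y hy => by
      rcases (T.tile_union j).symm ▸ hL hy with h | h
      · obtain ⟨k, hk, hy'⟩ := mem_iUnion₂.1 h
        by_cases h' : J k ⊆ Z
        · exact Or.inl (mem_iUnion₂.2 ⟨k, ⟨hk, h'⟩, hy'⟩)
        · exact Or.inr (Or.inl (mem_iUnion₂.2 ⟨k, ⟨hk, h'⟩, hy'⟩))
      · exact Or.inr (Or.inr ((Fr.nb_on j).sub h.1)))
    ⟨p, hpL, mem_iUnion₂.2 ⟨k₀, ⟨hk₀j, hJZ k₀ hk₀j ⟨p, (T.tile k₀).1.1 hpJ, hpL⟩ p hpJ hpZ⟩,
      (T.tile k₀).1.1 hpJ⟩⟩
    (hLU.mono (inter_subset_inter_right _ subset_union_right))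
  obtain ⟨k, ⟨hk, hkZ⟩, hxk⟩ := mem_iUnion₂.1 hx1
  rcases hx2 with hx2 | hx2
  · obtain ⟨l, ⟨hl, hlZ⟩, hxl⟩ := mem_iUnion₂.1 hx2
    have hkl : k ≠ l := fun e => hlZ (e ▸ hkZ)
    exact absurd (hJZ l hl ⟨x, hxl, hxL⟩ x (T.tile_inter l k hkl.symm (hl.trans hk.symm) ⟨hxl, hxk⟩)
      (hkZ (T.tile_inter k l hkl (hk.trans hl.symm) ⟨hxk, hxl⟩))) hlZ
  · exact ⟨x, hkZ ((T.tile k).2.1 ⟨hxk, hx2⟩), hx2⟩

end P073.Wb
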