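import Vale.Agent.P073Y.Wb.Sk
import Vale.Agent.P073Y.Bd.Bas1
import Vale.Agent.P073Z.MAN

/-!
# The normalised walls are simpler than the old walls
-/

open Set Metric Topology Filter
open scoped NNReal

namespace P073.Wb

open P073.Bd (Band I cl Match Sgn Comm Ext PwLip Chart Lev corner Gen1)

namespace Normle

/-- a connected set covered by finitely many closed sets gives a connected nerve -/
theorem pre_nerve {Y α : Type} [TopologicalSpace Y] {Z : Set Y} {S : Set α} (hS : S.Finite)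
    (C W : α → Set Y) (hZ : IsPreconnected Z) (hC : ∀ a ∈ S, IsClosed (C a))
    (hcov : Z ⊆ ⋃ a ∈ S, C a) (hne : ∀ a ∈ S, (Z ∩ C a).Nonempty)
    (hW : ∀ a ∈ S, IsPreconnected (W a))
    (hCW : ∀ a ∈ S, ∀ a' ∈ S, (C a ∩ C a').Nonempty → (W a ∩ W a').Nonempty) :
    IsPreconnected (⋃ a ∈ S, W a) := by
  refine IsPreconnected.biUnion_of_reflTransGen hW fun a ha a' ha' => ?_
  by_contra hn
  set r : α → α → Prop := fun i j => (W i ∩ W j).Nonempty ∧ i ∈ S with hr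
  have h1 : IsClosed (⋃ j ∈ {j ∈ S | Relation.ReflTransGen r a j}, C j) :=
    (hS.subset fun _ h => h.1).isClosed_biUnion fun j hj => hC j hj.1
  have h2 : IsClosed (⋃ j ∈ {j ∈ S | ¬ Relation.ReflTransGen r a j}, C j) :=
    (hS.subset fun _ h => h.1).isClosed_biUnion fun j hj => hC j hj.1
  obtain ⟨x, -, hx1, hx2⟩ := isPreconnected_closed_iff.1 hZ _ _ h1 h2
    (fun x hx => by
      obtain ⟨j, hj, hxj⟩ := mem_iUnion₂.1 (hcov hx)
      by_cases h : Relation.ReflTransGen r a j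
      · exact Or.inl (mem_iUnion₂.2 ⟨j, ⟨hj, h⟩, hxj⟩)
      · exact Or.inr (mem_iUnion₂.2 ⟨j, ⟨hj, h⟩, hxj⟩))
    (by
      obtain ⟨x, hx, hxa⟩ := hne a ha
      exact ⟨x, hx, mem_iUnion₂.2 ⟨a, ⟨ha, Relation.ReflTransGen.refl⟩, hxa⟩⟩)
    (by
      obtain ⟨x, hx, hxa⟩ := hne a' ha'
      exact ⟨x, hx, mem_iUnion₂.2 ⟨a', ⟨ha', hn⟩, hxa⟩⟩)
  obtain ⟨j, hj, hxj⟩ := mem_iUnion₂.1 hx1
  obtain ⟨l, hl, hxl⟩ := mem_iUnion₂.1 hx2
  exact hl.2 (hj.2.tail ⟨hCW j hj.1 l hl.1 ⟨x, hxj, hxl⟩, hj.1⟩)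

theorem match_zero {E : Type} [NormedAddCommGroup E] [NormedSpace ℝ E] {b b' : Band E}
    (h : Match b b') {x : E} (hx : x ∈ b.B) (hx' : x ∈ b'.B) : b'.u x = 0 ↔ b.u x = 0 := by
  obtain ⟨ε, hε, h1, -⟩ := h x hx hx'
  rw [h1]
  rcases hε with rfl | rfl <;> simp

theorem sgn_zero {E : Type} [NormedAddCommGroup E] [NormedSpace ℝ E] {b g : Band E}
    (h : Sgn b g) {x : E} (hx : x ∈ b.B) : g.u x = 0 ↔ b.u x = 0 := by
  obtain ⟨ε, hε, h1⟩ := h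
  rw [(h1 x hx).1]
  rcases hε with rfl | rfl <;> simp

variable {X : Base} {c₀ : ℝ≥0} {Fr : Frame X c₀} {D : X.ι → Set E3}

/-- every point of the wires lies in a face -/
theorem exists_face (X : Base) {x : E3} (hx : x ∈ X.K.skel 1) :
    ∃ φ, X.K.dim φ = 2 ∧ x ∈ X.K.cell φ := by
  obtain ⟨c, hc, hxc⟩ := X.top x (X.K.skel_subset_carrier 1 hx)
  have hb : x ∈ X.K.bd c := by
    rw [← X.K.cell_inter_skel (k := 2) hc]
    exact ⟨hxc, X.K.skel_mono (by norm_num) hx⟩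
  obtain ⟨j, hj, hs⟩ := X.K.sub_bd c x hb
  have hman : PLMan 2 (X.K.bd c) :=
    (ConBall.conSphere (hc ▸ X.K.ball c : ConBall (2 + 1) _ _)).plMan
  obtain ⟨m, h1, -, h2⟩ := Man.exists_top (X.K.sub_bd c) hman hs
  exact ⟨m, h2, h1 hj⟩

/-- every cell lies in a cell of dimension three -/
theorem exists_cell (X : Base) (φ : X.K.ι) : ∃ c, X.K.dim c = 3 ∧ X.K.cell φ ⊆ X.K.cell c := by
  obtain ⟨x, hx⟩ := X.K.ocell_nonempty φ
  obtain ⟨c, hc, hxc⟩ := X.top x (X.K.cell_subset_carrier φ hx.1)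
  exact ⟨c, hc, X.K.cell_subset_of_mem hx hxc⟩

/-- a point of the frozen part in a cell which is not frozen lies on the boundary of the cell -/
theorem mem_bd_of_U (X : Base) {φ : X.K.ι} (h : ¬ X.K.cell φ ⊆ X.U) {x : E3}
    (hx : x ∈ X.K.cell φ) (hU : x ∈ X.U) : x ∈ X.K.bd φ := by
  by_contra hb
  exact h ((X.sub.cell_subset ⟨hx, hb⟩ ⟨X.K.cell_subset_carrier φ hx, hU⟩).trans
    inter_subset_right)

theorem bd_face (T : Trace Fr D) (a : T.α) :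
    X.K.cell (T.face a) ∩ X.K.skel 1 = X.K.bd (T.face a) :=
  X.K.cell_inter_skel (k := 1) (T.dim_face a)

theorem ends_mem (T : Trace Fr D) (a : T.α) {x : E3} (hx : x = T.p a ∨ x = T.q a) :
    x ∈ T.A a ∩ X.K.bd (T.face a) := by
  rw [T.ends a]
  exact hx

theorem ends_P (hS : State Fr D) (T : Trace Fr D) (a : T.α) {x : E3}
    (hx : x = T.p a ∨ x = T.q a) : x ∈ Fr.P := by
  have h := ends_mem T a hx
  refine hS.wire (T.lab a) ⟨(T.sub a h.1).1, ?_⟩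
  have h2 := h.2
  rw [← bd_face T a] at h2
  exact h2.2

variable {T : Trace Fr D} {β : T.α → Band E3} {γ : T.κ → Band E3} {b : X.ι → Band E3}

/-- a point of an old arc on the wires lies on the new arc -/
theorem new_of_old (hF : Faces T β) (a : T.α) {x : E3} (hx : x ∈ T.A a)
    (hb : x ∈ X.K.bd (T.face a)) : x ∈ (β a).W := by
  have h : x ∈ T.A a ∩ X.K.bd (T.face a) := ⟨hx, hb⟩
  rw [T.ends a] at h
  rcases h with rfl | rfl
  · exact (hF.arc a).left_mem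
  · exact (hF.arc a).right_mem

/-- a point of a new arc on the wires is an end -/
theorem end_of_new (hS : State Fr D) (hF : Faces T β) (a : T.α) {x : E3} (hx : x ∈ (β a).W)
    (hb : x ∈ X.K.bd (T.face a)) : x = T.p a ∨ x = T.q a := by
  have key : ∀ p, p ∈ Fr.P → Match (Fr.z p).half (β a) → x ∈ (Fr.z p).half.B → x = p := by
    intro p hp hm hxp
    obtain ⟨e, -, -, -, -, hW, -⟩ := Fr.wire p hp
    have h0 : x ∈ (Fr.z p).half.W := ⟨hxp, (match_zero hm hxp hx.1).1 hx.2⟩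
    rw [Bd.Bas1.half_W, hW] at h0
    exact h0
  have h : x ∈ (β a).B ∩ X.K.bd (T.face a) := ⟨hx.1, hb⟩
  rw [hF.bd a] at h
  rcases h with h | h
  · exact Or.inl (key _ (ends_P hS T a (Or.inl rfl)) (hF.mt a).1 h)
  · exact Or.inr (key _ (ends_P hS T a (Or.inr rfl)) (hF.mt a).2 h)

theorem new_sub_face (hF : Faces T β) (a : T.α) : (β a).W ⊆ X.K.cell (T.face a) :=
  fun _ hx => (hF.ok a).2.1 hx.1

/-- the new arcs lie in the new walls -/
theorem new_sub_wall (hC : Cells T β γ) (hW : Walls T γ b) (a : T.α) :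
    (β a).W ⊆ (b (T.lab a)).W := by
  intro x hx
  obtain ⟨c, hc, hs⟩ := exists_cell X (T.face a)
  obtain ⟨k, -, hk⟩ := T.cover a c hc hs
  have hh : x ∈ (β a).half.W := by rw [Bd.Bas1.half_W]; exact hx
  have h1 : x ∈ (γ k).B ∩ X.K.bd (T.cel k) := by
    rw [hC.bd k]
    exact mem_iUnion₂.2 ⟨a, hk, hh.1⟩
  have h2 : (γ k).u x = 0 := (match_zero (hC.mt k a hk) hh.1 h1.1).2 hh.2
  rw [(T.mem_s k a hk).1]
  refine ⟨?_, (sgn_zero (hW.sgn k) h1.1).2 h2⟩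
  rw [hW.B_eq]
  exact Or.inl (mem_iUnion₂.2 ⟨k, rfl, h1.1⟩)

/-- on the frozen part the walls do not change -/
theorem old_of_U (hS : State Fr D) (hW : Walls T γ b) (i : X.ι) {x : E3} (hx : x ∈ (b i).W)
    (hU : x ∈ X.U) : x ∈ D i := by
  obtain ⟨h1, h2, -⟩ := hW.ext i
  have h3 : x ∈ (Fr.nb i).half.W := ⟨h1 ▸ ⟨hx.1, hU⟩, (h2 x hU) ▸ hx.2⟩
  rw [Bd.Bas1.half_W, ← hS.frozen i] at h3
  exact h3.1

/-- the trace of a new wall on a face consists of new arcs -/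
theorem wall_face (hS : State Fr D) (hF : Faces T β) (hC : Cells T β γ) (hW : Walls T γ b)
    (i : X.ι) {φ : X.K.ι} (hφ : X.K.dim φ = 2) {x : E3} (hx : x ∈ (b i).W)
    (hxφ : x ∈ X.K.cell φ) : ∃ a, T.lab a = i ∧ T.face a = φ ∧ x ∈ (β a).W := by
  by_cases hU : x ∈ X.U
  · have hD := old_of_U hS hW i hx hU
    have hatt : Att X D X.faces i x :=
      ⟨{x}, singleton_subset_iff.2 ⟨hD, mem_iUnion₂.2 ⟨φ, hφ, hxφ⟩⟩, isPreconnected_singleton,
        rfl, x, rfl, hU⟩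
    obtain ⟨a, ha, hxa⟩ := T.full i x hatt
    obtain ⟨a', h1, h2, h3⟩ := T.sat a φ hφ x hxa hxφ
    refine ⟨a', h2.trans ha, h1, ?_⟩
    by_cases hfr : X.K.cell (T.face a') ⊆ X.U
    · rw [(hF.nat a' hfr).2]; exact h3
    · exact new_of_old hF a' h3 (mem_bd_of_U X hfr (T.sub a' h3).2 hU)
  · have hB := hx.1
    rw [hW.B_eq] at hB
    rcases hB with hB | hB
    swap
    · exact absurd ((Fr.nb_on i).sub hB.1) hU
    obtain ⟨k, hk, hxk⟩ := mem_iUnion₂.1 hB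
    have hne : T.cel k ≠ φ := fun e => by
      have := T.dim_cel k
      rw [e, hφ] at this
      exact absurd this (by norm_num)
    have hbd : x ∈ X.K.bd (T.cel k) :=
      X.K.inter_subset_bd hne (by rw [hφ, T.dim_cel k]; norm_num) ⟨(hC.on k).sub hxk, hxφ⟩
    have h1 : x ∈ (γ k).B ∩ X.K.bd (T.cel k) := ⟨hxk, hbd⟩
    rw [hC.bd k] at h1
    obtain ⟨a, ha, hxa⟩ := mem_iUnion₂.1 h1
    have h2 : (γ k).u x = 0 := (sgn_zero (hW.sgn k) hxk).1 (hk ▸ hx.2)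
    have h3 : x ∈ (β a).W := by
      rw [← Bd.Bas1.half_W]
      exact ⟨hxa, (match_zero (hC.mt k a ha) hxa hxk).1 h2⟩
    have hl : T.lab a = i := (T.mem_s k a ha).1.trans hk
    by_cases he : T.face a = φ
    · exact ⟨a, hl, he, h3⟩
    · have h4 : x ∈ X.K.bd (T.face a) :=
        X.K.inter_subset_bd he (by rw [hφ, T.dim_face a]) ⟨new_sub_face hF a h3, hxφ⟩
      have h5 := (ends_mem T a (end_of_new hS hF a h3 h4)).1
      obtain ⟨a', e1, e2, h6⟩ := T.sat a φ hφ x h5 hxφ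
      refine ⟨a', e2.trans hl, e1, new_of_old hF a' h6 ?_⟩
      rw [e1]
      exact X.K.inter_subset_bd (Ne.symm he) (by rw [hφ, T.dim_face a])
        ⟨hxφ, new_sub_face hF a h3⟩

theorem att_pt (hS : State Fr D) (hF : Faces T β) (hC : Cells T β γ) (hW : Walls T γ b)
    (i : X.ι) {p : E3} (hp : p ∈ (b i).W ∩ X.K.skel 1) : Att X D X.faces i p := by
  obtain ⟨φ, hφ, hpφ⟩ := exists_face X hp.2
  obtain ⟨a, h1, -, h3⟩ := wall_face hS hF hC hW i hφ hp.1 hpφ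
  have h4 : p ∈ X.K.bd (T.face a) := by
    rw [← bd_face T a]
    exact ⟨new_sub_face hF a h3, hp.2⟩
  exact h1 ▸ T.att a p (ends_mem T a (end_of_new hS hF a h3 h4)).1

theorem cnt (hS : State Fr D) (hF : Faces T β) (hC : Cells T β γ) (hW : Walls T γ b)
    {φ : X.K.ι} (hφ : X.K.dim φ = 2) {i j : X.ι} (hij : i ≠ j) :
    ((b i).W ∩ (b j).W ∩ X.K.cell φ).encard ≤ (D i ∩ D j ∩ X.K.cell φ).encard := by
  by_cases hfr : X.K.cell φ ⊆ X.U
  · exact encard_le_encard fun x hx =>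
      ⟨⟨old_of_U hS hW i hx.1.1 (hfr hx.2), old_of_U hS hW j hx.1.2 (hfr hx.2)⟩, hx.2⟩
  have key : ∀ x ∈ (b i).W ∩ (b j).W ∩ X.K.cell φ, ∃ y, ∃ a a', T.lab a = i ∧ T.lab a' = j ∧
      T.face a = φ ∧ T.face a' = φ ∧ x ∈ (β a).W ∧ x ∈ (β a').W ∧ y ∈ T.A a ∧ y ∈ T.A a' := by
    intro x hx
    obtain ⟨a, h1, h2, h3⟩ := wall_face hS hF hC hW i hφ hx.1.1 hx.2
    obtain ⟨a', h1', h2', h3'⟩ := wall_face hS hF hC hW j hφ hx.1.2 hx.2
    have hne : a ≠ a' := fun e => hij (by rw [← h1, ← h1', e])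
    have hd : ¬ Disjoint (T.A a) (T.A a') := fun hd =>
      Set.disjoint_left.1 (hF.disj a a' hne (h2.trans h2'.symm) hd) h3.1 h3'.1
    obtain ⟨y, hy, hy'⟩ := not_disjoint_iff.1 hd
    exact ⟨y, a, a', h1, h1', h2, h2', h3, h3', hy, hy'⟩
  choose! f hf using key
  refine encard_le_encard_of_injOn (f := f) (fun x hx => ?_) fun x hx x' hx' he => ?_
  · obtain ⟨a, a', h1, h1', h2, -, -, -, hy, hy'⟩ := hf x hx
    exact ⟨⟨h1 ▸ (T.sub a hy).1, h1' ▸ (T.sub a' hy').1⟩, h2 ▸ (T.sub a hy).2⟩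
  · obtain ⟨a, a', h1, h1', h2, h2', h3, h3', hy, hy'⟩ := hf x hx
    obtain ⟨c, c', k1, k1', k2, k2', k3, k3', hz, hz'⟩ := hf x' hx'
    rw [← he] at hz hz'
    have e1 : a = c := by
      by_contra hn
      exact Set.disjoint_left.1 (T.disj a c hn (h2.trans k2.symm) (h1.trans k1.symm)) hy hz
    have e2 : a' = c' := by
      by_contra hn
      exact Set.disjoint_left.1 (T.disj a' c' hn (h2'.trans k2'.symm) (h1'.trans k1'.symm)) hy' hz'
    subst e1 e2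
    have hne : a ≠ a' := fun e => hij (by rw [← h1, ← h1', e])
    exact hF.sing a a' hne (h2.trans h2'.symm) (h2 ▸ hfr) ⟨h3, h3'⟩ ⟨k3, k3'⟩

theorem pers (hF : Faces T β) (hC : Cells T β γ) (hW : Walls T γ b) {𝓕 : Set X.K.ι}
    (h𝓕 : ∀ φ ∈ 𝓕, X.K.dim φ = 2) (i : X.ι) {p : E3} (hp : p ∈ X.K.skel 1)
    (h : Att X D 𝓕 i p) : Att X (fun i => (b i).W) 𝓕 i p := by
  obtain ⟨Z, hZ, hpre, hpZ, hU⟩ := h
  have := T.finα
  set S : Set T.α := {a | T.lab a = i ∧ T.face a ∈ 𝓕 ∧ (Z ∩ T.A a).Nonempty} with hSdef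
  have hcov : ∀ x ∈ Z, ∃ a ∈ S, x ∈ T.A a := by
    intro x hx
    have hatt : Att X D X.faces i x := by
      refine ⟨Z, fun y hy => ⟨(hZ hy).1, ?_⟩, hpre, hx, hU⟩
      obtain ⟨φ, hφ, hyφ⟩ := mem_iUnion₂.1 (hZ hy).2
      exact mem_iUnion₂.2 ⟨φ, h𝓕 φ hφ, hyφ⟩
    obtain ⟨a, ha, hxa⟩ := T.full i x hatt
    obtain ⟨φ, hφ, hxφ⟩ := mem_iUnion₂.1 (hZ hx).2
    obtain ⟨a', h1, h2, h3⟩ := T.sat a φ (h𝓕 φ hφ) x hxa hxφ
    exact ⟨a', ⟨h2.trans ha, h1 ▸ hφ, x, hx, h3⟩, h3⟩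
  refine ⟨⋃ a ∈ S, (β a).W, iUnion₂_subset fun a ha x hx => ⟨?_, ?_⟩, ?_, ?_, ?_⟩
  · have := new_sub_wall hC hW a hx
    rwa [ha.1] at this
  · exact mem_iUnion₂.2 ⟨T.face a, ha.2.1, new_sub_face hF a hx⟩
  · refine pre_nerve (toFinite S) T.A (fun a => (β a).W) hpre (fun a _ => (T.arc a).isClosed)
      (fun x hx => ?_) (fun a ha => ha.2.2)
      (fun a _ => (hF.arc a).isConnected.isPreconnected) ?_
    · obtain ⟨a, ha, hxa⟩ := hcov x hx
      exact mem_iUnion₂.2 ⟨a, ha, hxa⟩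
    · rintro a ha a' ha' ⟨x, hx, hx'⟩
      by_cases e : a = a'
      · subst e
        exact ⟨_, (hF.arc a).left_mem, (hF.arc a).left_mem⟩
      have hne : T.face a ≠ T.face a' := fun e' =>
        Set.disjoint_left.1 (T.disj a a' e e' (ha.1.trans ha'.1.symm)) hx hx'
      refine ⟨x, new_of_old hF a hx ?_, new_of_old hF a' hx' ?_⟩
      · exact X.K.inter_subset_bd hne (by rw [T.dim_face, T.dim_face])
          ⟨(T.sub a hx).2, (T.sub a' hx').2⟩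
      · exact X.K.inter_subset_bd hne.symm (by rw [T.dim_face, T.dim_face])
          ⟨(T.sub a' hx').2, (T.sub a hx).2⟩
  · obtain ⟨a, ha, hpa⟩ := hcov p hpZ
    refine mem_iUnion₂.2 ⟨a, ha, new_of_old hF a hpa ?_⟩
    rw [← bd_face T a]
    exact ⟨(T.sub a hpa).2, hp⟩
  · obtain ⟨x, hx, hxU⟩ := hU
    obtain ⟨a, ha, hxa⟩ := hcov x hx
    refine ⟨x, mem_iUnion₂.2 ⟨a, ha, ?_⟩, hxU⟩
    by_cases hfr : X.K.cell (T.face a) ⊆ X.U
    · rw [(hF.nat a hfr).2]; exact hxa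
    · exact new_of_old hF a hxa (mem_bd_of_U X hfr (T.sub a hxa).2 hxU)

end Normle

theorem normle : NORMLE := by
  intro X c₀ Fr D hS T β γ b hF hC hW
  refine ⟨⟨fun φ hφ i j hij => Normle.cnt hS hF hC hW hφ hij, fun i p hp => ?_,
    fun 𝓕 h𝓕 i p hp h => Normle.pers hF hC hW (fun φ hφ => (h𝓕 φ hφ).1) i hp h⟩,
    fun i p hp => Normle.att_pt hS hF hC hW i hp⟩
  obtain ⟨Z, hZ, -, hpZ, -⟩ := Normle.att_pt hS hF hC hW i hp
  exact ⟨i, (hZ hpZ).1⟩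

end P073.Wb
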