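import Vale.Agent.P073Y.Wb.Sk
import Vale.Agent.P073Z.RCX2

/-!
# Two tilings with the same pattern; two families of arcs with the same ends
-/

open Set Filter

namespace P073.Wb

theorem retile2 : RETILE2 := by
  intro E _ _ κ _ D B Γ Γ' φ Δ J Δ' hD hB hΓ _ hU h hd
  have hJ : ∀ k, J k ⊆ Γ := fun k => (h k).2.1 ▸ inter_subset_right
  obtain ⟨Φ, h1, -⟩ := ConHomeo.exists_extend_cells φ (fun _ => 2) Δ J Δ'
    (fun k => φ.toFun '' J k) (fun k => (h k).1) (fun k => (h k).2.2.1) (fun _ => rfl)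
    (fun k => (h k).2.1)
    (fun k => Subset.antisymm (h k).2.2.2 (subset_inter (h k).2.2.1.1
      ((image_mono (hJ k)).trans φ.mapsTo.image_subset)))
    (fun k l hkl => (hd k l hkl).1) (fun k l hkl => (hd k l hkl).2)
    (fun z _ hz => by rwa [hΓ.isClosed.closure_eq] at hz)
    (fun z _ hz => by rwa [(φ.isCompact_right hΓ).isClosed.closure_eq] at hz)
    (fun _ _ => ⟨univ, univ_mem, toFinite _⟩) (fun _ _ => ⟨univ, univ_mem, toFinite _⟩)
  have e : Γ ∪ ⋃ k, Δ k = D := (union_comm _ _).trans hU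
  have h2 := hD.image Φ e.ge
  rw [(h1.mono hB).image_eq, ← e, Φ.image_eq, union_comm] at h2
  exact h2

theorem arciso2 : ARCISO2 := by
  intro E _ _ α _ A A' p q V hV hV' hA hd hc
  have key : ∀ a, ∃ φ : ConHomeo (A a) (A' a),
      (∀ x ∈ A a, x ∈ V ∨ x ∈ ({p a, q a} : Set E) → φ.toFun x = x) ∧ A' a ∩ V ⊆ A a := by
    intro a
    have he : ({p a, q a} : Set E) ⊆ A a :=
      insert_subset (hA a).1.left_mem (singleton_subset_iff.2 (hA a).1.right_mem)
    rcases hc a with ⟨e, -⟩ | ⟨h1, h2⟩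
    · exact ⟨(ConHomeo.refl (hA a).1.conicalSet).cast rfl e.symm, fun _ _ _ => rfl,
        e ▸ inter_subset_left⟩
    · obtain ⟨φ, k0, k1⟩ := (hA a).1.exists_homeo (hA a).2
      refine ⟨φ, fun x hx hx' => ?_, h2.trans he⟩
      rcases hx'.elim (fun hv => h1 ⟨hx, hv⟩) id with rfl | rfl
      exacts [k0, k1]
  choose φ hφ hφ' using key
  have hm : ∀ a, ({p a, q a} : Set E) ⊆ A a := fun a =>
    insert_subset (hA a).1.left_mem (singleton_subset_iff.2 (hA a).1.right_mem)
  let X : Option α → Set E := fun o => o.elim V A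
  let Y : Option α → Set E := fun o => o.elim V A'
  let h : ∀ o, ConHomeo (X o) (Y o) := fun o => match o with
    | none => .refl hV'.conicalSet
    | some a => φ a
  obtain ⟨Φ, hΦ⟩ := ConHomeo.exists_glue_family (X := X) (Y := Y)
    (RelLF.of_finite fun o => match o with
      | none => hV.isClosed
      | some a => (hA a).1.isClosed)
    (RelLF.of_finite fun o => match o with
      | none => hV.isClosed
      | some a => (hA a).2.isClosed) h
    (fun o o' x hx => match o, o', hx with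
      | none, none, _ => rfl
      | none, some a, hx => (hφ a x hx.2 (Or.inl hx.1)).symm
      | some a, none, hx => hφ a x hx.1 (Or.inl hx.2)
      | some a, some a', hx => by
        by_cases e : a = a'
        · subst e; rfl
        · exact (hφ a x hx.1 (Or.inr ((hd a a' e).1 hx))).trans
            (hφ a' x hx.2 (Or.inr ((hd a' a (Ne.symm e)).1 hx.symm))).symm)
    (fun o o' y hy => match o, o', hy with
      | none, none, hy => ⟨y, hy, rfl⟩
      | none, some a, hy => ⟨y, ⟨hy.1, hφ' a hy.symm⟩, rfl⟩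
      | some a, none, hy => ⟨y, ⟨hφ' a hy, hy.2⟩, hφ a y (hφ' a hy) (Or.inl hy.2)⟩
      | some a, some a', hy => by
        by_cases e : a = a'
        · subst e
          exact ⟨_, ⟨(φ a).mapsTo_inv hy.1, (φ a).mapsTo_inv hy.1⟩, (φ a).right_inv hy.1⟩
        · have h1 := (hd a a' e).2 hy
          exact ⟨y, ⟨hm a h1, hm a' ((hd a' a (Ne.symm e)).2 hy.symm)⟩,
            hφ a y (hm a h1) (Or.inr h1)⟩)
  have eX : (⋃ o, X o) = (⋃ a, A a) ∪ V := by rw [iUnion_option, union_comm]; rfl
  have eY : (⋃ o, Y o) = (⋃ a, A' a) ∪ V := by rw [iUnion_option, union_comm]; rfl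
  exact ⟨Φ.cast eX eY, fun a => ((hΦ (some a)).1.image_eq).trans (φ a).image_eq, (hΦ none).1⟩

end P073.Wb
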