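import Vale.Agent.P073Y.Wb.Sk
import Vale.Agent.P073Y.Bd.Bas
import Vale.Agent.P073Y.Bd.SwapT
import Vale.Agent.P073Y.Cut.One

/-!
# Exchange along all extra circles
-/

open Set Metric Topology Filter
open scoped NNReal

namespace P073.Wb

open P073.Bd (Band I cl Match Sgn Comm Ext PwLip Chart Lev corner Gen1 bas)
open P073.Bd.Sw

namespace Sw1

section lev

variable {E : Type} [NormedAddCommGroup E] [NormedSpace ℝ E] {T S : Set E}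

omit [NormedSpace ℝ E] in
theorem lev_aux {𝒞 : Finset (Set E)} (hd : ∀ c ∈ 𝒞, ∀ c' ∈ 𝒞, c ≠ c' → Disjoint c c')
    (hc : ∀ c ∈ 𝒞, IsClosed c) {c : Set E} (h : c ∈ 𝒞) : IsClosed ((⋃ c ∈ 𝒞, c) \ c) ∧
    ∀ Z ⊆ ⋃ c ∈ 𝒞, c, IsPreconnected Z → (Z ∩ c).Nonempty → Z ⊆ c := by
  classical
  have e : (⋃ c ∈ 𝒞, c) \ c = ⋃ c' ∈ 𝒞.erase c, c' := by
    ext x
    simp only [Set.mem_sdiff, mem_iUnion, Finset.mem_erase]
    constructor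
    · rintro ⟨⟨c', h1, h2⟩, h3⟩
      exact ⟨c', ⟨fun e => h3 (e ▸ h2), h1⟩, h2⟩
    · rintro ⟨c', ⟨h1, h2⟩, h3⟩
      exact ⟨⟨c', h2, h3⟩, disjoint_left.1 (hd c' h2 c h h1) h3⟩
  have h1 : IsClosed ((⋃ c ∈ 𝒞, c) \ c) := by
    rw [e]
    exact (𝒞.erase c).finite_toSet.isClosed_biUnion fun c' h' => hc c' (Finset.mem_of_mem_erase h')
  refine ⟨h1, fun Z hZ hp ⟨x, hx⟩ => ?_⟩
  rcases Cut.sub_or hp (hc c h) h1 (fun y hy => (em (y ∈ c)).imp id fun h' => ⟨hZ hy, h'⟩)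
    (fun y _ h' => h'.2.2 h'.1) with h2 | h2
  · exact h2
  · exact absurd hx.2 (h2 hx.1).2

theorem lev_facts (h : Lev T S) : {g | IsCircle g ∧ g ⊆ T}.Finite ∧
    (∀ g, IsCircle g → g ⊆ T → Disjoint g S ∧ IsClosed (T \ g) ∧
      ∀ Z ⊆ T, IsPreconnected Z → (Z ∩ g).Nonempty → Z ⊆ g) ∧
    ∀ x ∈ T, (∃ g, IsCircle g ∧ g ⊆ T ∧ x ∈ g) ∨
      ∃ L, x ∈ L ∧ L ⊆ T ∧ IsPreconnected L ∧ (L ∩ S).Nonempty := by
  obtain ⟨𝒞, rfl, hd, ht⟩ := h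
  have hc : ∀ c ∈ 𝒞, IsClosed c := fun c h => by
    rcases ht c h with h1 | ⟨p, q, h1, -⟩
    · exact h1.1.isCompact.isClosed
    · exact h1.isClosed
  have key : ∀ g, IsCircle g → g ⊆ ⋃ c ∈ 𝒞, c → g ∈ 𝒞 ∧ Disjoint g S := by
    intro g hg hs
    obtain ⟨x, hx⟩ := (A12.circle_isConnected hg).nonempty
    obtain ⟨c, h1, h2⟩ := mem_iUnion₂.1 (hs hx)
    have h3 := (lev_aux hd hc h1).2 g hs (A12.circle_isConnected hg).isPreconnected ⟨x, hx, h2⟩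
    rcases ht c h1 with h4 | ⟨p, q, h4, -⟩
    · rw [arcs.2.2.2.1 hg h4.1 h3]
      exact ⟨h1, h4.2⟩
    · exact absurd h3 (arcs.2.2.2.2.1 hg h4)
  refine ⟨𝒞.finite_toSet.subset fun g hg => (key g hg.1 hg.2).1, fun g h1 h2 =>
    ⟨(key g h1 h2).2, lev_aux hd hc (key g h1 h2).1⟩, fun x hx => ?_⟩
  obtain ⟨c, h1, h2⟩ := mem_iUnion₂.1 hx
  have h3 : c ⊆ ⋃ c ∈ 𝒞, c := subset_biUnion_of_mem (u := fun c => c) h1
  rcases ht c h1 with h4 | ⟨p, q, h4, h5⟩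
  · exact Or.inl ⟨c, h4.1, h3, h2⟩
  · exact Or.inr ⟨c, h2, h3, h4.isConnected.isPreconnected, p, h5.symm ▸ mem_insert _ _⟩

end lev

variable {X : Base} {c₀ : ℝ≥0} {Fr : Frame X c₀} {b : X.ι → Band E3}

/-- a circle with its two walls -/
def Tri (b : X.ι → Band E3) : Type := {t : X.ι × X.ι × Set E3 //
  t.1 ≠ t.2.1 ∧ IsCircle t.2.2 ∧ t.2.2 ⊆ (b t.1).W ∩ (b t.2.1).W}

/-- the same circle seen from the other wall -/
def Tri.σ (m : Tri b) : Tri b :=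
  ⟨(m.1.2.1, m.1.1, m.1.2.2), m.2.1.symm, m.2.2.1, fun _ h => ⟨(m.2.2.2 h).2, (m.2.2.2 h).1⟩⟩

/-- the zone of the circle -/
def Tri.z (m : Tri b) : Set E3 :=
  {x ∈ (b m.1.1).B ∩ (b m.1.2.1).B | (b m.1.2.1).M ((b m.1.1).M (x, 0), 0) ∈ m.1.2.2}

variable (h : Model Fr b)
include h

theorem W_U (i : X.ι) : (b i).W ∩ X.U = (Fr.nb i).W := by
  obtain ⟨h1, h2, -⟩ := h.ext i
  rw [← (bas E3).half_W (Fr.nb i)]
  ext x
  constructor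
  · rintro ⟨h3, h4⟩
    exact ⟨h1 ▸ ⟨h3.1, h4⟩, (h2 x h4).symm.trans h3.2⟩
  · intro h3
    have h4 : x ∈ (b i).B ∩ X.U := h1 ▸ h3.1
    exact ⟨⟨h4.1, (h2 x h4.2).trans h3.2⟩, h4.2⟩

theorem W_bd (i : X.ι) : (b i).W ∩ X.bd = (Fr.nb i).W ∩ X.bd := by
  rw [← W_U h, inter_assoc, inter_eq_right.2 X.bd_sub]

theorem keepU (i : X.ι) : (b i).Keeps X.U := by
  obtain ⟨h1, -, h3⟩ := h.ext i
  intro x hx s hs hU
  have h4 : x ∈ (Fr.nb i).half.B := h1 ▸ ⟨hx, hU⟩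
  rw [h3 x h4 s hs]
  exact (h1 ▸ (((bas E3).half_ok (Fr.nb_on i).ok).Mmem x h4 s hs).1 : _ ∈ (b i).B ∩ X.U).2

theorem keepbd (i : X.ι) : (b i).Keeps X.bd := by
  obtain ⟨h1, -, h3⟩ := h.ext i
  intro x hx s hs hU
  have h4 : x ∈ (Fr.nb i).half.B := h1 ▸ ⟨hx, X.bd_sub hU⟩
  rw [h3 x h4 s hs]
  exact Fr.nb_keep_bd i x h4.1 (s / 2) ⟨by linarith [hs.1], by linarith [hs.2]⟩ hU

theorem keepW {i j : X.ι} (hij : i ≠ j) : (b j).Keeps (b i).W := by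
  intro x hx s hs hW
  obtain ⟨h1, h2⟩ := h.comm j i hij.symm x hx s hs
  exact ⟨h1.2 hW.1, (h2 hW.1).1.trans hW.2⟩

theorem lev {i j : X.ι} (hij : i ≠ j) : Lev ((b i).W ∩ (b j).W) ((Fr.nb i).W ∩ X.bd) := by
  rw [inter_comm]
  refine (bas E3).lev (h.on j) (fun x hx => (h.on i).sub hx.1) (h.disc i) (keepW h hij) ?_
  rw [← W_bd h]
  exact fun x hx s hs h1 => ⟨keepW h hij x hx s hs h1.1, keepbd h j x hx s hs h1.2⟩

theorem only {i j k : X.ι} (hij : i ≠ j) {x : E3} (hi : x ∈ (b i).B) (hj : x ∈ (b j).B)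
    (hk : x ∈ (b k).B) : k = i ∨ k = j := by
  by_contra h1
  push Not at h1
  have a1 : X.fam i ≠ X.fam j := fun e => disjoint_left.1 (h.disj i j hij e) hi hj
  have a2 : X.fam k ≠ X.fam i := fun e => disjoint_left.1 (h.disj k i h1.1 e) hk hi
  have a3 : X.fam k ≠ X.fam j := fun e => disjoint_left.1 (h.disj k j h1.2 e) hk hj
  revert a1 a2 a3
  cases X.fam i <;> cases X.fam j <;> cases X.fam k <;> simp

theorem M_zero {i : X.ι} {x : E3} (hx : x ∈ (b i).W) : (b i).M (x, 0) = x := by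
  have := (h.on i).ok.Mid x hx.1
  rwa [hx.2] at this

theorem fin_tri : Finite (Tri b) := by
  have := X.finι
  refine Set.Finite.subset (s := ⋃ p : X.ι × X.ι, ⋃ (_ : p.1 ≠ p.2), (fun g => (p.1, p.2, g)) ''
    {g | IsCircle g ∧ g ⊆ (b p.1).W ∩ (b p.2).W}) (finite_iUnion fun p => finite_iUnion fun hp =>
      (lev_facts (lev h hp)).1.image _) fun t ht => ?_
  exact mem_iUnion₂.2 ⟨(t.1, t.2.1), ht.1, t.2.2, ht.2, rfl⟩

theorem z_σ (m : Tri b) : m.σ.z = m.z := by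
  have e : ∀ x ∈ (b m.1.1).B, x ∈ (b m.1.2.1).B → (b m.1.2.1).M ((b m.1.1).M (x, 0), 0) =
      (b m.1.1).M ((b m.1.2.1).M (x, 0), 0) := fun x h1 h2 =>
    ((h.comm _ _ m.2.1 x h1 0 zero_mem_I).2 h2).2 0 zero_mem_I
  ext x
  constructor
  · rintro ⟨⟨h1, h2⟩, h3⟩
    exact ⟨⟨h2, h1⟩, (e x h2 h1).symm ▸ h3⟩
  · rintro ⟨⟨h1, h2⟩, h3⟩
    exact ⟨⟨h2, h1⟩, (e x h1 h2) ▸ h3⟩

theorem g_U (m : Tri b) : Disjoint m.1.2.2 X.U := by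
  refine disjoint_left.2 fun x hx hU => ?_
  obtain ⟨a1, -, a3⟩ := (lev_facts (lev h m.2.1)).2.1 _ m.2.2.1 m.2.2.2
  have hW := m.2.2.2 hx
  obtain ⟨Z, b1, b2, b3, y, b4, b5⟩ := Fr.nb_att₂ _ _ m.2.1 x
    ⟨W_U h _ ▸ ⟨hW.1, hU⟩, W_U h _ ▸ ⟨hW.2, hU⟩⟩
  have b6 : ∀ i, (Fr.nb i).W ⊆ (b i).W := fun i => W_U h i ▸ inter_subset_left
  exact disjoint_left.1 a1 (a3 Z (fun v hv => ⟨b6 _ (b1 hv).1, b6 _ (b1 hv).2⟩) b2 ⟨x, b3, hx⟩ b4)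
    ⟨(b1 b4).1, b5⟩

theorem z_U (m : Tri b) : Disjoint m.z X.U := by
  refine disjoint_left.2 fun x hx hU => disjoint_left.1 (g_U h m) hx.2 ?_
  exact keepU h _ _ ((h.comm _ _ m.2.1 x hx.1.1 0 zero_mem_I).1.2 hx.1.2) 0 zero_mem_I
    (keepU h _ x hx.1.1 0 zero_mem_I hU)

theorem mem_z {m : Tri b} {x : E3} (h1 : x ∈ (b m.1.1).W) (h2 : x ∈ (b m.1.2.1).W) :
    x ∈ m.z ↔ x ∈ m.1.2.2 := by
  have e : (b m.1.2.1).M ((b m.1.1).M (x, 0), 0) = x := by rw [M_zero h h1, M_zero h h2]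
  exact ⟨fun h3 => e ▸ h3.2, fun h3 => ⟨⟨h1.1, h2.1⟩, e.symm ▸ h3⟩⟩

theorem zone (m : Tri b) : Zone m.1.2.2 m.z (b m.1.1).u (b m.1.2.1).u ∧
    ∀ x ∈ m.z, ∀ᶠ y in 𝓝[(b m.1.1).B ∩ (b m.1.2.1).B] x, y ∈ m.z := by
  obtain ⟨Φ, -, hΦ⟩ := (bas E3).zone (h.on _).ok (h.on _).ok (h.comm _ _ m.2.1)
    (h.comm _ _ m.2.1.symm)
  have hs : m.1.2.2 ×ˢ (I ×ˢ I) ⊆ ((b m.1.1).W ∩ (b m.1.2.1).W) ×ˢ (I ×ˢ I) :=
    prod_mono_left m.2.2.2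
  have e : Φ.toFun '' (m.1.2.2 ×ˢ (I ×ˢ I)) = m.z := by
    ext y
    constructor
    · rintro ⟨q, hq, rfl⟩
      refine ⟨Φ.mapsTo (hs hq), ?_⟩
      have h1 := Φ.left_inv (hs hq)
      rw [hΦ] at h1
      exact (congrArg Prod.fst h1).symm.subst (motive := fun v => v ∈ m.1.2.2) hq.1
    · intro hy
      exact ⟨Φ.invFun y, ⟨by rw [hΦ]; exact hy.2, (Φ.mapsTo_inv hy.1).2⟩, Φ.right_inv hy.1⟩
  refine ⟨⟨(Φ.restr (Sh.conicalSet_prod m.2.2.1.locCone.conicalSet conicalSet_sq) hs).cast rfl e,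
    fun y _ => congrArg Prod.snd (hΦ y)⟩, fun x hx => ?_⟩
  obtain ⟨-, a2, -⟩ := (lev_facts (lev h m.2.1)).2.1 _ m.2.2.1 m.2.2.2
  have hc := (continuous_fst.continuousAt.comp_continuousWithinAt (Φ.cont_inv x hx.1)).eventually
    (a2.isOpen_compl.mem_nhds (fun h1 => h1.2 (by
      show (Φ.invFun x).1 ∈ _
      rw [hΦ]; exact hx.2)))
  filter_upwards [hc, self_mem_nhdsWithin] with y h1 h2
  refine ⟨h2, ?_⟩
  by_contra h3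
  refine h1 ⟨(Φ.mapsTo_inv h2).1, ?_⟩
  show (Φ.invFun y).1 ∉ _
  rw [hΦ]; exact h3

theorem z_disj (m l : Tri b) (h1 : l ≠ m) (h2 : l ≠ m.σ) : Disjoint m.z l.z := by
  have key : ∀ m l : Tri b, l.1.1 = m.1.1 → l.1.2.1 = m.1.2.1 → ∀ x ∈ m.z, x ∈ l.z → l = m := by
    rintro ⟨⟨i, j, g⟩, a⟩ ⟨⟨i', j', g'⟩, a'⟩ (rfl : i' = i) (rfl : j' = j) x b1 b2
    obtain ⟨-, -, a3⟩ := (lev_facts (lev h a.1)).2.1 _ a.2.1 a.2.2
    have : g' = g := arcs.2.2.2.1 a'.2.1 a.2.1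
      (a3 g' a'.2.2 (A12.circle_isConnected a'.2.1).isPreconnected ⟨_, b2.2, b1.2⟩)
    subst this
    rfl
  refine disjoint_left.2 fun x hx hx' => ?_
  rcases only h m.2.1 hx.1.1 hx.1.2 hx'.1.1 with e | e <;>
    rcases only h m.2.1 hx.1.1 hx.1.2 hx'.1.2 with e' | e'
  · exact l.2.1 (e.trans e'.symm)
  · exact h1 (key m l e e' x hx hx')
  · exact h2 (key m.σ l e e' x ((z_σ h m).symm ▸ hx) hx')
  · exact l.2.1 (e.trans e'.symm)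

omit h in
theorem sign_zero {ε t : ℝ} (hε : ε = 1 ∨ ε = -1) : ε * t = 0 ↔ t = 0 := by
  rcases hε with rfl | rfl <;> simp

omit h in
theorem sign_abs {ε t : ℝ} (hε : ε = 1 ∨ ε = -1) : |ε * t| = |t| := by
  rcases hε with rfl | rfl <;> simp

end Sw1

open Sw1

theorem swap1_of (hT : Bd.TREE) (hL : Bd.LAMIN) : SWAP1 := by
  intro X c₀ Fr b h
  have := X.finι
  have := fin_tri h
  choose ε hε H₀ a1 a2 a3 using fun m : Tri b => (zone h m).1.thick m.2.2.1 (h.disc m.1.1)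
    fun y h1 h2 => ⟨⟨h1.1.1, h2⟩, fun h3 => disjoint_left.1 (z_U h m) h1 (X.bd_sub h3.2)⟩
  let S : Data E3 X.ι (Tri b) := ⟨fun i => (b i).W, fun i => (Fr.nb i).W ∩ X.bd, Tri.σ,
    fun m => m.1.1, fun m => m.1.2.2, Tri.z, H₀, fun m y => ε m.σ * (b m.1.1).u y⟩
  have two : ∀ (m : Tri b) {i j : X.ι} {y : E3}, i ≠ j → y ∈ (b i).W → y ∈ (b j).W → y ∈ m.z →
      y ∈ m.1.2.2 ∧ (b i).W ∩ (b j).W = (b m.1.1).W ∩ (b m.1.2.1).W := by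
    intro m i j y hij h1 h2 h3
    rcases only h m.2.1 h3.1.1 h3.1.2 h1.1 with rfl | rfl <;>
      rcases only h m.2.1 h3.1.1 h3.1.2 h2.1 with rfl | rfl
    · exact absurd rfl hij
    · exact ⟨(mem_z h h1 h2).1 h3, rfl⟩
    · exact ⟨(mem_z h h2 h1).1 h3, inter_comm _ _⟩
    · exact absurd rfl hij
  have hS : S.Ok :=
    { ball := h.disc
      σσ := fun _ => rfl
      wσ := fun m => m.2.1.symm
      zσ := z_σ h
      zd := z_disj h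
      circ := fun m => m.2.2.1
      zone := fun m => (zone h m).1.sign m.2.2.1.locCone.conicalSet (hε m.σ) (hε m)
      memW := fun m y hy => ⟨fun h1 => (sign_zero (hε _)).2 h1.2,
        fun h1 => ⟨hy.1.1, (sign_zero (hε _)).1 h1⟩⟩
      only := fun m y hy k hk => only h m.2.1 hy.1.1 hy.1.2 hk.1
      hball := fun m => by
        have e : pt (S.z m) (S.c m) (S.c (S.σ m)) 0 1 =
            {y ∈ m.z | (b m.1.1).u y = 0 ∧ ε m * (b m.1.2.1).u y = 1} := by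
          ext y
          exact and_congr_right fun _ => and_congr_left fun _ => sign_zero (hε _)
        rw [e]
        exact a1 m
      hsub := a2
      hz := fun m y h1 h2 => a3 m y h1 h2 (a2 m h1).1.2
      zbd := fun m k => (z_U h m).mono_right fun _ h1 => X.bd_sub h1.2
      line := fun i j hij x hx => by
        rcases (lev_facts (lev h hij)).2.2 x hx with ⟨g, h1, h2, h3⟩ | ⟨L, h1, h2, h3, h4⟩
        · exact Or.inl ⟨⟨(i, j, g), hij, h1, h2⟩, (mem_z h hx.1 hx.2).2 h3⟩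
        · refine Or.inr ⟨L, h1, h2.trans inter_subset_left, h3, h4,
            fun m => disjoint_left.2 fun y h5 h6 => ?_⟩
          obtain ⟨h7, h8⟩ := two m hij (h2 h5).1 (h2 h5).2 h6
          obtain ⟨v, h9, h10⟩ := h4
          exact disjoint_left.1 (g_U h m) (((lev_facts (lev h m.2.1)).2.1 _ m.2.2.1 m.2.2.2).2.2 L
            (h8 ▸ h2) h3 ⟨y, h5, h7⟩ h9) (X.bd_sub h10.2) }
  obtain ⟨D, d1, d2, d3, d4, d5⟩ := hS.main hT hL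
  have hsub : ∀ i, D i ⊆ X.Ω := fun i x hx => by
    rcases d2 i x hx with ⟨k, h1⟩ | ⟨m, h1⟩
    · exact (h.on k).sub h1.1
    · exact (h.on _).sub h1.1.1
  refine ⟨D, hsub, d1, fun i j hij x hx => ⟨(d3 i j hij x hx).1, ?_⟩, fun i x hx => ?_,
    fun i Z h1 h2 h3 h4 => d5 i Z h1 h2 ?_ fun m => disjoint_left.2 fun y h5 h6 => ?_⟩
  · rintro ⟨i', j', g, h1, h2, h3, h4⟩
    exact (d3 i j hij x hx).2 ⟨(i', j', g), h1, h2, h3⟩ ((mem_z h (h3 h4).1 (h3 h4).2).2 h4)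
  · rcases d4 i x hx with ⟨k, h1⟩ | ⟨m, h1, h2⟩
    · obtain ⟨O, h2, h3, h4⟩ := _root_.eventually_nhds_iff.1 h1
      refine ⟨O, h3, h4, Or.inl ⟨k, ?_⟩⟩
      ext y
      exact and_congr_left fun h5 => h2 y h5
    · have hx' := hsub i hx
      have c1 := ((h.on m.1.1).upl.1 x hx').const_mul (ε m.σ)
      have c2 := ((h.on m.1.2.1).upl.1 x hx').const_mul (ε m)
      have b1 : S.c m x ≤ 0 := h1.2.1
      have b2 : 0 ≤ S.c m.σ x := h1.2.2.1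
      have b3 : S.c m.σ x - S.c m x = 1 / 2 := h1.2.2.2
      have e1 : ∀ᶠ y in 𝓝[X.Ω] x, |S.c m y| < 1 :=
        c1.abs.eventually (gt_mem_nhds (abs_lt.2 ⟨by linarith, by linarith⟩ : |S.c m x| < 1))
      have e2 : ∀ᶠ y in 𝓝[X.Ω] x, |S.c m.σ y| < 1 :=
        c2.abs.eventually (gt_mem_nhds (abs_lt.2 ⟨by linarith, by linarith⟩ : |S.c m.σ x| < 1))
      have e3 : ∀ᶠ y in 𝓝[X.Ω] x, 0 < S.c m.σ y - S.c m y :=
        (c2.sub c1).eventually (lt_mem_nhds (by linarith : 0 < S.c m.σ x - S.c m x))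
      have e4 := eventually_nhdsWithin_iff.1 ((zone h m).2 x h1.1)
      have e5 : ∀ᶠ y in 𝓝 x, y ∉ X.U :=
        X.U_cpt.isClosed.isOpen_compl.mem_nhds (disjoint_left.1 (z_U h m) h1.1)
      obtain ⟨O, h3, h4, h5⟩ := _root_.eventually_nhds_iff.1
        ((eventually_nhdsWithin_iff.1 (e1.and (e2.and e3))).and (e4.and e5))
      have hB : ∀ k, ∀ y ∈ X.Ω, |(b k).u y| < 1 → y ∈ (b k).B := fun k y h6 h7 => by
        by_contra h8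
        rcases (h.on k).out y h6 h8 with h9 | h9 <;> rw [h9] at h7 <;> norm_num at h7
      have h6 : ∀ y ∈ O ∩ X.Ω, |(b m.1.1).u y| < 1 ∧ |(b m.1.2.1).u y| < 1 := fun y hy =>
        ⟨sign_abs (hε m.σ) ▸ ((h3 y hy.1).1 hy.2).1, sign_abs (hε m) ▸ ((h3 y hy.1).1 hy.2).2.1⟩
      have h7 : ∀ y ∈ O ∩ X.Ω, y ∈ D i ↔
          (-ε m.σ * (b m.1.1).u y, ε m * (b m.1.2.1).u y) ∈ corner := fun y hy => by
        rw [neg_mul]
        exact h2 y ((h3 y hy.1).2.1 ⟨hB _ y hy.2 (h6 y hy).1, hB _ y hy.2 (h6 y hy).2⟩)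
          (sub_pos.1 ((h3 y hy.1).1 hy.2).2.2)
      refine ⟨O, h4, h5, Or.inr ⟨m.1.1, m.1.2.1, -ε m.σ, ε m, m.2.1, ?_, hε m,
        disjoint_left.2 fun y hy => (h3 y hy).2.2, h6, ?_⟩⟩
      · rcases hε m.σ with e | e <;> rw [e] <;> simp
      · ext y
        exact ⟨fun hy => ⟨⟨hy.2, hsub i hy.1⟩, (h7 y ⟨hy.2, hsub i hy.1⟩).1 hy.1⟩,
          fun hy => ⟨(h7 y hy.1).2 hy.2, hy.1.1⟩⟩
  · obtain ⟨y, h5, h6⟩ := h3
    exact ⟨y, h5, (W_bd h i).subset ⟨h1 h5, h6⟩⟩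
  · have key : ∀ m : Tri b, i = m.1.1 → y ∉ m.z := by
      rintro m rfl h7
      refine h4 y h5 _ m.2.1.symm h7.1.2 ⟨_, _, _, m.2.1, m.2.2.1, m.2.2.2, ?_⟩
      have := h7.2
      rwa [M_zero h (h1 h5)] at this
    rcases only h m.2.1 h6.1.1 h6.1.2 (h1 h5).1 with e | e
    · exact key m e h6
    · exact key m.σ e ((z_σ h m).symm ▸ h6)

end P073.Wb
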