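import Vale.Agent.P073Y.Wb.WallsA

/-!
# The glued walls
-/

open Set Metric Topology Filter
open scoped NNReal

namespace P073.Wb

open P073.Bd (Band I cl Match Sgn Comm Ext)
open P073.Bd

namespace Wa

variable {X : Base} {c₀ : ℝ≥0} {Fr : Frame X c₀} {D : X.ι → Set E3} {T : Trace Fr D}
  {β : T.α → Band E3} {γ : T.κ → Band E3}

/-- the new wall -/
def nw (T : Trace Fr D) (γ : T.κ → Band E3) (i : X.ι) : Set E3 :=
  (⋃ k : {k // T.clab k = i}, (γ k).W) ∪ (Fr.nb i).W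

theorem nw_U (hS : State Fr D) (hF : Faces T β) (hC : Cells T β γ) {i : X.ι} {x : E3}
    (hx : x ∈ nw T γ i) (hU : x ∈ X.U) : x ∈ (Fr.nb i).W := by
  rcases hx with hx | hx
  · obtain ⟨⟨k, rfl⟩, hk⟩ := mem_iUnion.1 hx
    obtain ⟨h1, h2⟩ := cup_nb hS hF hC hk.1 hU
    exact Bas1.half_W (Fr.nb (T.clab k)) ▸ h2.mem_W hk h1
  · exact hx

theorem nw_bd (hS : State Fr D) (hF : Faces T β) (hC : Cells T β γ) (i : X.ι) :
    nw T γ i ∩ X.bd = (Fr.nb i).W ∩ X.bd :=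
  Subset.antisymm (fun _ hx => ⟨nw_U hS hF hC hx.1 (X.bd_sub hx.2), hx.2⟩)
    (inter_subset_inter_left _ subset_union_right)

theorem nw_sub (hC : Cells T β γ) (i : X.ι) : nw T γ i ⊆ X.Ω := by
  refine union_subset (iUnion_subset fun k x hx => ?_) fun x hx => ?_
  · exact cell_sub_Ω _ ((hC.on k).sub hx.1)
  · exact U_sub_Ω ((Fr.nb_on i).sub hx.1)

/-- the new wall is a disc -/
theorem nw_disc (hA : ARCISO2) (hR : RETILE2) (hS : State Fr D) (hF : Faces T β)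
    (hC : Cells T β γ) (i : X.ι) : ConBall 2 (nw T γ i) ((Fr.nb i).W ∩ X.bd) := by
  have := T.finα
  have := T.finκ
  have hV := Bas1.W_cpt (Fr.nb_on i).ok
  have hVU : (Fr.nb i).W ⊆ X.U := fun x hx => (Fr.nb_on i).sub hx.1
  obtain ⟨φ, h1, h2⟩ := hA (α := {a // T.lab a = i}) (fun a => T.A a) (fun a => (β a).W)
    (fun a => T.p a) (fun a => T.q a) hV.1 hV.2 (fun a => ⟨T.arc a, hF.arc a⟩)
    (fun a a' hne => by
      have h3 : a.1 ≠ a'.1 := fun e => hne (Subtype.ext e)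
      have h4 : T.lab a = T.lab a' := a.2.trans a'.2.symm
      refine ⟨fun x hx => ?_, fun x hx => ?_⟩
      · refine (T.ends a).le ⟨hx.1, face_inter (fun e => ?_) (T.sub a hx.1).2 (T.sub a' hx.2).2⟩
        exact disjoint_left.1 (T.disj a a' h3 e h4) hx.1 hx.2
      · exact W_bd hS hF hx.1 (face_inter (face_ne hF h3 h4 hx.1.1 hx.2.1)
          ((hF.ok a).2.1 hx.1.1) ((hF.ok a').2.1 hx.2.1)))
    (fun a => by
      by_cases hc : X.K.cell (T.face a) ⊆ X.U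
      · exact Or.inl ⟨(hF.nat a hc).2, fun x hx =>
          (hS.frozen i).le ⟨a.2 ▸ (T.sub a hx).1, hc (T.sub a hx).2⟩⟩
      · exact Or.inr ⟨fun x hx => (T.ends a).le
          ⟨hx.1, mem_bd_of_U hc (T.sub a hx.1).2 (hVU hx.2)⟩, fun x hx =>
          W_bd hS hF hx.1 (mem_bd_of_U hc ((hF.ok a).2.1 hx.1.1) (hVU hx.2))⟩)
  have e1 : ∀ k : {k // T.clab k = i},
      φ.toFun '' (⋃ a ∈ T.s k, T.A a) = ⋃ a ∈ T.s k, (β a).W := fun k => by
    rw [image_iUnion₂]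
    exact iUnion₂_congr fun a ha => h1 ⟨a, (T.mem_s k a ha).1.trans k.2⟩
  have s1 : ∀ k : {k // T.clab k = i}, (⋃ a ∈ T.s k, T.A a) ⊆
      (⋃ a : {a // T.lab a = i}, T.A a) ∪ (Fr.nb i).W := fun k =>
    iUnion₂_subset fun a ha x hx => Or.inl (mem_iUnion.2 ⟨⟨a, (T.mem_s k a ha).1.trans k.2⟩, hx⟩)
  have s2 : ∀ k : {k // T.clab k = i}, (⋃ a ∈ T.s k, (β a).W) ⊆
      (⋃ a : {a // T.lab a = i}, (β a).W) ∪ (Fr.nb i).W := fun k =>
    iUnion₂_subset fun a ha x hx => Or.inl (mem_iUnion.2 ⟨⟨a, (T.mem_s k a ha).1.trans k.2⟩, hx⟩)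
  have h3 := hR (κ := {k // T.clab k = i}) φ (fun k => T.Δ k) (fun k => ⋃ a ∈ T.s k, T.A a)
    (fun k => (γ k).W) (hS.disc i) (inter_subset_left.trans subset_union_right)
    ((isCompact_iUnion fun a => (T.arc _).isCompact).union hV.1)
    ((LocCone.iUnion_finite fun a => (T.arc _).locCone).union hV.2) ?_ (fun k => ?_)
    fun k l hne => ?_
  · rw [(h2.mono inter_subset_left).image_eq, image_id] at h3
    refine Eq.subst (motive := fun S => ConBall 2 S ((Fr.nb i).W ∩ X.bd)) ?_ h3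
    refine Subset.antisymm (union_subset subset_union_left
      (union_subset (iUnion_subset fun a x hx => ?_) subset_union_right))
      (union_subset_union_right _ subset_union_right)
    obtain ⟨c, h4, h5⟩ := exists_top (T.face a)
    obtain ⟨k, h6, -, h7, -⟩ := half_sub_cup hC h4 h5
    exact Or.inl (mem_iUnion.2 ⟨⟨k, h6.trans a.2⟩, (hC.disc k).1 (mem_biUnion h7 hx)⟩)
  · rw [← T.tile_union i, iUnion_subtype]
    refine Subset.antisymm (union_subset subset_union_left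
      (union_subset (iUnion_subset fun a x hx => ?_) subset_union_right))
      (union_subset_union_right _ subset_union_right)
    rw [T.tile_union i]
    exact a.2 ▸ (T.sub a hx).1
  · refine ⟨(T.tile k).1, Subset.antisymm ?_ (subset_inter (T.tile k).1.1 (s1 k)),
      e1 k ▸ hC.disc k, ?_⟩
    · rintro x ⟨hx, h | h⟩
      · obtain ⟨a, ha⟩ := mem_iUnion.1 h
        exact (T.tile k).2.2 a (a.2.trans k.2.symm) ⟨hx, ha⟩
      · exact (T.tile k).2.1 ⟨hx, hVU h⟩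
    · rw [e1 k]
      rintro x ⟨hx, h | h⟩
      · obtain ⟨a, ha⟩ := mem_iUnion.1 h
        refine cup_W_bd hC hx ((X.K.cell_inter_skel (k := 2) (T.dim_cel k)).le
          ⟨(hC.on k).sub hx.1, X.K.cell_subset_skel (T.dim_face a).le ((hF.ok a).2.1 ha.1)⟩)
      · exact cup_W_bd hC hx (cup_U hC hx.1 (hVU h))
  · have h3 : k.1 ≠ l.1 := fun e => hne (Subtype.ext e)
    have h4 : T.clab k = T.clab l := k.2.trans l.2.symm
    exact ⟨(T.tile_inter k l h3 h4).trans (s1 k), fun x hx =>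
      s2 k (cup_W_bd hC hx.1 (cel_ne hC h3 h4 hx.1.1 hx.2.1))⟩

/-- the two sides of a wall with the given trace on the boundary -/
theorem sides {W : Set E3} {i : X.ι} (hW : W ⊆ X.Ω) (hd : ConBall 2 W ((Fr.nb i).W ∩ X.bd))
    (hb : W ∩ X.bd = (Fr.nb i).W ∩ X.bd) : ∃ P N, ConBall 3 P (W ∪ P ∩ X.bd) ∧
      ConBall 3 N (W ∪ N ∩ X.bd) ∧ P ∪ N = X.Ω ∧ P ∩ N = W ∧
      P ∩ X.bd = {x ∈ X.bd | 0 ≤ (Fr.nb i).u x} ∧ N ∩ X.bd = {x ∈ X.bd | (Fr.nb i).u x ≤ 0} := by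
  obtain ⟨C₁, C₂, b1, b2, d1, d2, hu, hi⟩ := Cut.cut2 X.ball hW (hb ▸ hd)
  rw [hb] at d1 d2
  obtain ⟨p1, p2⟩ := Fr.nb_side i
  obtain ⟨Δ₁, Δ₂, -, -, -, -, h⟩ := cos_thm.1 X.ball.conSphere (mod_thm.circle hd)
    inter_subset_right
  have n1 : C₁ ∩ X.bd ≠ C₂ ∩ X.bd := fun e => by
    obtain ⟨x, hx, hx'⟩ := d1.diff_nonempty
    exact hx' (hb.le ⟨hi.le ⟨hx.1, (e.le hx).1⟩, hx.2⟩)
  have n2 : {x ∈ X.bd | 0 ≤ (Fr.nb i).u x} ≠ {x ∈ X.bd | (Fr.nb i).u x ≤ 0} := fun e => by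
    obtain ⟨x, hx, hx'⟩ := p1.diff_nonempty
    exact hx' ⟨(Bas1.on_W (Fr.nb_on i)).ge ⟨X.bd_sub hx.1, le_antisymm (e.le hx).2 hx.2⟩, hx.1⟩
  have k1 := h _ inter_subset_right d1
  have k2 := h _ inter_subset_right d2
  have k3 := h _ (sep_subset _ _) p1
  have k4 := h _ (sep_subset _ _) p2
  by_cases e : C₁ ∩ X.bd = {x ∈ X.bd | 0 ≤ (Fr.nb i).u x}
  · refine ⟨C₁, C₂, b1, b2, hu, hi, e, ?_⟩
    rcases k1 with k1 | k1 <;> rcases k2 with k2 | k2 <;> rcases k4 with k4 | k4 <;>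
      first
      | exact k2.trans k4.symm
      | exact (n1 (k1.trans k2.symm)).elim
      | exact (n2 (e.symm.trans (k1.trans k4.symm))).elim
  · refine ⟨C₂, C₁, b2, b1, union_comm C₁ C₂ ▸ hu, inter_comm C₁ C₂ ▸ hi, ?_⟩
    rcases k1 with k1 | k1 <;> rcases k2 with k2 | k2 <;> rcases k3 with k3 | k3 <;>
      rcases k4 with k4 | k4 <;>
      first
      | exact ⟨k2.trans k3.symm, k1.trans k4.symm⟩
      | exact (n1 (k1.trans k2.symm)).elim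
      | exact (n2 (k3.trans k4.symm)).elim
      | exact (e (k1.trans k3.symm)).elim

/-- a part of the band on the frozen part lies on one side -/
theorem side_of {i : X.ι} {P N : Set E3} (hP : IsClosed P) (hN : IsClosed N) (hu : X.Ω ⊆ P ∪ N)
    (hz : ∀ x ∈ X.U, x ∈ P → x ∈ N → (Fr.nb i).u x = 0) {J : Set ℝ} (hJ : J ⊆ I)
    (hc : IsPreconnected J) (h0 : (0:ℝ) ∉ J) (hb : ∀ x ∈ X.bd, (Fr.nb i).u x ∈ J → x ∉ N)
    {x : E3} (hx : x ∈ (Fr.nb i).B) (hxJ : (Fr.nb i).u x ∈ J) : x ∈ P := by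
  have ho := (Fr.nb_on i).ok
  obtain ⟨Z, h1, h2, h3, w, h4, h5⟩ := Fr.nb_att i _ (Bas2.M_mem_W ho hx)
  have h6 : ∀ y ∈ (Fr.nb i).M '' (Z ×ˢ J), y ∈ X.U ∧ (Fr.nb i).u y ∈ J := by
    rintro _ ⟨⟨y, s⟩, hy, rfl⟩
    obtain ⟨h7, h8⟩ := ho.Mmem y (h1 hy.1).1 s (hJ hy.2)
    exact ⟨(Fr.nb_on i).sub h7, h8.symm ▸ hy.2⟩
  rcases Glue.side ((h2.prod hc).image _ (ho.Mpl.1.mono
    (prod_mono (fun y hy => (h1 hy).1) hJ))) hP hN (fun y hy => hu (U_sub_Ω (h6 y hy).1))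
    (fun y hy a c => h0 (hz y (h6 y hy).1 a c ▸ (h6 y hy).2)) with h | h
  · refine h ⟨((Fr.nb i).M (x, 0), (Fr.nb i).u x), ⟨h3, hxJ⟩, ?_⟩
    rw [ho.MM x hx 0 Bas2.zero_mem_I _ (ho.urange x hx), ho.Mid x hx]
  · have h7 : (Fr.nb i).M (w, (Fr.nb i).u x) ∈ (Fr.nb i).M '' (Z ×ˢ J) := ⟨_, ⟨h4, hxJ⟩, rfl⟩
    exact (hb _ (Fr.nb_keep_bd i w (h1 h4).1 _ (hJ hxJ) h5) (h6 _ h7).2 (h h7)).elim

theorem cl_pos {t : ℝ} : (0 < cl t ↔ 0 < t) ∧ (cl t < 0 ↔ t < 0) := by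
  unfold cl
  simp only [lt_max_iff, lt_min_iff, max_lt_iff, min_lt_iff]
  norm_num

theorem one_wall (hG : GLUE2) (hA : ARCISO2) (hR : RETILE2) (hS : State Fr D) (hF : Faces T β)
    (hC : Cells T β γ) (i : X.ι) : ∃ g : Band E3, g.On X.Ω ∧
      g.B = (⋃ k, ⋃ (_ : T.clab k = i), (γ k).B) ∪ (Fr.nb i).half.B ∧
      (∀ k, T.clab k = i → Sgn (γ k) g) ∧ ConBall 2 g.W ((Fr.nb i).W ∩ X.bd) ∧
      Ext g (Fr.nb i).half X.U := by
  have := X.fin
  have := T.finκ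
  have hd := nw_disc hA hR hS hF hC i
  have hon := Fr.nb_on i
  obtain ⟨P, N, bP, bN, hu, hi, eP, eN⟩ := sides (nw_sub hC i) hd (nw_bd hS hF hC i)
  have hz : ∀ x ∈ X.U, x ∈ P → x ∈ N → (Fr.nb i).u x = 0 := fun x hx a c =>
    (nw_U hS hF hC (hi.le ⟨a, c⟩) hx).2
  have sP : ∀ x ∈ (Fr.nb i).B, 0 < (Fr.nb i).u x → x ∈ P := fun x hx h =>
    side_of bP.isClosed bN.isClosed hu.ge hz (J := Ioc 0 1)
      (fun s hs => ⟨by linarith [hs.1], hs.2⟩) isPreconnected_Ioc (by simp)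
      (fun y hy h1 h2 => absurd (eN.le ⟨h2, hy⟩).2 (not_le.2 h1.1)) hx ⟨h, (hon.ok.urange x hx).2⟩
  have sN : ∀ x ∈ (Fr.nb i).B, (Fr.nb i).u x < 0 → x ∈ N := fun x hx h =>
    side_of bN.isClosed bP.isClosed (union_comm P N ▸ hu.ge) (fun y hy a c => hz y hy c a)
      (J := Ico (-1) 0) (fun s hs => ⟨hs.1, by linarith [hs.2]⟩) isPreconnected_Ico (by simp)
      (fun y hy h1 h2 => absurd (eP.le ⟨h2, hy⟩).2 (not_le.2 h1.2)) hx ⟨(hon.ok.urange x hx).1, h⟩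
  have eΩ : (⋃ a : Option {c // X.K.dim c = 3}, a.elim X.U fun c => X.K.cell c) = X.Ω := by
    rw [iUnion_option]
    refine Subset.antisymm (union_subset U_sub_Ω (iUnion_subset fun c => cell_sub_Ω _)) ?_
    rw [← X.cover]
    refine union_subset (fun x hx => ?_) subset_union_left
    obtain ⟨c, h1, h2⟩ := X.top x hx
    exact Or.inr (mem_iUnion.2 ⟨⟨c, h1⟩, h2⟩)
  obtain ⟨g, g1, g2, g3, g4⟩ := hG (π := Option {c // X.K.dim c = 3})
    (κ := Option {k // T.clab k = i}) (fun a => a.elim X.U fun c => X.K.cell c)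
    (Option.map fun k => ⟨T.cel k, T.dim_cel k⟩) (fun k => k.elim (Fr.nb i).half fun k => γ k)
    (P := P) (N := N)
    (by
      rintro (_ | c)
      · exact ⟨X.U_cpt, X.U_loc⟩
      · exact ⟨X.K.isCompact_cell c, X.K.locCone_cell c⟩)
    (by
      rintro (_ | k)
      · exact ⟨Bas1.half_ok hon.ok, Bas1.on_in (Bas1.half_on hon)⟩
      · exact ⟨(hC.on k).ok, Bas1.on_in (hC.on k)⟩)
    (by
      rintro (_ | ⟨k, hk⟩) (_ | ⟨l, hl⟩)
      · exact Bas1.match_refl _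
      · subst hl
        exact fun x hx hx' => (cup_nb hS hF hC hx' (hon.sub hx.1)).2.symm
      · subst hk
        exact fun x hx hx' => (cup_nb hS hF hC hx (hon.sub hx'.1)).2
      · exact match_cup hS hF hC (hk.trans hl.symm))
    (by
      rintro (_ | ⟨k, hk⟩) (_ | ⟨c, hc⟩) x hx hx'
      · exact ⟨none, rfl, hx⟩
      · obtain ⟨l, h1, rfl, h2⟩ := nb_spread hS hF hC hx hc hx'
        exact ⟨some ⟨l, h1⟩, rfl, h2⟩
      · subst hk
        exact ⟨none, rfl, (cup_nb hS hF hC hx hx').1⟩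
      · obtain ⟨l, h1, rfl, h2⟩ := cup_spread hS hF hC hx hc hx'
        exact ⟨some ⟨l, h1.trans hk⟩, rfl, h2⟩)
    bP.isCompact bP.locCone bN.isCompact bN.locCone (hu.trans eΩ.symm)
    (by
      rw [hi, iUnion_option, union_comm]
      exact congrArg (_ ∪ ·) (Bas1.half_W _).symm)
    (by
      rintro (_ | k)
      · exact Or.inr fun x hx => ⟨fun h => sP x hx.1 (by linarith [cl_pos.1.1 h]),
          fun h => sN x hx.1 (by linarith [cl_pos.2.1 h])⟩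
      · obtain ⟨x, hx, hx'⟩ := (hC.disc k).diff_nonempty
        have h1 : x ∈ P ∩ N := hi.ge (Or.inl (mem_iUnion.2 ⟨k, hx⟩))
        refine Or.inl ⟨(hC.disc k).isConnected.isPreconnected, x, hx,
          mem_nhdsWithin_of_mem_nhds (mem_of_superset ((ocell_open (T.dim_cel k)).mem_nhds
            ⟨(hC.on k).sub hx.1, fun h => hx' (cup_W_bd hC hx h)⟩) (X.K.ocell_subset _)),
          closure_mono ?_ (bP.subset_closure_int h1.1),
          closure_mono ?_ (bN.subset_closure_int h1.2)⟩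
        · exact fun y hy => ⟨hy.1, fun h => hy.2 (Or.inl (hi.le ⟨hy.1, h⟩))⟩
        · exact fun y hy => ⟨hy.1, fun h => hy.2 (Or.inl (hi.le ⟨h, hy.1⟩))⟩)
  rw [eΩ] at g1 g4
  rw [iUnion_option, union_comm, iUnion_subtype] at g2
  have hh := Bas1.half_on hon
  have eB : g.B ∩ X.U = (Fr.nb i).half.B := by
    rw [g2]
    refine Subset.antisymm ?_ (subset_inter subset_union_right hh.sub)
    rintro x ⟨hx | hx, hU⟩
    · obtain ⟨k, rfl, hk⟩ := mem_iUnion₂.1 hx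
      exact (cup_nb hS hF hC hk hU).1
    · exact hx
  obtain ⟨ε, hε, g5⟩ := g3 none
  have e1 : ∀ x ∈ (Fr.nb i).half.B, ε = 1 := fun x hx => by
    obtain ⟨h1, h2⟩ := hh.ok.Mmem x hx 1 ⟨by norm_num, le_rfl⟩
    have h3 := (g4 _ (U_sub_Ω (hh.sub h1))).1.2 (sP _ h1.1 (by
      linarith [cl_pos.1.1 (h2.symm ▸ one_pos : 0 < (Fr.nb i).half.u _)]))
    have h4 : g.u _ = ε * (Fr.nb i).half.u _ := (g5 _ h1).1
    rw [h4, h2, mul_one] at h3
    exact hε.resolve_right fun h => by linarith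
  have e2 : ∀ x ∈ (Fr.nb i).half.B, g.u x = (Fr.nb i).half.u x := fun x hx => by
    have h4 : g.u x = ε * (Fr.nb i).half.u x := (g5 _ hx).1
    rw [h4, e1 x hx, one_mul]
  have e3 : ∀ x ∈ X.U, |g.u x| = |(Fr.nb i).half.u x| ∧ |g.u x - (Fr.nb i).half.u x| ≠ 1 := by
    intro x hx
    by_cases h : x ∈ (Fr.nb i).half.B
    · rw [e2 x h, sub_self]
      exact ⟨rfl, by norm_num⟩
    · rcases g1.out x (U_sub_Ω hx) (fun h' => h (eB.le ⟨h', hx⟩)) with h1 | h1 <;>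
        rcases hh.out x hx h with h2 | h2 <;> rw [h1, h2] <;> norm_num
  refine ⟨g, g1, g2, fun k hk => g3 (some ⟨k, hk⟩), ?_, eB, fun x hx => ?_, fun x hx s hs => ?_⟩
  · have : g.W = nw T γ i := by
      rw [Bas1.on_W g1, ← hi]
      ext x
      exact ⟨fun h => ⟨(g4 x h.1).1.1 h.2.ge, (g4 x h.1).2.1 h.2.le⟩, fun h =>
        have h1 : x ∈ X.Ω := hu.le (Or.inl h.1)
        ⟨h1, le_antisymm ((g4 x h1).2.2 h.2) ((g4 x h1).1.2 h.1)⟩⟩
    exact this ▸ hd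
  · obtain ⟨w, hw, -⟩ := (Fr.nb_side i).1.nonempty
    have hwU := X.bd_sub hw
    have h1 : g.u w = (Fr.nb i).half.u w := by
      refine Glue.eq_of_abs (e3 w hwU).1 ((g4 w (U_sub_Ω hwU)).1.trans ?_)
      rw [← not_lt]
      exact ⟨fun h h' => absurd (eP.le ⟨h, hw⟩).2 (not_le.2 (by linarith [cl_pos.2.1 h'])),
        fun h => (eP.ge ⟨hw, not_lt.1 fun h' => h (cl_pos.2.2 (by linarith))⟩).1⟩
    by_contra hne
    have h2 : 1 ≤ |g.u x - (Fr.nb i).half.u x| := by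
      have h := fun h => hne (e2 x h)
      rcases g1.out x (U_sub_Ω hx) (fun h' => h (eB.le ⟨h', hx⟩)) with h1 | h1 <;>
        rcases hh.out x hx h with h2 | h2 <;> rw [h1, h2] at hne ⊢ <;>
        first | exact (hne rfl).elim | norm_num
    obtain ⟨y, hy, h3⟩ := X.U_pre.intermediate_value hwU hx
      (((g1.upl.1.mono U_sub_Ω).sub hh.upl.1).abs) (show (1:ℝ) ∈ Icc _ _ from
        ⟨by simp [h1], h2⟩)
    exact (e3 y hy).2 h3
  · have h4 : g.M (x, ε * s) = (Fr.nb i).half.M (x, s) := (g5 _ hx).2 s hs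
    rwa [e1 x hx, one_mul] at h4

end Wa

theorem walls_of (hG : GLUE2) (hA : ARCISO2) (hR : RETILE2) : WALLS := by
  intro X c₀ Fr D hS T β γ hF hC
  choose b h1 h2 h3 h4 h5 using Wa.one_wall hG hA hR hS hF hC
  exact ⟨b, h1, h2, fun k => h3 _ k rfl, h4, h5⟩

end P073.Wb
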