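import Vale.Agent.P073Y.Bd.All
import Vale.Agent.P073Y.Bd.Retile
import Vale.Agent.P073Y.Bd.Tree
import Vale.Agent.P073Y.Bd.Cls1
import Vale.Agent.P073Y.Bd.LaminB
import Vale.Agent.P073Y.Wb.Main
import Vale.Agent.P073Y.Wb.Glue2
import Vale.Agent.P073Y.Wb.Tile2
import Vale.Agent.P073Y.Wb.Retile2
import Vale.Agent.P073Y.Wb.Even
import Vale.Agent.P073Y.Wb.Trace
import Vale.Agent.P073Y.Wb.Faces
import Vale.Agent.P073Y.Wb.Cells
import Vale.Agent.P073Y.Wb.Walls
import Vale.Agent.P073Y.Wb.Model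
import Vale.Agent.P073Y.Wb.Normle
import Vale.Agent.P073Y.Wb.Swap1
import Vale.Agent.P073Y.Wb.Swap2
import Vale.Agent.P073Y.Wb.Swap3
import Vale.Agent.P073Y.Wb.Init1
import Vale.Agent.P073Y.Wb.Init2
import Vale.Agent.P073Y.Wb.Drift

/-!
# The two family engine: the statements without hypotheses
-/

open scoped NNReal

namespace P073.Wb

theorem trace : TRACE := trace_of tile2

theorem walls : WALLS := walls_of glue2 arciso2 retile2

theorem swap1 : SWAP1 := swap1_of Bd.tree Bd.laminB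

theorem swap2 : SWAP2 := swap2_of Bd.cls1

theorem engine : ENGINE := engine_of swap1 swap2 swap3

theorem init1 : INIT1 := init1_of even

theorem locatt : LOCATT := locatt_of trace

theorem wbox : ∃ c₀ : ℝ≥0, ∀ c, c₀ ≤ c → WBOX c := by
  obtain ⟨c₀, h⟩ := Bd.models
  exact ⟨c₀, fun c hc => wbox_of trace (faces_of (h c hc).1) (cells_of (h c hc).2 Bd.arciso) walls
    model_thm normle engine arc1 mgen init2 locatt drift Bd.flat2⟩

end P073.Wb
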