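import Vale.Agent.P073Y.Bd.Sk

/-!
# The two family engine with a frozen part: definitions

The ball `Ω` is the union of a finite complex and of a frozen polyhedron `U` which contains the
boundary sphere.  On `U` the walls and their bands are given and never change.
-/

open Set Metric Topology Filter
open scoped NNReal

namespace P073.Wb

open P073.Bd (Band I cl Match Sgn Comm Ext PwLip Chart Lev corner Gen1)

/-- the ball, the complex with charts and constants, the frozen part, the index set of walls -/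
structure Base where
  /-- the ball -/
  Ω : Set E3
  /-- the boundary sphere -/
  bd : Set E3
  ball : ConBall 3 Ω bd
  /-- the complex -/
  K : RCx E3
  fin : Finite K.ι
  /-- the frozen part -/
  U : Set E3
  U_cpt : IsCompact U
  U_loc : LocCone U
  U_pre : IsPreconnected U
  bd_sub : bd ⊆ U
  cover : K.carrier ∪ U = Ω
  sub : K.Sub (K.carrier ∩ U)
  thin : ∀ c, K.dim c = 3 → ¬ K.cell c ⊆ U
  dim_le : ∀ c, K.dim c ≤ 3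
  top : ∀ x ∈ K.carrier, ∃ c, K.dim c = 3 ∧ x ∈ K.cell c
  /-- the walls -/
  ι : Type
  finι : Finite ι
  /-- the family of a wall -/
  fam : ι → Bool
  /-- chart constant -/
  M₁ : K.ι → ℝ≥0
  /-- chart constant of the inverse -/
  M₂ : K.ι → ℝ≥0
  chart : ∀ c, 2 ≤ K.dim c → Chart (K.dim c) (K.cell c) (K.bd c) (M₁ c) (M₂ c)
  /-- Lipschitz constant on a cell -/
  L : K.ι → ℝ≥0
  /-- Lipschitz constant on its boundary -/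
  L₀ : K.ι → ℝ≥0
  L_le : ∀ c j, K.cell j ⊆ K.bd c → K.dim j + 1 = K.dim c → L j ≤ L₀ c

/-- the admissible points on the wires with their zones; the bands on the frozen part -/
structure Frame (X : Base) (c₀ : ℝ≥0) where
  /-- the admissible points -/
  P : Set E3
  /-- their zones -/
  z : E3 → Band E3
  /-- the bands on the frozen part -/
  nb : X.ι → Band E3
  Pfin : P.Finite
  wire : ∀ p ∈ P, ∃ e, X.K.dim e = 1 ∧ (z p).Ok ∧ (z p).In (X.K.cell e) ∧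
    (z p).B ⊆ X.K.ocell e ∧ (z p).W = {p} ∧ LipschitzOnWith (X.L e) (z p).u (z p).B
  zdisj : ∀ p ∈ P, ∀ q ∈ P, p ≠ q → Disjoint (z p).B (z q).B
  nb_on : ∀ i, (nb i).On X.U
  nb_keep : ∀ i c, (nb i).Keeps (X.K.cell c)
  nb_keep_bd : ∀ i, (nb i).Keeps X.bd
  nb_comm : ∀ i j, i ≠ j → Comm (nb i) (nb j)
  nb_disj : ∀ i j, i ≠ j → X.fam i = X.fam j → Disjoint (nb i).B (nb j).B
  nb_side : ∀ i, ConBall 2 {x ∈ X.bd | 0 ≤ (nb i).u x} ((nb i).W ∩ X.bd) ∧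
    ConBall 2 {x ∈ X.bd | (nb i).u x ≤ 0} ((nb i).W ∩ X.bd)
  nb_wire : ∀ i, ∀ x ∈ (nb i).B ∩ X.K.skel 1, ∃ p ∈ P ∩ (nb i).W, x ∈ (z p).half.B
  nb_match : ∀ i, ∀ p ∈ P ∩ (nb i).W, (z p).half.B ⊆ (nb i).B ∧ Match (z p).half (nb i)
  nb_att : ∀ i, ∀ x ∈ (nb i).W,
    ∃ Z, Z ⊆ (nb i).W ∧ IsPreconnected Z ∧ x ∈ Z ∧ (Z ∩ X.bd).Nonempty
  nb_att₂ : ∀ i j, i ≠ j → ∀ x ∈ (nb i).W ∩ (nb j).W,
    ∃ Z, Z ⊆ (nb i).W ∩ (nb j).W ∧ IsPreconnected Z ∧ x ∈ Z ∧ (Z ∩ X.bd).Nonempty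
  nb_arc : ∀ i φ, X.K.dim φ = 2 → ∀ x ∈ (nb i).W ∩ X.K.ocell φ,
    ∃ Z, Z ⊆ (nb i).W ∩ X.K.cell φ ∧ IsPreconnected Z ∧ x ∈ Z ∧ (Z ∩ X.K.bd φ).Nonempty
  nb_cross : ∀ i j, X.fam i ≠ X.fam j → ∃ p q, p ≠ q ∧ (nb i).W ∩ (nb j).W ∩ X.bd = {p, q}
  nb_lip : ∀ i φ, X.K.dim φ = 2 → X.K.cell φ ⊆ X.U →
    LipschitzOnWith (X.L φ) (nb i).u ((nb i).B ∩ X.K.cell φ)
  L_ge : ∀ c, 2 ≤ X.K.dim c → ¬ X.K.cell c ⊆ X.U →
    c₀ * X.M₁ c * (X.M₂ c * X.L₀ c + ((P ∩ X.K.cell c).ncard : ℕ)) ≤ X.L c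

variable {X : Base} {c₀ : ℝ≥0}

/-- walls in general position -/
structure State (Fr : Frame X c₀) (D : X.ι → Set E3) : Prop where
  sub : ∀ i, D i ⊆ X.Ω
  disc : ∀ i, ConBall 2 (D i) ((Fr.nb i).W ∩ X.bd)
  frozen : ∀ i, D i ∩ X.U = (Fr.nb i).W
  disj : ∀ i j, i ≠ j → X.fam i = X.fam j → Disjoint (D i) (D j)
  wire : ∀ i, D i ∩ X.K.skel 1 ⊆ Fr.P
  wire_disj : ∀ i j, i ≠ j → Disjoint (D i ∩ D j) (X.K.skel 1)
  lev : ∀ i φ, X.K.dim φ = 2 → Lev (D i ∩ X.K.cell φ) (X.K.bd φ)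
  two : ∀ i c, X.K.dim c = 3 → D i ∩ X.K.cell c ⊆ closure (D i ∩ X.K.ocell c)
  fin : ∀ i j, i ≠ j → (D i ∩ D j ∩ X.K.skel 2).Finite

/-- the crossing points in the face `φ` -/
def cross (X : Base) (D : X.ι → Set E3) (φ : X.K.ι) : Set E3 :=
  {x ∈ X.K.cell φ | ∃ i j, i ≠ j ∧ x ∈ D i ∧ x ∈ D j}

/-- `p` is joined to the frozen part inside the wall `i` and inside the cells of `𝓕` -/
def Att (X : Base) (D : X.ι → Set E3) (𝓕 : Set X.K.ι) (i : X.ι) (p : E3) : Prop :=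
  ∃ Z, Z ⊆ D i ∩ ⋃ φ ∈ 𝓕, X.K.cell φ ∧ IsPreconnected Z ∧ p ∈ Z ∧ (Z ∩ X.U).Nonempty

/-- all faces -/
def Base.faces (X : Base) : Set X.K.ι := {φ | X.K.dim φ = 2}

/-- `D'` is simpler than `D` -/
structure Le (X : Base) (D' D : X.ι → Set E3) : Prop where
  cnt : ∀ φ, X.K.dim φ = 2 → ∀ i j, i ≠ j →
    (D' i ∩ D' j ∩ X.K.cell φ).encard ≤ (D i ∩ D j ∩ X.K.cell φ).encard
  pts : ∀ i, ∀ p ∈ D' i ∩ X.K.skel 1, ∃ j, p ∈ D j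
  pers : ∀ 𝓕 : Set X.K.ι, (∀ φ ∈ 𝓕, X.K.dim φ = 2 ∧ cross X D φ = ∅) →
    ∀ i, ∀ p ∈ X.K.skel 1, Att X D 𝓕 i p → Att X D' 𝓕 i p

/-- walls with wide bands -/
structure Model (Fr : Frame X c₀) (b : X.ι → Band E3) : Prop where
  on : ∀ i, (b i).On X.Ω
  keep : ∀ i c, (b i).Keeps (X.K.cell c)
  disj : ∀ i j, i ≠ j → X.fam i = X.fam j → Disjoint (b i).B (b j).B
  comm : ∀ i j, i ≠ j → Comm (b i) (b j)
  ext : ∀ i, Ext (b i) (Fr.nb i).half X.U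
  disc : ∀ i, ConBall 2 (b i).W ((Fr.nb i).W ∩ X.bd)
  wire : ∀ i, (b i).W ∩ X.K.skel 1 ⊆ Fr.P
  wire_disj : ∀ i j, i ≠ j → Disjoint ((b i).W ∩ (b j).W) (X.K.skel 1)
  fin : ∀ i j, i ≠ j → ((b i).W ∩ (b j).W ∩ X.K.skel 2).Finite
  reach : ∀ i j, i ≠ j → ∀ x ∈ (b i).W ∩ (b j).W, ∃ Z, Z ⊆ (b i).W ∩ (b j).W ∧
    IsPreconnected Z ∧ x ∈ Z ∧ (Z ∩ (X.K.skel 2 ∪ X.U)).Nonempty
  touch : ∀ i c, ((b i).W ∩ X.K.cell c).Nonempty →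
    ((b i).W ∩ X.K.cell c ∩ X.K.skel 1).Nonempty
  lip : ∀ i c, PwLip (4 * X.L c) (b i).u (X.K.cell c)

/-- the part of the trace on the faces which is joined to the frozen part, its circles on the
boundaries of the cells, and the tiling of the walls -/
structure Trace (Fr : Frame X c₀) (D : X.ι → Set E3) where
  /-- arcs -/
  α : Type
  finα : Finite α
  /-- the wall of an arc -/
  lab : α → X.ι
  /-- the face of an arc -/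
  face : α → X.K.ι
  /-- the arc -/
  A : α → Set E3
  /-- first end -/
  p : α → E3
  /-- second end -/
  q : α → E3
  dim_face : ∀ a, X.K.dim (face a) = 2
  arc : ∀ a, IsArc (A a) (p a) (q a)
  sub : ∀ a, A a ⊆ D (lab a) ∩ X.K.cell (face a)
  ends : ∀ a, A a ∩ X.K.bd (face a) = {p a, q a}
  disj : ∀ a a', a ≠ a' → face a = face a' → lab a = lab a' → Disjoint (A a) (A a')
  sat : ∀ a φ, X.K.dim φ = 2 → ∀ x ∈ A a, x ∈ X.K.cell φ →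
    ∃ a', face a' = φ ∧ lab a' = lab a ∧ x ∈ A a'
  att : ∀ a, ∀ x ∈ A a, Att X D X.faces (lab a) x
  full : ∀ i x, Att X D X.faces i x → ∃ a, lab a = i ∧ x ∈ A a
  /-- circles -/
  κ : Type
  finκ : Finite κ
  /-- the cell of a circle -/
  cel : κ → X.K.ι
  /-- the wall of a circle -/
  clab : κ → X.ι
  /-- the arcs of a circle -/
  s : κ → Set α
  dim_cel : ∀ k, X.K.dim (cel k) = 3
  mem_s : ∀ k, ∀ a ∈ s k, lab a = clab k ∧ X.K.cell (face a) ⊆ X.K.cell (cel k)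
  cover : ∀ a c, X.K.dim c = 3 → X.K.cell (face a) ⊆ X.K.cell c → ∃ k, cel k = c ∧ a ∈ s k
  sdisj : ∀ k l, k ≠ l → cel k = cel l → clab k = clab l →
    Disjoint (⋃ a ∈ s k, A a) (⋃ a ∈ s l, A a)
  /-- tiles -/
  Δ : κ → Set E3
  tile : ∀ k, ConBall 2 (Δ k) (⋃ a ∈ s k, A a) ∧ Δ k ∩ X.U ⊆ ⋃ a ∈ s k, A a ∧
    ∀ a, lab a = clab k → Δ k ∩ A a ⊆ ⋃ a' ∈ s k, A a'
  tile_union : ∀ i, (⋃ k, ⋃ (_ : clab k = i), Δ k) ∪ (Fr.nb i).W = D i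
  tile_inter : ∀ k l, k ≠ l → clab k = clab l → Δ k ∩ Δ l ⊆ ⋃ a ∈ s k, A a

variable {Fr : Frame X c₀} {D : X.ι → Set E3}

/-- the bands of the new arcs -/
structure Faces (T : Trace Fr D) (β : T.α → Band E3) : Prop where
  ok : ∀ a, (β a).Ok ∧ (β a).In (X.K.cell (T.face a))
  arc : ∀ a, IsArc (β a).W (T.p a) (T.q a)
  bd : ∀ a, (β a).B ∩ X.K.bd (T.face a) = (Fr.z (T.p a)).half.B ∪ (Fr.z (T.q a)).half.B
  mt : ∀ a, Match (Fr.z (T.p a)).half (β a) ∧ Match (Fr.z (T.q a)).half (β a)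
  comm : ∀ a a', a ≠ a' → T.face a = T.face a' → Comm (β a) (β a')
  disj : ∀ a a', a ≠ a' → T.face a = T.face a' → Disjoint (T.A a) (T.A a') →
    Disjoint (β a).B (β a').B
  sing : ∀ a a', a ≠ a' → T.face a = T.face a' → ¬ X.K.cell (T.face a) ⊆ X.U →
    ((β a).W ∩ (β a').W).Subsingleton
  nat : ∀ a, X.K.cell (T.face a) ⊆ X.U →
    β a = (Fr.nb (T.lab a)).restr (X.K.cell (T.face a)) (T.A a) ∧ (β a).W = T.A a
  lip : ∀ a, LipschitzOnWith (X.L (T.face a)) (β a).u (β a).B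

/-- the bands of the new discs in the cells -/
structure Cells (T : Trace Fr D) (β : T.α → Band E3) (γ : T.κ → Band E3) : Prop where
  on : ∀ k, (γ k).On (X.K.cell (T.cel k))
  disc : ∀ k, ConBall 2 (γ k).W (⋃ a ∈ T.s k, (β a).W)
  bd : ∀ k, (γ k).B ∩ X.K.bd (T.cel k) = ⋃ a ∈ T.s k, (β a).half.B
  mt : ∀ k, ∀ a ∈ T.s k, Match (β a).half (γ k)
  comm : ∀ k l, k ≠ l → T.cel k = T.cel l → Comm (γ k) (γ l)
  disj : ∀ k l, k ≠ l → T.cel k = T.cel l → X.fam (T.clab k) = X.fam (T.clab l) →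
    Disjoint (γ k).B (γ l).B
  reach : ∀ k l, k ≠ l → T.cel k = T.cel l → ∀ x ∈ (γ k).W ∩ (γ l).W,
    ∃ Z, Z ⊆ (γ k).W ∩ (γ l).W ∧ IsPreconnected Z ∧ x ∈ Z ∧ (Z ∩ X.K.bd (T.cel k)).Nonempty
  lip : ∀ k, LipschitzOnWith (X.L (T.cel k)) (γ k).u (X.K.cell (T.cel k))

/-- the glued walls -/
structure Walls (T : Trace Fr D) (γ : T.κ → Band E3) (b : X.ι → Band E3) : Prop where
  on : ∀ i, (b i).On X.Ω
  B_eq : ∀ i, (b i).B = (⋃ k, ⋃ (_ : T.clab k = i), (γ k).B) ∪ (Fr.nb i).half.B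
  sgn : ∀ k, Sgn (γ k) (b (T.clab k))
  disc : ∀ i, ConBall 2 (b i).W ((Fr.nb i).W ∩ X.bd)
  ext : ∀ i, Ext (b i) (Fr.nb i).half X.U

/-- the points of the extra circles -/
def extra (b : X.ι → Band E3) : Set E3 :=
  {x | ∃ i j g, i ≠ j ∧ IsCircle g ∧ g ⊆ (b i).W ∩ (b j).W ∧ x ∈ g}

/-- the walls after cutting and regluing along all extra circles -/
structure Swapped (Fr : Frame X c₀) (b : X.ι → Band E3) (D : X.ι → Set E3) : Prop where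
  sub : ∀ i, D i ⊆ X.Ω
  disc : ∀ i, ConBall 2 (D i) ((Fr.nb i).W ∩ X.bd)
  inter : ∀ i j, i ≠ j → D i ∩ D j ⊆ ((b i).W ∩ (b j).W) \ extra b
  loc : ∀ i, ∀ x ∈ D i, ∃ O, IsOpen O ∧ x ∈ O ∧ ((∃ k, D i ∩ O = (b k).W ∩ O) ∨
    ∃ j k, ∃ ε ε' : ℝ, j ≠ k ∧ (ε = 1 ∨ ε = -1) ∧ (ε' = 1 ∨ ε' = -1) ∧ Disjoint O X.U ∧
      (∀ y ∈ O ∩ X.Ω, |(b j).u y| < 1 ∧ |(b k).u y| < 1) ∧
      D i ∩ O = {y ∈ O ∩ X.Ω | (ε * (b j).u y, ε' * (b k).u y) ∈ corner})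
  pers : ∀ i Z, Z ⊆ (b i).W → IsPreconnected Z → (Z ∩ X.bd).Nonempty →
    (∀ x ∈ Z, ∀ j, j ≠ i → x ∈ (b j).B → (b j).M (x, 0) ∉ extra b) → Z ⊆ D i

/-- the coordinate of a wall -/
def Base.co (X : Base) (i : X.ι) : Fin 3 := if X.fam i then 0 else 1

/-- the flat wall -/
def lvl {lo hi : E3} (g : ConHomeo X.Ω (Icc lo hi)) (t : X.ι → ℝ) (i : X.ι) : Set E3 :=
  {x ∈ X.Ω | g.toFun x (X.co i) = t i}

/-- the bands on the frozen part are the natural ones -/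
structure Flat (Fr : Frame X c₀) {lo hi : E3} (g : ConHomeo X.Ω (Icc lo hi))
    (t : X.ι → ℝ) (lam : ℝ) : Prop where
  lt : ∀ k, lo k < hi k
  pos : 0 < lam
  bd_eq : X.bd = {x ∈ X.Ω | g.toFun x ∈ frontier (Icc lo hi)}
  inside : ∀ i, lo (X.co i) + 2 * lam < t i ∧ t i + 2 * lam < hi (X.co i)
  sep : ∀ i j, i ≠ j → X.fam i = X.fam j → 4 * lam < |t i - t j|
  nat : ∀ i, ∀ x ∈ X.U, (x ∈ (Fr.nb i).B ↔ |g.toFun x (X.co i) - t i| ≤ 2 * lam) ∧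
    (Fr.nb i).u x = cl ((g.toFun x (X.co i) - t i) / (2 * lam)) ∧
    (x ∈ (Fr.nb i).B → ∀ s ∈ I, g.toFun ((Fr.nb i).M (x, s)) =
      Function.update (g.toFun x) (X.co i) (t i + 2 * lam * s))

/-- wide zones on the inner wires -/
def Zoned (X : Base) (P : Set E3) : Prop := ∀ e, X.K.dim e = 1 → ¬ X.K.cell e ⊆ X.U →
  ∃ z : E3 → Band E3, (∀ p ∈ P ∩ X.K.cell e, (z p).Ok ∧ (z p).In (X.K.cell e) ∧
    (z p).B ⊆ X.K.ocell e ∧ (z p).W = {p} ∧ LipschitzOnWith (X.L e) (z p).u (z p).B) ∧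
    ∀ p ∈ P ∩ X.K.cell e, ∀ q ∈ P ∩ X.K.cell e, p ≠ q → Disjoint (z p).B (z q).B

/-- the inner wires are segments, long compared with the number of points on them -/
def Seg (X : Base) (P : Set E3) : Prop := ∀ e, X.K.dim e = 1 → ¬ X.K.cell e ⊆ X.U →
  ∃ x y, X.K.cell e = segment ℝ x y ∧ X.K.bd e = {x, y} ∧
    4 * (((P ∩ X.K.cell e).ncard : ℕ) : ℝ) ≤ X.L e * dist x y

/-- the input of the engine -/
structure Raw (X : Base) (c₀ : ℝ≥0) {lo hi : E3} (g : ConHomeo X.Ω (Icc lo hi))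
    (t : X.ι → ℝ) (lam : ℝ≥0) : Prop where
  lt : ∀ k, lo k < hi k
  pos : 0 < lam
  bd_eq : X.bd = {x ∈ X.Ω | g.toFun x ∈ frontier (Icc lo hi)}
  inside : ∀ i, lo (X.co i) + 4 * lam < t i ∧ t i + 4 * lam < hi (X.co i)
  sep : ∀ i j, i ≠ j → X.fam i = X.fam j → 8 * (lam : ℝ) < |t i - t j|
  keep : ∀ i, ∀ x ∈ X.U, |g.toFun x (X.co i) - t i| ≤ 4 * lam → ∀ s ∈ I,
    g.invFun (Function.update (g.toFun x) (X.co i) (t i + 4 * lam * s)) ∈ X.U ∧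
    ∀ c, x ∈ X.K.cell c →
      g.invFun (Function.update (g.toFun x) (X.co i) (t i + 4 * lam * s)) ∈ X.K.cell c
  att : ∀ i, ∀ x ∈ lvl g t i ∩ X.U,
    ∃ Z, Z ⊆ lvl g t i ∩ X.U ∧ IsPreconnected Z ∧ x ∈ Z ∧ (Z ∩ X.bd).Nonempty
  att₂ : ∀ i j, i ≠ j → ∀ x ∈ lvl g t i ∩ lvl g t j ∩ X.U,
    ∃ Z, Z ⊆ lvl g t i ∩ lvl g t j ∩ X.U ∧ IsPreconnected Z ∧ x ∈ Z ∧ (Z ∩ X.bd).Nonempty
  arc : ∀ i φ, X.K.dim φ = 2 → X.K.cell φ ⊆ X.U → ∀ x ∈ lvl g t i ∩ X.K.cell φ,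
    ∃ Z, Z ⊆ lvl g t i ∩ X.K.cell φ ∧ IsPreconnected Z ∧ x ∈ Z ∧ (Z ∩ X.K.bd φ).Nonempty
  lip : ∀ i c, X.K.cell c ⊆ X.U → LipschitzOnWith (lam * X.L c) (fun x => g.toFun x (X.co i))
    {x ∈ X.K.cell c | |g.toFun x (X.co i) - t i| ≤ 4 * lam}
  L_ge : ∀ c, 2 ≤ X.K.dim c → ¬ X.K.cell c ⊆ X.U → c₀ * X.M₁ c * (X.M₂ c * X.L₀ c +
    (((⋃ i, lvl g t i) ∩ X.K.skel 1 ∩ X.K.cell c).ncard : ℕ)) ≤ X.L c
  gen : ∀ i, Gen1 X.K (lvl g t i)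
  gen₂ : ∀ i j, X.fam i ≠ X.fam j → Disjoint (lvl g t i ∩ lvl g t j) (X.K.skel 1) ∧
    (lvl g t i ∩ lvl g t j ∩ X.K.skel 2).Finite

end P073.Wb
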