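import Vale.Agent.P073Y.Wb.Sk
import Vale.Agent.P073Z.RCX

/-!
# The iteration
-/

open Set Metric Topology Filter
open scoped NNReal

namespace P073.Wb

open P073.Bd (Band I cl Match Sgn Comm Ext PwLip Chart Lev corner Gen1)

variable {X : Base} {c₀ : ℝ≥0} {Fr : Frame X c₀}

theorem Le.refl (X : Base) (D : X.ι → Set E3) : Le X D D :=
  ⟨fun _ _ _ _ _ => le_rfl, fun i _ hp => ⟨i, hp.1⟩, fun _ _ _ _ _ h => h⟩

theorem cross_eq_empty {D : X.ι → Set E3} {φ : X.K.ι} :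
    cross X D φ = ∅ ↔ ∀ i j, i ≠ j → D i ∩ D j ∩ X.K.cell φ = ∅ := by
  simp only [cross, eq_empty_iff_forall_notMem]
  constructor
  · intro h i j hij x hx
    exact h x ⟨hx.2, i, j, hij, hx.1.1, hx.1.2⟩
  · rintro h x ⟨hx, i, j, hij, hi, hj⟩
    exact h i j hij x ⟨⟨hi, hj⟩, hx⟩

theorem Le.cross_empty {D' D : X.ι → Set E3} (h : Le X D' D) {φ : X.K.ι} (hφ : X.K.dim φ = 2)
    (h0 : cross X D φ = ∅) : cross X D' φ = ∅ := by
  rw [cross_eq_empty] at h0 ⊢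
  intro i j hij
  have := h.cnt φ hφ i j hij
  rw [h0 i j hij, encard_empty] at this
  exact encard_eq_zero.1 (le_antisymm this bot_le)

theorem Le.trans {D'' D' D : X.ι → Set E3} (h' : Le X D'' D') (h : Le X D' D) : Le X D'' D := by
  refine ⟨fun φ hφ i j hij => (h'.cnt φ hφ i j hij).trans (h.cnt φ hφ i j hij), ?_, ?_⟩
  · intro i p hp
    obtain ⟨j, hj⟩ := h'.pts i p hp
    exact h.pts j p ⟨hj, hp.2⟩
  · intro 𝓕 h𝓕 i p hp ha
    exact h'.pers 𝓕 (fun φ hφ => ⟨(h𝓕 φ hφ).1, h.cross_empty (h𝓕 φ hφ).1 (h𝓕 φ hφ).2⟩) i p hp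
      (h.pers 𝓕 h𝓕 i p hp ha)

theorem Att.mem {D : X.ι → Set E3} {𝓕 : Set X.K.ι} {i : X.ι} {p : E3} (h : Att X D 𝓕 i p) :
    p ∈ D i := by
  obtain ⟨Z, hZ, -, hp, -⟩ := h
  exact (hZ hp).1

open Classical in
/-- the number of crossings -/
noncomputable def meas (X : Base) (D : X.ι → Set E3) : ℕ∞ :=
  haveI := X.fin
  haveI := X.finι
  haveI := Fintype.ofFinite X.K.ι
  haveI := Fintype.ofFinite X.ι
  ∑ q : X.K.ι × X.ι × X.ι, if X.K.dim q.1 = 2 ∧ q.2.1 ≠ q.2.2 then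
    (D q.2.1 ∩ D q.2.2 ∩ X.K.cell q.1).encard else 0

theorem Le.meas_le {D' D : X.ι → Set E3} (h : Le X D' D) : meas X D' ≤ meas X D := by
  unfold meas
  refine Finset.sum_le_sum fun q _ => ?_
  split_ifs with hq
  · exact h.cnt _ hq.1 _ _ hq.2
  · exact le_rfl

theorem meas_ne_top {D : X.ι → Set E3}
    (h : ∀ i j, i ≠ j → (D i ∩ D j ∩ X.K.skel 2).Finite) : meas X D ≠ ⊤ := by
  unfold meas
  refine ENat.sum_ne_top.2 fun q _ => ?_
  split_ifs with hq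
  · refine (encard_ne_top_iff.2 ((h _ _ hq.2).subset ?_))
    exact inter_subset_inter_right _ (X.K.cell_subset_skel hq.1.le)
  · exact ENat.zero_ne_top

theorem Le.meas_lt {D' D : X.ι → Set E3} (h : Le X D' D)
    (hf : ∀ i j, i ≠ j → (D i ∩ D j ∩ X.K.skel 2).Finite)
    (hs : ∃ φ i j, X.K.dim φ = 2 ∧ i ≠ j ∧
      (D' i ∩ D' j ∩ X.K.cell φ).encard < (D i ∩ D j ∩ X.K.cell φ).encard) :
    meas X D' < meas X D := by
  classical
  obtain ⟨φ, i, j, hφ, hij, hlt⟩ := hs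
  have hne : meas X D' ≠ ⊤ := ne_top_of_le_ne_top (meas_ne_top hf) h.meas_le
  unfold meas at hne ⊢
  letI := X.fin
  letI := X.finι
  letI := Fintype.ofFinite X.K.ι
  letI := Fintype.ofFinite X.ι
  rw [← Finset.add_sum_erase _ _ (Finset.mem_univ (φ, i, j))] at hne ⊢
  rw [← Finset.add_sum_erase Finset.univ (fun q : X.K.ι × X.ι × X.ι =>
    if X.K.dim q.1 = 2 ∧ q.2.1 ≠ q.2.2 then (D q.2.1 ∩ D q.2.2 ∩ X.K.cell q.1).encard else 0)
    (Finset.mem_univ (φ, i, j))]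
  refine ENat.add_lt_add_of_lt_of_le (ne_top_of_le_ne_top hne le_add_self) ?_ ?_
  · simp only [hφ, hij, ne_eq, not_false_eq_true, and_self, if_true]
    exact hlt
  · refine Finset.sum_le_sum fun q _ => ?_
    split_ifs with hq
    · exact h.cnt _ hq.1 _ _ hq.2
    · exact le_rfl

theorem engine_of (h1 : SWAP1) (h2 : SWAP2) (h3 : SWAP3) : ENGINE := by
  intro X c₀ Fr Q hN D hD
  induction hm : meas X D using WellFoundedLT.induction generalizing D with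
  | ind m ih =>
    obtain ⟨b, hb, hle, hQ, hatt⟩ := hN D hD
    rcases eq_empty_or_nonempty (extra b) with h0 | h0
    · exact ⟨D, b, hD, Le.refl X D, hb, h0, hle, hle, hQ, fun i p hp => ⟨i, hatt i p hp⟩⟩
    · obtain ⟨D₁, hs⟩ := h1 hb
      have hD₁ := h2 hb hs
      obtain ⟨hle₁, hlt⟩ := h3 hb hs
      have hlt' : meas X D₁ < m := hm ▸ (hle₁.meas_lt hb.fin (hlt h0)).trans_le hle.meas_le
      obtain ⟨D', b', hD', hle', hb', h0', hl1, hl2, hQ', hatt'⟩ := ih _ hlt' D₁ hD₁ rfl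
      refine ⟨D', b', hD', (hle'.trans hle₁).trans hle, hb', h0', hl1,
        (hl2.trans hle₁).trans hle, hQ', fun i p hp => ?_⟩
      obtain ⟨j, hj⟩ := hatt' i p hp
      obtain ⟨k, hk⟩ := hle₁.pts j p ⟨hj.mem, hp.2⟩
      exact ⟨k, hatt k p ⟨hk, hp.2⟩⟩

end P073.Wb
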