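import Vale.Agent.P073Y.Wb.Sat

/-!
# The glued walls form a model
-/

open Set Metric Topology Filter
open scoped NNReal

namespace P073.Wb

open P073.Bd (Band I cl Match Sgn Comm Ext PwLip)

namespace Sat

section lip

variable {E : Type} [NormedAddCommGroup E] [NormedSpace ℝ E] {L : ℝ≥0}

omit [NormedSpace ℝ E] in
theorem lip_sgn {f u : E → ℝ} {Z : Set E} {ε : ℝ} (hε : ε = 1 ∨ ε = -1)
    (h : LipschitzOnWith L u Z) : LipschitzOnWith L f {x ∈ Z | f x = ε * u x} :=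
  LipschitzOnWith.of_dist_le_mul fun x hx y hy => by
    rw [hx.2, hy.2, Real.dist_eq, ← mul_sub, Bd.Glue.sabs hε]
    exact h.dist_le_mul x hx.1 y hy.1

omit [NormedSpace ℝ E] in
theorem lip_half {b : Band E} (h : LipschitzOnWith L b.u b.B) :
    LipschitzOnWith (2 * L) b.half.u b.half.B :=
  LipschitzOnWith.of_dist_le_mul fun x hx y hy => by
    rw [Bd.Bas1.half_u hx, Bd.Bas1.half_u hy, Real.dist_eq, ← mul_sub, abs_mul, abs_two]
    have := h.dist_le_mul x hx.1 y hy.1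
    rw [Real.dist_eq] at this
    push_cast
    linarith

/-- a band which is covered by Lipschitz parts is piecewise Lipschitz -/
theorem pw_parts {κ : Type} [Finite κ] {g : Band E} {Ω Y : Set E} (hg : g.On Ω) (hY : IsClosed Y)
    (hYΩ : Y ⊆ Ω) (b : κ → Band E) (Q : κ → Prop)
    (hb : ∀ k, Q k → (b k).Ok ∧ Part (b k) g ∧ LipschitzOnWith L (b k).u (b k).B)
    (hc : ∀ x ∈ g.B, x ∈ Y → ∃ k, Q k ∧ x ∈ (b k).B) : PwLip L g.u Y := by
  classical
  let Z : Option {k // Q k} → Set E := fun o => o.elim Y fun k => (b k).B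
  let u : Option {k // Q k} → E → ℝ := fun o => o.elim (fun _ => 1) fun k => (b k).u
  have hZ : ∀ o, IsClosed (Z o) ∧ Z o ⊆ Ω ∧ ContinuousOn (u o) (Z o) ∧
      LipschitzOnWith L (u o) (Z o) := by
    rintro (_ | k)
    · exact ⟨hY, hYΩ, continuousOn_const, (LipschitzWith.const' 1).lipschitzOnWith⟩
    · obtain ⟨h1, h2, h3⟩ := hb k k.2
      exact ⟨h1.cpt.isClosed, h2.1.trans hg.sub, h1.upl.1, h3⟩
  let V : Option {k // Q k} × Bool → Set E := fun p =>
    {x ∈ Z p.1 | g.u x = (if p.2 then 1 else -1) * u p.1 x}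
  refine ⟨(finite_range V).toFinset, fun Y' hY' => ?_, fun x hx => ?_⟩
  · obtain ⟨⟨o, e⟩, rfl⟩ := (finite_range V).mem_toFinset.1 hY'
    obtain ⟨h1, h2, h3, h4⟩ := hZ o
    exact ⟨h1.isClosed_eq (hg.upl.1.mono h2) (continuousOn_const.mul h3),
      lip_sgn (by cases e <;> simp) h4⟩
  · have key : ∀ o (ε : ℝ), (ε = 1 ∨ ε = -1) → x ∈ Z o → g.u x = ε * u o x →
        x ∈ ⋃ Y' ∈ (finite_range V).toFinset, Y' := fun o ε hε h1 h2 => by
      rcases hε with rfl | rfl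
      · exact mem_iUnion₂.2 ⟨V (o, true), (finite_range V).mem_toFinset.2 ⟨_, rfl⟩, h1, h2⟩
      · exact mem_iUnion₂.2 ⟨V (o, false), (finite_range V).mem_toFinset.2 ⟨_, rfl⟩, h1, h2⟩
    by_cases hB : x ∈ g.B
    · obtain ⟨k, hk, h⟩ := hc x hB hx
      obtain ⟨ε, hε, h1, -⟩ := (hb k hk).2.1.2 x h hB
      exact key (some ⟨k, hk⟩) ε hε h h1
    · exact key none (g.u x) (hg.out x (hYΩ hx) hB) hx (mul_one _).symm

omit [NormedSpace ℝ E] in
theorem lip_le {L' : ℝ≥0} {f : E → ℝ} {Z : Set E} (h : LipschitzOnWith L f Z) (hL : L ≤ L') :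
    LipschitzOnWith L' f Z := fun _ hx _ hy =>
  (h hx hy).trans (by gcongr)

theorem bd_nonempty {n : ℕ} {C B : Set E} (h : ConBall (n + 1) C B) : B.Nonempty := by
  obtain ⟨φ⟩ := h.conSphere
  obtain ⟨y, hy⟩ := (NormedSpace.sphere_nonempty (x := (0 : Fin (n + 1) → ℝ))).2 zero_le_one
  exact ⟨_, φ.mapsTo_inv hy⟩

end lip

variable {X : Base} {c₀ : ℝ≥0} {Fr : Frame X c₀} {D : X.ι → Set E3} {T : Trace Fr D}
  {β : T.α → Band E3} {γ : T.κ → Band E3} {b : X.ι → Band E3}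

theorem dim_cases (c : X.K.ι) : X.K.dim c = 3 ∨ X.K.dim c = 2 ∨ X.K.dim c ≤ 1 := by
  have := X.dim_le c
  omega

theorem keep (S : State Fr D) (F : Faces T β) (C : Cells T β γ) (W : Walls T γ b) (i : X.ι)
    (c : X.K.ι) : (b i).Keeps (X.K.cell c) := by
  intro x hx s hs hc
  rcases dim_cases c with h | h | h
  · obtain ⟨k, rfl, rfl, hk⟩ := sat_cell S F C W hx h hc
    exact (C.on k).sub ((part_cup W k).move (C.on k).ok hk hs)
  · obtain ⟨a, rfl, rfl, ha⟩ := sat_face S F C W hx h hc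
    exact (F.ok a).2.1 ((part_arc C W a).move (Bd.Bas1.half_ok (F.ok a).1) ha hs).1
  · obtain ⟨a, y, rfl, hy, h1⟩ := sat_wire S F C W hx (X.K.cell_subset_skel h hc)
    obtain ⟨e, -, h2, -, h3, -⟩ := Fr.wire y (hy.mem_P S)
    exact X.K.cell_subset_of_mem (h3 h1.1.1) hc (h3 ((hy.part_zone F C W).move
      (Bd.Bas1.half_ok (Bd.Bas1.half_ok h2)) h1 hs).1.1).1

theorem comm (S : State Fr D) (F : Faces T β) (C : Cells T β γ) (W : Walls T γ b) (i j : X.ι)
    (hij : i ≠ j) : Comm (b i) (b j) := by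
  let f : ∀ i, Option {k // T.clab k = i} → Band E3 := fun i o =>
    o.elim (Fr.nb i).half fun k => γ k
  have hok : ∀ i o, (f i o).Ok := by
    rintro i (_ | k)
    exacts [Bd.Bas1.half_ok (Fr.nb_on i).ok, (C.on k).ok]
  have hB : ∀ i, (b i).B = ⋃ o, (f i o).B := fun i => by
    rw [W.B_eq, iUnion_option, union_comm, iUnion_subtype]
    rfl
  have hs : ∀ i o, Sgn (f i o) (b i) := by
    rintro i (_ | ⟨k, rfl⟩)
    exacts [sgn_nb W i, W.sgn k]
  refine Bd.gcomm (f i) (f j) _ _ (hok i) (hok j) (W.on i).ok (hB i) (hB j) (hs i) (hs j)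
    fun x hi hj => ?_
  by_cases hU : x ∈ X.U
  · exact ⟨none, none, sat_U W hi hU, sat_U W hj hU,
      Bd.Bas1.half_comm (Fr.nb_on i).ok (Fr.nb_on j).ok (Fr.nb_comm i j hij),
      Bd.Bas1.half_comm (Fr.nb_on j).ok (Fr.nb_on i).ok (Fr.nb_comm j i hij.symm)⟩
  · obtain ⟨k, l, h1, h2, h3, h4, h5, h6⟩ := sat_two S F C W hij hi hj hU
    exact ⟨some ⟨k, h3⟩, some ⟨l, h4⟩, h5, h6, C.comm k l h1 h2, C.comm l k h1.symm h2.symm⟩

theorem fin (S : State Fr D) (F : Faces T β) (C : Cells T β γ) (W : Walls T γ b) (i j : X.ι)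
    (hij : i ≠ j) : ((b i).W ∩ (b j).W ∩ X.K.skel 2).Finite := by
  have := T.finα
  refine ((S.fin i j hij).union (finite_iUnion fun a => finite_iUnion fun a' =>
    finite_iUnion fun h : a ≠ a' ∧ T.face a = T.face a' ∧ ¬ X.K.cell (T.face a) ⊆ X.U =>
      (F.sing a a' h.1 h.2.1 h.2.2).finite)).subset fun x hx => ?_
  obtain ⟨φ, hφ, h⟩ := exists_face' hx.2
  by_cases hU : X.K.cell φ ⊆ X.U
  · exact Or.inl ⟨⟨wall_U S W hx.1.1 (hU h), wall_U S W hx.1.2 (hU h)⟩, hx.2⟩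
  · obtain ⟨a, rfl, rfl, ha⟩ := wall_face S F C W hx.1.1 hφ h
    obtain ⟨a', e, rfl, ha'⟩ := wall_face S F C W hx.1.2 hφ h
    exact Or.inr (mem_iUnion₂.2 ⟨a, a', mem_iUnion.2 ⟨⟨fun e' => hij (by rw [e']), e.symm, hU⟩,
      ha, ha'⟩⟩)

theorem touch (S : State Fr D) (F : Faces T β) (C : Cells T β γ) (W : Walls T γ b) (i : X.ι)
    (c : X.K.ι) (h : ((b i).W ∩ X.K.cell c).Nonempty) :
    ((b i).W ∩ X.K.cell c ∩ X.K.skel 1).Nonempty := by
  obtain ⟨x, hx, hc⟩ := h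
  have key : ∀ a, T.lab a = i → X.K.cell (T.face a) ⊆ X.K.cell c →
      ((b i).W ∩ X.K.cell c ∩ X.K.skel 1).Nonempty := by
    rintro a rfl ha
    have h : End T a (T.p a) := Or.inl rfl
    exact ⟨_, ⟨h.mem_wall F C W, ha h.mem.2⟩, h.mem.1.2⟩
  rcases dim_cases c with h | h | h
  · obtain ⟨k, rfl, rfl, -⟩ := sat_cell S F C W hx.1 h hc
    obtain ⟨y, hy⟩ := bd_nonempty (C.disc k)
    obtain ⟨a, ha, -⟩ := mem_iUnion₂.1 hy
    exact key a (T.mem_s k a ha).1 (T.mem_s k a ha).2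
  · obtain ⟨a, rfl, e, -⟩ := sat_face S F C W hx.1 h hc
    exact key a e Subset.rfl
  · exact ⟨x, ⟨hx, hc⟩, X.K.cell_subset_skel h hc⟩

theorem lip (S : State Fr D) (F : Faces T β) (C : Cells T β γ) (W : Walls T γ b) (i : X.ι)
    (c : X.K.ι) : PwLip (4 * X.L c) (b i).u (X.K.cell c) := by
  have := T.finα
  have := T.finκ
  have := Fr.Pfin.to_subtype
  rcases dim_cases c with h | h | h
  · refine pw_parts (W.on i) (X.K.isClosed_cell c) (cell_sub c) γ
      (fun k => T.cel k = c ∧ T.clab k = i) ?_ fun x hx hc => ?_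
    · rintro k ⟨rfl, rfl⟩
      exact ⟨(C.on k).ok, part_cup W k, lip_le ((C.lip k).mono (C.on k).sub)
        (le_mul_of_one_le_left zero_le (by norm_num))⟩
    · obtain ⟨k, h1, h2, h3⟩ := sat_cell S F C W hx h hc
      exact ⟨k, ⟨h1, h2⟩, h3⟩
  · refine pw_parts (W.on i) (X.K.isClosed_cell c) (cell_sub c) (fun a => (β a).half)
      (fun a => T.face a = c ∧ T.lab a = i) ?_ fun x hx hc => ?_
    · rintro a ⟨rfl, rfl⟩
      exact ⟨Bd.Bas1.half_ok (F.ok a).1, part_arc C W a, lip_le (lip_half (F.lip a))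
        (by gcongr; norm_num)⟩
    · obtain ⟨a, h1, h2, h3⟩ := sat_face S F C W hx h hc
      exact ⟨a, ⟨h1, h2⟩, h3⟩
  · refine pw_parts (W.on i) (X.K.isClosed_cell c) (cell_sub c)
      (fun y : Fr.P => (Fr.z y).half.half)
      (fun y => ((Fr.z y).B ∩ X.K.cell c).Nonempty ∧ ∃ a, T.lab a = i ∧ End T a y) ?_
      fun x hx hc => ?_
    · rintro y ⟨⟨x, hx, hc⟩, a, rfl, hy⟩
      obtain ⟨e, he, h2, -, h3, -, h4⟩ := Fr.wire y y.2
      obtain rfl := X.K.eq_of_subset_of_dim_le (X.K.cell_subset_of_mem (h3 hx) hc) (by omega)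
      exact ⟨Bd.Bas1.half_ok (Bd.Bas1.half_ok h2), hy.part_zone F C W,
        lip_le (lip_half (lip_half h4)) (by rw [← mul_assoc]; norm_num)⟩
    · obtain ⟨a, y, h1, hy, h3⟩ := sat_wire S F C W hx (X.K.cell_subset_skel h hc)
      exact ⟨⟨y, hy.mem_P S⟩, ⟨⟨x, h3.1.1, hc⟩, a, h1, hy⟩, h3⟩

end Sat

open P073.Wb.Sat in
theorem model_thm : MODEL := fun {X _ Fr _} S T _ _ b F C W =>
  { on := W.on
    keep := keep S F C W
    disj := fun i j hij hf => Set.disjoint_left.2 fun x hi hj => by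
      by_cases hU : x ∈ X.U
      · exact Set.disjoint_left.1 (Fr.nb_disj i j hij hf) (sat_U W hi hU).1 (sat_U W hj hU).1
      · obtain ⟨k, l, h1, h2, rfl, rfl, h5, h6⟩ := sat_two S F C W hij hi hj hU
        exact Set.disjoint_left.1 (C.disj k l h1 h2 hf) h5 h6
    comm := comm S F C W
    ext := W.ext
    disc := W.disc
    wire := fun _ _ hx =>
      let ⟨_, _, h⟩ := wall_wire S F C W hx.1 hx.2
      h.mem_P S
    wire_disj := fun i j hij => Set.disjoint_left.2 fun x hx h => by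
      obtain ⟨a, rfl, ha⟩ := wall_wire S F C W hx.1 h
      obtain ⟨a', rfl, ha'⟩ := wall_wire S F C W hx.2 h
      exact Set.disjoint_left.1 (S.wire_disj _ _ hij) ⟨ha.mem.1.1, ha'.mem.1.1⟩ h
    fin := fin S F C W
    reach := fun i j hij x hx => by
      by_cases hU : x ∈ X.U
      · exact ⟨{x}, singleton_subset_iff.2 hx, isPreconnected_singleton, rfl, x, rfl, Or.inr hU⟩
      · obtain ⟨k, l, h1, h2, rfl, rfl, h5, h6⟩ := sat_two S F C W hij hx.1.1 hx.2.1 hU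
        obtain ⟨Z, z1, z2, z3, y, z4, z5⟩ := C.reach k l h1 h2 x
          ⟨((part_cup W k).mem_W h5).1 hx.1, ((part_cup W l).mem_W h6).1 hx.2⟩
        exact ⟨Z, z1.trans (inter_subset_inter (part_cup W k).W_sub (part_cup W l).W_sub), z2, z3,
          y, z4, Or.inl (X.K.bd_subset_skel (T.dim_cel k).le z5)⟩
    touch := touch S F C W
    lip := Sat.lip S F C W }

end P073.Wb
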