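import Vale.Agent.P073Y.Wb.Defs

/-!
# The two family engine with a frozen part: statements of the blocks
-/

open Set Metric Topology Filter
open scoped NNReal

namespace P073.Wb

open P073.Bd (Band I cl Match Sgn Comm Ext PwLip Chart Lev corner Gen1)

/-! ### relative versions of three lemmas -/

/-- gluing local bands whose positive side is known -/
def GLUE2 : Prop := ∀ {E : Type} [NormedAddCommGroup E] [NormedSpace ℝ E] [FiniteDimensional ℝ E]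
  {π κ : Type} [Finite π] [Finite κ] (X : π → Set E) (home : κ → π) (b : κ → Band E)
  {P N : Set E}, (∀ a, IsCompact (X a) ∧ LocCone (X a)) →
  (∀ k, (b k).Ok ∧ (b k).In (X (home k))) → (∀ k l, Match (b k) (b l)) →
  (∀ k a, ∀ x ∈ (b k).B, x ∈ X a → ∃ l, home l = a ∧ x ∈ (b l).B) →
  IsCompact P → LocCone P → IsCompact N → LocCone N → P ∪ N = ⋃ a, X a → P ∩ N = ⋃ k, (b k).W →
  (∀ k, (IsPreconnected (b k).W ∧ ∃ x ∈ (b k).W, X (home k) ∈ 𝓝[⋃ a, X a] x ∧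
    x ∈ closure (P \ N) ∧ x ∈ closure (N \ P)) ∨
    ∀ x ∈ (b k).B, (0 < (b k).u x → x ∈ P) ∧ ((b k).u x < 0 → x ∈ N)) →
  ∃ g : Band E, g.On (⋃ a, X a) ∧ g.B = ⋃ k, (b k).B ∧ (∀ k, Sgn (b k) g) ∧
    ∀ x ∈ ⋃ a, X a, (0 ≤ g.u x ↔ x ∈ P) ∧ (g.u x ≤ 0 ↔ x ∈ N)

/-- the circles of a connected trace bound discs which tile the wall off the trace -/
def TILE2 : Prop := ∀ {E : Type} [NormedAddCommGroup E] [NormedSpace ℝ E] {κ : Type} [Finite κ]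
  {D B Γ : Set E} (J X X₀ : κ → Set E), ConBall 2 D B → B ⊆ Γ → Γ ⊆ D → IsPreconnected Γ →
  IsClosed Γ →
  (∀ k, IsCircle (J k) ∧ J k ⊆ Γ ∧ IsClosed (X k) ∧ X₀ k ⊆ X k ∧
    (∀ x ∈ D ∩ X₀ k, X₀ k ∈ 𝓝[D] x ∧ x ∉ Γ) ∧
    ∀ x ∈ J k, x ∈ closure (D ∩ X₀ k) ∧ (∀ᶠ y in 𝓝 x, y ∈ D → y ∈ X k → y ∈ X₀ k ∨ y ∈ J k)) →
  (∀ x ∈ Γ, ∀ᶠ y in 𝓝 x, y ∈ D → y ∈ Γ ∨ ∃ k, x ∈ J k ∧ y ∈ X k) →
  (∀ k l, k ≠ l → J k = J l → Disjoint (X₀ k) (X₀ l)) →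
  ∃ Δ : κ → Set E, (∀ k, ConBall 2 (Δ k) (J k) ∧ Δ k ∩ Γ = J k) ∧ (⋃ k, Δ k) ∪ Γ = D ∧
    ∀ k l, k ≠ l → Δ k ∩ Δ l ⊆ J k

/-- two tilings with the same pattern -/
def RETILE2 : Prop := ∀ {E : Type} [NormedAddCommGroup E] [NormedSpace ℝ E] {κ : Type} [Finite κ]
  {D B Γ Γ' : Set E} (φ : ConHomeo Γ Γ') (Δ J Δ' : κ → Set E), ConBall 2 D B → B ⊆ Γ →
  IsCompact Γ → LocCone Γ → (⋃ k, Δ k) ∪ Γ = D →
  (∀ k, ConBall 2 (Δ k) (J k) ∧ Δ k ∩ Γ = J k ∧ ConBall 2 (Δ' k) (φ.toFun '' J k) ∧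
    Δ' k ∩ Γ' ⊆ φ.toFun '' J k) →
  (∀ k l, k ≠ l → Δ k ∩ Δ l ⊆ Γ ∧ Δ' k ∩ Δ' l ⊆ Γ') →
  ConBall 2 ((⋃ k, Δ' k) ∪ Γ') (φ.toFun '' B)

/-- two families of arcs with the same ends, relative to a common polyhedron -/
def ARCISO2 : Prop := ∀ {E : Type} [NormedAddCommGroup E] [NormedSpace ℝ E] {α : Type} [Finite α]
  (A A' : α → Set E) (p q : α → E) {V : Set E}, IsCompact V → LocCone V →
  (∀ a, IsArc (A a) (p a) (q a) ∧ IsArc (A' a) (p a) (q a)) →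
  (∀ a a', a ≠ a' → A a ∩ A a' ⊆ {p a, q a} ∧ A' a ∩ A' a' ⊆ {p a, q a}) →
  (∀ a, (A' a = A a ∧ A a ⊆ V) ∨ (A a ∩ V ⊆ {p a, q a} ∧ A' a ∩ V ⊆ {p a, q a})) →
  ∃ φ : ConHomeo ((⋃ a, A a) ∪ V) ((⋃ a, A' a) ∪ V), (∀ a, φ.toFun '' A a = A' a) ∧
    EqOn φ.toFun id V

/-- extension of homeomorphisms of the wires -/
def EVEN : Prop := ∀ (X : Base) (θ : X.K.ι → E3 → E3),
  (∀ e, X.K.dim e = 1 → (∃ Φ : ConHomeo (X.K.cell e) (X.K.cell e),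
    EqOn Φ.toFun (θ e) (X.K.cell e)) ∧ EqOn (θ e) id (X.K.bd e) ∧
    (X.K.cell e ⊆ X.U → EqOn (θ e) id (X.K.cell e))) →
  ∃ Θ : ConHomeo X.Ω X.Ω, EqOn Θ.toFun id X.U ∧ (∀ c, Θ.toFun '' X.K.cell c = X.K.cell c) ∧
    ∀ e, X.K.dim e = 1 → EqOn Θ.toFun (θ e) (X.K.cell e)

/-! ### normalisation -/

def TRACE : Prop := ∀ {X : Base} {c₀ : ℝ≥0} {Fr : Frame X c₀} {D : X.ι → Set E3},
  State Fr D → Nonempty (Trace Fr D)

def FACES (c₀ : ℝ≥0) : Prop := ∀ {X : Base} {Fr : Frame X c₀} {D : X.ι → Set E3},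
  State Fr D → ∀ T : Trace Fr D, ∃ β, Faces T β

def CELLS (c₀ : ℝ≥0) : Prop := ∀ {X : Base} {Fr : Frame X c₀} {D : X.ι → Set E3},
  State Fr D → ∀ (T : Trace Fr D) (β : T.α → Band E3), Faces T β → ∃ γ, Cells T β γ

def WALLS : Prop := ∀ {X : Base} {c₀ : ℝ≥0} {Fr : Frame X c₀} {D : X.ι → Set E3},
  State Fr D → ∀ (T : Trace Fr D) (β : T.α → Band E3) (γ : T.κ → Band E3), Faces T β →
  Cells T β γ → ∃ b, Walls T γ b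

def MODEL : Prop := ∀ {X : Base} {c₀ : ℝ≥0} {Fr : Frame X c₀} {D : X.ι → Set E3},
  State Fr D → ∀ (T : Trace Fr D) (β : T.α → Band E3) (γ : T.κ → Band E3) (b : X.ι → Band E3),
  Faces T β → Cells T β γ → Walls T γ b → Model Fr b

def NORMLE : Prop := ∀ {X : Base} {c₀ : ℝ≥0} {Fr : Frame X c₀} {D : X.ι → Set E3},
  State Fr D → ∀ (T : Trace Fr D) (β : T.α → Band E3) (γ : T.κ → Band E3) (b : X.ι → Band E3),
  Faces T β → Cells T β γ → Walls T γ b → Le X (fun i => (b i).W) D ∧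
    ∀ i, ∀ p ∈ (b i).W ∩ X.K.skel 1, Att X D X.faces i p

/-! ### exchange -/

def SWAP1 : Prop := ∀ {X : Base} {c₀ : ℝ≥0} {Fr : Frame X c₀} {b : X.ι → Band E3},
  Model Fr b → ∃ D, Swapped Fr b D

def SWAP2 : Prop := ∀ {X : Base} {c₀ : ℝ≥0} {Fr : Frame X c₀} {b : X.ι → Band E3}
  {D : X.ι → Set E3}, Model Fr b → Swapped Fr b D → State Fr D

def SWAP3 : Prop := ∀ {X : Base} {c₀ : ℝ≥0} {Fr : Frame X c₀} {b : X.ι → Band E3}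
  {D : X.ι → Set E3}, Model Fr b → Swapped Fr b D → Le X D (fun i => (b i).W) ∧
  ((extra b).Nonempty → ∃ φ i j, X.K.dim φ = 2 ∧ i ≠ j ∧
    (D i ∩ D j ∩ X.K.cell φ).encard < ((b i).W ∩ (b j).W ∩ X.K.cell φ).encard)

/-- without extra circles two walls meet in one arc -/
def ARC1 : Prop := ∀ {X : Base} {c₀ : ℝ≥0} {Fr : Frame X c₀} {b : X.ι → Band E3},
  Model Fr b → extra b = ∅ → ∀ i j, X.fam i ≠ X.fam j →
  ∃ p ∈ X.bd, ∃ q ∈ X.bd, IsArc ((b i).W ∩ (b j).W) p q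

/-- the walls of a model are in general position -/
def MGEN : Prop := ∀ {X : Base} {c₀ : ℝ≥0} {Fr : Frame X c₀} {b : X.ι → Band E3},
  Model Fr b → State Fr (fun i => (b i).W) ∧ ∀ i, Gen1 X.K (b i).W

/-- the iteration, for any way `Q` of normalising -/
def ENGINE : Prop := ∀ {X : Base} {c₀ : ℝ≥0} {Fr : Frame X c₀}
  (Q : (X.ι → Set E3) → (X.ι → Band E3) → Prop),
  (∀ D, State Fr D → ∃ b, Model Fr b ∧ Le X (fun i => (b i).W) D ∧ Q D b ∧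
    ∀ i, ∀ p ∈ (b i).W ∩ X.K.skel 1, Att X D X.faces i p) →
  ∀ D, State Fr D → ∃ D' b, State Fr D' ∧ Le X D' D ∧ Model Fr b ∧ extra b = ∅ ∧
    Le X (fun i => (b i).W) D' ∧ Le X (fun i => (b i).W) D ∧ Q D' b ∧
    ∀ i, ∀ p ∈ (b i).W ∩ X.K.skel 1, ∃ j, Att X D X.faces j p

/-! ### the first state, the labels, the drift -/

def INIT1 : Prop := ∀ {X : Base} {c₀ : ℝ≥0} {lo hi : E3} (g : ConHomeo X.Ω (Icc lo hi))
  (t : X.ι → ℝ) {lam : ℝ≥0}, Raw X c₀ g t lam → Seg X (⋃ i, lvl g t i) →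
  ∃ g' : ConHomeo X.Ω (Icc lo hi), EqOn g'.toFun g.toFun X.U ∧
    (∀ c, g'.toFun '' X.K.cell c = g.toFun '' X.K.cell c) ∧
    Raw X c₀ g' t lam ∧ Zoned X (⋃ i, lvl g' t i)

def INIT2 : Prop := ∀ {X : Base} {c₀ : ℝ≥0} {lo hi : E3} (g : ConHomeo X.Ω (Icc lo hi))
  (t : X.ι → ℝ) {lam : ℝ≥0}, Raw X c₀ g t lam → Zoned X (⋃ i, lvl g t i) →
  ∃ Fr : Frame X c₀, Flat Fr g t lam ∧ State Fr (lvl g t)

/-- the faces of the cells whose convex hull in the target meets the image of `L` -/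
def near {X : Base} {lo hi : E3} (g : ConHomeo X.Ω (Icc lo hi)) (L : Set E3) : Set X.K.ι :=
  {φ | X.K.dim φ = 2 ∧ ∃ c, X.K.dim c = 3 ∧ X.K.cell φ ⊆ X.K.cell c ∧
    ∃ y ∈ L, g.toFun y ∈ convexHull ℝ (g.toFun '' X.K.cell c)}

/-- points of the trace are attached through faces near any path to the frozen part -/
def LOCATT : Prop := ∀ {X : Base} {c₀ : ℝ≥0} {Fr : Frame X c₀} {lo hi : E3}
  (g : ConHomeo X.Ω (Icc lo hi)) (t : X.ι → ℝ) {lam : ℝ}, Flat Fr g t lam → State Fr (lvl g t) →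
  ∀ j p, Att X (lvl g t) X.faces j p → ∀ L, L ⊆ lvl g t j → IsPreconnected L → p ∈ L →
    (L ∩ X.U).Nonempty → Att X (lvl g t) (near g L) j p

/-- the original label of a point is kept if a path without crossings leads to the frozen part -/
def Lab {X : Base} {lo hi : E3} (g : ConHomeo X.Ω (Icc lo hi)) (t : X.ι → ℝ)
    (D : X.ι → Set E3) : Prop :=
  ∀ i, ∀ p ∈ D i ∩ X.K.skel 1, ∃ j, p ∈ lvl g t j ∧ ∀ L, L ⊆ lvl g t j → IsPreconnected L →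
    p ∈ L → (L ∩ X.U).Nonempty → (∀ φ ∈ near g L, cross X (lvl g t) φ = ∅) → i = j

def DRIFT : Prop := ∀ {X : Base} {c₀ : ℝ≥0} {Fr : Frame X c₀} {b : X.ι → Band E3} {lo hi : E3}
  (g : ConHomeo X.Ω (Icc lo hi)) (t : X.ι → ℝ) {lam o κ : ℝ} (i : X.ι),
  Flat Fr g t lam → Model Fr b → Lab g t (fun i => (b i).W) → 0 ≤ o →
  (∀ c, ∀ x ∈ X.K.cell c, ∀ y ∈ X.K.cell c, |g.toFun x (X.co i) - g.toFun y (X.co i)| ≤ o) →
  (∀ j, X.fam j = X.fam i → 2 * o + lam < |t j - κ|) → ∀ x ∈ X.Ω,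
    (t i < κ → κ ≤ g.toFun x (X.co i) → (b i).u x = 1) ∧
    (κ < t i → g.toFun x (X.co i) ≤ κ → (b i).u x = -1)

/-- the two family engine -/
def WBOX (c₀ : ℝ≥0) : Prop := ∀ (X : Base) {lo hi : E3} (g : ConHomeo X.Ω (Icc lo hi))
  (t : X.ι → ℝ) (lam : ℝ≥0), Raw X c₀ g t lam → Zoned X (⋃ i, lvl g t i) →
  ∃ G : ConHomeo X.Ω (Icc lo hi), EqOn G.toFun g.toFun X.bd ∧
    (∀ i, ∀ x ∈ X.U, cl ((G.toFun x (X.co i) - t i) / lam) =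
      cl ((g.toFun x (X.co i) - t i) / lam)) ∧
    Le X (lvl G t) (lvl g t) ∧ Lab g t (lvl G t) ∧ (∀ i, Gen1 X.K (lvl G t i)) ∧
    (∀ i c, (lvl G t i ∩ X.K.cell c).Nonempty →
      (lvl G t i ∩ X.K.cell c ∩ X.K.skel 1).Nonempty) ∧
    (∀ i j, i ≠ j → ∀ x ∈ lvl G t i ∩ lvl G t j, ∃ Z, Z ⊆ lvl G t i ∩ lvl G t j ∧
      IsPreconnected Z ∧ x ∈ Z ∧ (Z ∩ (X.K.skel 2 ∪ X.U)).Nonempty ∧
      ∀ c, X.K.dim c = 3 → x ∈ X.K.ocell c → Z ⊆ X.K.cell c) ∧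
    (∀ i, ∀ x ∈ X.Ω, |G.toFun x (X.co i) - t i| ≤ lam → ∀ s ∈ I,
      (x ∈ X.U → G.invFun (Function.update (G.toFun x) (X.co i) (t i + lam * s)) =
        g.invFun (Function.update (g.toFun x) (X.co i) (t i + lam * s))) ∧
      ∀ c, x ∈ X.K.cell c →
        G.invFun (Function.update (G.toFun x) (X.co i) (t i + lam * s)) ∈ X.K.cell c) ∧
    (∀ c (s : Finset X.ι), (∀ i ∈ s, ∀ j ∈ s, X.fam i = X.fam j) → PwLip (4 * X.L c)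
      (fun x => ∑ i ∈ s, cl ((G.toFun x (X.co i) - t i) / lam)) (X.K.cell c)) ∧
    ∀ (i : X.ι) (o κ : ℝ), 0 ≤ o →
      (∀ c, ∀ x ∈ X.K.cell c, ∀ y ∈ X.K.cell c, |g.toFun x (X.co i) - g.toFun y (X.co i)| ≤ o) →
      (∀ j, X.fam j = X.fam i → 2 * o + lam < |t j - κ|) → ∀ x ∈ X.Ω,
        (t i < κ → κ ≤ g.toFun x (X.co i) → t i + lam ≤ G.toFun x (X.co i)) ∧
        (κ < t i → g.toFun x (X.co i) ≤ κ → G.toFun x (X.co i) ≤ t i - lam)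

end P073.Wb
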