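import Vale.Agent.P073Y.Wb.Sk
import Vale.Agent.P073Y.Bd.Bas1
import Vale.Agent.P073Z.MAN
import Vale.Agent.P073Z.A12.Arcs

/-!
# The trace of the walls on the faces: the attached arcs
-/

open Set Metric Topology Filter
open scoped NNReal

namespace P073.Wb

open P073.Bd (Lev)

namespace Trc

variable {X : Base} {c₀ : ℝ≥0} {Fr : Frame X c₀} {D : X.ι → Set E3}

/-! ### the complex -/

/-- a point of the boundary of a three-cell lies in a face of this cell -/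
theorem face_of_bd {c : X.K.ι} (hc : X.K.dim c = 3) {x : E3} (hx : x ∈ X.K.bd c) :
    ∃ φ, X.K.dim φ = 2 ∧ x ∈ X.K.cell φ ∧ X.K.cell φ ⊆ X.K.bd c := by
  obtain ⟨j, hj, hs⟩ := X.K.sub_bd c x hx
  obtain ⟨φ, h1, h2, h3⟩ := Man.exists_top (X.K.sub_bd c)
    (ConBall.conSphere (hc ▸ X.K.ball c : ConBall (2 + 1) _ _)).plMan hs
  exact ⟨φ, h3, h1 hj, h2⟩

/-- an open three-cell misses the frozen part -/
theorem ocell_notU {c : X.K.ι} (hc : X.K.dim c = 3) {x : E3} (hx : x ∈ X.K.ocell c) : x ∉ X.U :=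
  fun h => X.thin c hc ((X.sub.cell_subset hx ⟨X.K.cell_subset_carrier c hx.1, h⟩).trans
    inter_subset_right)

/-- an open three-cell is open in the ball -/
theorem ocell_nhds {c : X.K.ι} (hc : X.K.dim c = 3) {x : E3} (hx : x ∈ X.K.ocell c) :
    X.K.ocell c ∈ 𝓝[X.Ω] x := by
  have h1 : X.K.carrier ∈ 𝓝[X.Ω] x := by
    filter_upwards [mem_nhdsWithin_of_mem_nhds
      (X.U_cpt.isClosed.isOpen_compl.mem_nhds (ocell_notU hc hx)), self_mem_nhdsWithin] with y h1 h2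
      using (X.cover.ge h2).resolve_right h1
  exact inter_mem (nhdsWithin_le_of_mem h1
    (X.K.sub_carrier.cell_mem_nhdsWithin hx fun i _ _ => (X.dim_le i).trans hc.ge))
    (mem_nhdsWithin_of_mem_nhds ((X.K.isClosed_bd c).isOpen_compl.mem_nhds hx.2))

/-- near a point only the cells through this point are seen -/
theorem near_cell (x : E3) : ∀ᶠ y in 𝓝 x, ∀ c, y ∈ X.K.cell c → x ∈ X.K.cell c := by
  have := X.fin
  refine eventually_all.2 fun c => ?_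
  by_cases hx : x ∈ X.K.cell c
  · exact Eventually.of_forall fun _ _ => hx
  · filter_upwards [(X.K.isClosed_cell c).isOpen_compl.mem_nhds hx] with y hy h using absurd h hy

/-- every cell is a face of a three-cell -/
theorem exists_top (φ : X.K.ι) : ∃ c, X.K.dim c = 3 ∧ X.K.cell φ ⊆ X.K.cell c :=
  let ⟨x, hx⟩ := X.K.ocell_nonempty φ
  let ⟨c, h1, h2⟩ := X.top x (X.K.cell_subset_carrier φ hx.1)
  ⟨c, h1, X.K.cell_subset_of_mem hx h2⟩

/-! ### attached points -/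

theorem att_mem {𝓕 : Set X.K.ι} {i : X.ι} {x : E3} (h : Att X D 𝓕 i x) :
    x ∈ D i ∩ ⋃ φ ∈ 𝓕, X.K.cell φ :=
  let ⟨_, h1, _, h2, _⟩ := h; h1 h2

theorem att_of_conn {𝓕 : Set X.K.ι} {i : X.ι} {x y : E3} {c : Set E3} (h : Att X D 𝓕 i x)
    (hc : IsPreconnected c) (hs : c ⊆ D i ∩ ⋃ φ ∈ 𝓕, X.K.cell φ) (hx : x ∈ c) (hy : y ∈ c) :
    Att X D 𝓕 i y :=
  let ⟨Z, h1, h2, h3, h4⟩ := h
  ⟨Z ∪ c, union_subset h1 hs, h2.union x h3 hx hc, Or.inr hy,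
    h4.mono (inter_subset_inter_left _ subset_union_left)⟩

/-- frozen points on faces are attached -/
theorem att_frozen {𝓕 : Set X.K.ι} {i : X.ι} {x : E3} {φ : X.K.ι} (hφ : φ ∈ 𝓕) (h1 : x ∈ D i)
    (h2 : x ∈ X.K.cell φ) (h3 : x ∈ X.U) : Att X D 𝓕 i x :=
  ⟨{x}, singleton_subset_iff.2 ⟨h1, mem_biUnion hφ h2⟩, isPreconnected_singleton, rfl, x, rfl, h3⟩

/-- the frozen part of a wall is connected -/
theorem W_conn (h : State Fr D) (i : X.ι) : IsConnected (Fr.nb i).W := by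
  have hW := A12.circle_isConnected (h.disc i).isCircleD
  obtain ⟨w, hw⟩ := hW.nonempty
  refine ⟨⟨w, hw.1⟩, isPreconnected_of_forall w fun y hy => ?_⟩
  obtain ⟨Z, h1, h2, h3, z, h4, h5⟩ := Fr.nb_att i y hy
  exact ⟨Z ∪ (Fr.nb i).W ∩ X.bd, union_subset h1 inter_subset_left, Or.inr hw, Or.inl h3,
    h2.union z h4 ⟨h1 h4, h5⟩ hW.isPreconnected⟩

/-- the attached part is connected -/
theorem att_conn (h : State Fr D) (i : X.ι) :
    IsPreconnected ({x | Att X D X.faces i x} ∪ (Fr.nb i).W) := by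
  have hW := W_conn h i
  obtain ⟨w, hw⟩ := hW.nonempty
  refine isPreconnected_of_forall w ?_
  rintro y (⟨Z, h1, h2, h3, z, h4, h5⟩ | hy)
  · exact ⟨Z ∪ (Fr.nb i).W, union_subset_union_left _ fun x hx => ⟨Z, h1, h2, hx, z, h4, h5⟩,
      Or.inr hw, Or.inl h3, h2.union z h4 ((h.frozen i).le ⟨(h1 h4).1, h5⟩) hW.isPreconnected⟩
  · exact ⟨_, subset_union_right, hw, hy, hW.isPreconnected⟩

/-- the components of the traces -/
structure Cmp (X : Base) (D : X.ι → Set E3) where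
  /-- the components -/
  C : X.ι → X.K.ι → Finset (Set E3)
  eq : ∀ i φ, X.K.dim φ = 2 → D i ∩ X.K.cell φ = ⋃ c ∈ C i φ, c
  disj : ∀ i φ, X.K.dim φ = 2 → ∀ c ∈ C i φ, ∀ c' ∈ C i φ, c ≠ c' → Disjoint c c'
  typ : ∀ i φ, X.K.dim φ = 2 → ∀ c ∈ C i φ,
    (IsCircle c ∧ Disjoint c (X.K.bd φ)) ∨ ∃ p q, IsArc c p q ∧ c ∩ X.K.bd φ = {p, q}

theorem exists_cmp (h : State Fr D) : Nonempty (Cmp X D) := by
  have h1 := h.lev
  unfold Lev at h1
  choose! C h1 h2 h3 using h1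
  exact ⟨⟨C, h1, h2, h3⟩⟩

namespace Cmp

variable (G : Cmp X D) {i : X.ι} {φ : X.K.ι} {c : Set E3} {x : E3}

theorem sub (hφ : X.K.dim φ = 2) (hc : c ∈ G.C i φ) : c ⊆ D i ∩ X.K.cell φ :=
  fun _ hx => (G.eq i φ hφ).ge (mem_biUnion hc hx)

theorem sub' (hφ : X.K.dim φ = 2) (hc : c ∈ G.C i φ) : c ⊆ D i ∩ ⋃ φ ∈ X.faces, X.K.cell φ :=
  fun _ hx => ⟨(G.sub hφ hc hx).1, mem_biUnion hφ (G.sub hφ hc hx).2⟩

theorem mem (hφ : X.K.dim φ = 2) (h1 : x ∈ D i) (h2 : x ∈ X.K.cell φ) : ∃ c ∈ G.C i φ, x ∈ c := by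
  simpa only [mem_iUnion, exists_prop] using (G.eq i φ hφ).le ⟨h1, h2⟩

theorem conn (hφ : X.K.dim φ = 2) (hc : c ∈ G.C i φ) : IsConnected c := by
  rcases G.typ i φ hφ c hc with h | ⟨p, q, h, -⟩
  exacts [A12.circle_isConnected h.1, h.isConnected]

theorem closed (hφ : X.K.dim φ = 2) (hc : c ∈ G.C i φ) : IsClosed c := by
  rcases G.typ i φ hφ c hc with h | ⟨p, q, h, -⟩
  exacts [h.1.isCompact.isClosed, h.isClosed]

theorem near (i : X.ι) (x : E3) :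
    ∀ᶠ y in 𝓝 x, ∀ φ, X.K.dim φ = 2 → ∀ c ∈ G.C i φ, y ∈ c → x ∈ c := by
  have := X.fin
  refine eventually_all.2 fun φ => eventually_all.2 fun hφ =>
    (eventually_all_finset _).2 fun c hc => ?_
  by_cases hx : x ∈ c
  · exact Eventually.of_forall fun _ _ => hx
  · filter_upwards [(G.closed hφ hc).isOpen_compl.mem_nhds hx] with y hy h using absurd h hy

/-- a component inside an open face is open and closed in the trace -/
theorem sub_of_conn (hφ : X.K.dim φ = 2) (hc : c ∈ G.C i φ) (ho : c ⊆ X.K.ocell φ) {Z : Set E3}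
    (z1 : Z ⊆ D i ∩ ⋃ φ ∈ X.faces, X.K.cell φ) (z2 : IsPreconnected Z) (z3 : x ∈ Z) (hx : x ∈ c) :
    Z ⊆ c := by
  have := X.fin
  have hR : IsClosed (⋃ ψ, ⋃ (_ : X.K.dim ψ = 2), ⋃ c' ∈ G.C i ψ, ⋃ (_ : Disjoint c c'), c') :=
    isClosed_iUnion_of_finite fun ψ => isClosed_iUnion_of_finite fun hψ =>
      isClosed_biUnion_finset fun c' hc' => isClosed_iUnion_of_finite fun _ => G.closed hψ hc'
  have hd : ∀ y ∈ c,
      y ∉ ⋃ ψ, ⋃ (_ : X.K.dim ψ = 2), ⋃ c' ∈ G.C i ψ, ⋃ (_ : Disjoint c c'), c' := by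
    intro y hy hy'
    simp only [mem_iUnion] at hy'
    obtain ⟨ψ, -, c', -, h3, h4⟩ := hy'
    exact disjoint_left.1 h3 hy h4
  refine (isPreconnected_iff_subset_of_disjoint_closed.1 z2 _ _ (G.closed hφ hc) hR
    (fun y hy => ?_) (eq_empty_of_forall_notMem fun y hy => hd y hy.2.1 hy.2.2)).resolve_right
    fun h3 => hd x hx (h3 z3)
  obtain ⟨ψ, hψ, h3⟩ := mem_iUnion₂.1 (z1 hy).2
  obtain ⟨c', h4, h5⟩ := G.mem hψ (z1 hy).1 h3
  by_cases e : c = c'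
  · exact Or.inl (e ▸ h5)
  refine Or.inr (mem_iUnion₂.2 ⟨ψ, hψ, mem_iUnion₂.2 ⟨c', h4, mem_iUnion.2 ⟨?_, h5⟩⟩⟩)
  by_cases e' : φ = ψ
  · subst e'
    exact G.disj i φ hφ c hc c' h4 e
  · exact (X.K.disjoint_ocell_cell fun h6 => e' (X.K.eq_of_subset_of_dim_le h6
      (hφ ▸ le_of_eq hψ))).mono ho fun y hy => (G.sub hψ h4 hy).2

/-- circles in the faces are not attached -/
theorem not_att (h : State Fr D) (hφ : X.K.dim φ = 2) (hc : c ∈ G.C i φ)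
    (h2 : Disjoint c (X.K.bd φ)) (hx : x ∈ c) : ¬ Att X D X.faces i x := by
  rintro ⟨Z, z1, z2, z3, y, z4, z5⟩
  have ho : c ⊆ X.K.ocell φ := fun y hy => ⟨(G.sub hφ hc hy).2, disjoint_left.1 h2 hy⟩
  have hy := G.sub_of_conn hφ hc ho z1 z2 z3 hx z4
  obtain ⟨Z', w1, w2, w3, w, w4, w5⟩ := Fr.nb_arc i φ hφ y
    ⟨(h.frozen i).le ⟨(z1 z4).1, z5⟩, ho hy⟩
  exact disjoint_left.1 h2 (G.sub_of_conn hφ hc ho (fun v hv =>
    ⟨((h.frozen i).ge (w1 hv).1).1, mem_biUnion hφ (w1 hv).2⟩) w2 w3 hy w4) w5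

end Cmp

/-- the attached part is open in the trace -/
theorem att_open (h : State Fr D) {i : X.ι} {x : E3} (hx : Att X D X.faces i x) :
    ∀ᶠ y in 𝓝 x, ∀ φ, X.K.dim φ = 2 → y ∈ D i → y ∈ X.K.cell φ → Att X D X.faces i y := by
  obtain ⟨G⟩ := exists_cmp h
  filter_upwards [G.near i x] with y hy φ hφ h1 h2
  obtain ⟨c, h3, h4⟩ := G.mem hφ h1 h2
  exact att_of_conn hx (G.conn hφ h3).isPreconnected (G.sub' hφ h3) (hy φ hφ c h3 h4) h4

/-- the attached arcs -/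
structure Tr1 (X : Base) (D : X.ι → Set E3) where
  /-- arcs -/
  α : Type
  finα : Finite α
  /-- the wall of an arc -/
  lab : α → X.ι
  /-- the face of an arc -/
  face : α → X.K.ι
  /-- the arc -/
  A : α → Set E3
  /-- first end -/
  p : α → E3
  /-- second end -/
  q : α → E3
  dim_face : ∀ a, X.K.dim (face a) = 2
  arc : ∀ a, IsArc (A a) (p a) (q a)
  sub : ∀ a, A a ⊆ D (lab a) ∩ X.K.cell (face a)
  ends : ∀ a, A a ∩ X.K.bd (face a) = {p a, q a}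
  disj : ∀ a a', a ≠ a' → face a = face a' → lab a = lab a' → Disjoint (A a) (A a')
  sat : ∀ a φ, X.K.dim φ = 2 → ∀ x ∈ A a, x ∈ X.K.cell φ →
    ∃ a', face a' = φ ∧ lab a' = lab a ∧ x ∈ A a'
  att : ∀ a, ∀ x ∈ A a, Att X D X.faces (lab a) x
  full : ∀ i x, Att X D X.faces i x → ∃ a, lab a = i ∧ x ∈ A a

theorem exists_tr1 (h : State Fr D) : Nonempty (Tr1 X D) := by
  have := X.fin
  have := X.finι
  obtain ⟨G⟩ := exists_cmp h
  let α := {a : Σ (i : X.ι) (φ : X.K.ι), {c // c ∈ G.C i φ} //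
    X.K.dim a.2.1 = 2 ∧ ∀ x ∈ a.2.2.1, Att X D X.faces a.1 x}
  have h1 : ∀ a : α, ∃ p q, IsArc a.1.2.2.1 p q ∧ a.1.2.2.1 ∩ X.K.bd a.1.2.1 = {p, q} := by
    rintro ⟨⟨i, φ, c, hc⟩, hφ, ha⟩
    refine (G.typ i φ hφ c hc).resolve_left fun h2 => ?_
    obtain ⟨x, hx⟩ := (G.conn hφ hc).nonempty
    exact G.not_att h hφ hc h2.2 hx (ha x hx)
  choose p q h1 h2 using h1
  have key : ∀ i φ x, X.K.dim φ = 2 → x ∈ X.K.cell φ → Att X D X.faces i x →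
      ∃ a : α, a.1.2.1 = φ ∧ a.1.1 = i ∧ x ∈ a.1.2.2.1 := by
    intro i φ x hφ h3 h4
    obtain ⟨c, h5, h6⟩ := G.mem hφ (att_mem h4).1 h3
    exact ⟨⟨⟨i, φ, c, h5⟩, hφ, fun y hy => att_of_conn h4 (G.conn hφ h5).isPreconnected
      (G.sub' hφ h5) h6 hy⟩, rfl, rfl, h6⟩
  refine ⟨⟨α, inferInstance, fun a => a.1.1, fun a => a.1.2.1, fun a => a.1.2.2.1, p, q,
    fun a => a.2.1, h1, fun a => G.sub a.2.1 a.1.2.2.2, h2, ?_,
    fun a φ hφ x hx h3 => key _ φ x hφ h3 (a.2.2 x hx), fun a => a.2.2, fun i x hx => ?_⟩⟩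
  · rintro ⟨⟨i, φ, c, hc⟩, hφ, ha⟩ ⟨⟨i', φ', c', hc'⟩, hφ', ha'⟩ hne (rfl : φ = φ') (rfl : i = i')
    refine G.disj i φ hφ c hc c' hc' ?_
    rintro rfl
    exact hne rfl
  · obtain ⟨φ, hφ, h3⟩ := mem_iUnion₂.1 (att_mem hx).2
    obtain ⟨a, -, h4, h5⟩ := key i φ x hφ h3 hx
    exact ⟨a, h4, h5⟩

end Trc

end P073.Wb
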