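import Vale.Agent.P073Y.Wb.Sk
import Vale.Agent.P073Y.Bd.Bas
import Vale.Agent.P073Y.Bd.Glue
import Vale.Agent.P073Y.Cut.All

/-!
# How the local bands of one wall fit together
-/

open Set Metric Topology Filter
open scoped NNReal

namespace P073.Wb.Wa

open P073.Bd (Band I cl Match Sgn Comm Ext)
open P073.Bd

/-! ### agreement at a point -/

/-- the two bands agree up to sign at `x` -/
def MAt {E : Type} (b b' : Band E) (x : E) : Prop := ∃ ε : ℝ, (ε = 1 ∨ ε = -1) ∧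
  b'.u x = ε * b.u x ∧ ∀ s ∈ I, b'.M (x, ε * s) = b.M (x, s)

section

variable {E : Type} {b b' b'' : Band E} {x : E}

theorem MAt.of_eq (hu : b'.u = b.u) (hM : b'.M = b.M) (x : E) : MAt b b' x :=
  ⟨1, Or.inl rfl, by rw [hu, one_mul], fun s _ => by rw [hM, one_mul]⟩

theorem MAt.symm (h : MAt b b' x) : MAt b' b x := by
  obtain ⟨ε, hε, h1, h2⟩ := h
  exact ⟨ε, hε, by rw [h1, Glue.smul2 hε],
    fun s hs => by rw [← h2 _ (Glue.smem hε hs), Glue.smul2 hε]⟩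

theorem MAt.trans (h : MAt b b' x) (h' : MAt b' b'' x) : MAt b b'' x := by
  obtain ⟨ε, hε, h1, h2⟩ := h
  obtain ⟨δ, hδ, h3, h4⟩ := h'
  refine ⟨δ * ε, ?_, by rw [h3, h1, mul_assoc], fun s hs => ?_⟩
  · rcases hε with rfl | rfl <;> rcases hδ with rfl | rfl <;> simp
  · rw [mul_assoc, h4 _ (Glue.smem hε hs), h2 s hs]

theorem MAt.half (h : MAt b b' x) : MAt b.half b'.half x := by
  obtain ⟨ε, hε, h1, h2⟩ := h
  refine ⟨ε, hε, ?_, fun s hs => ?_⟩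
  · change cl (2 * b'.u x) = ε * cl (2 * b.u x)
    rw [h1, mul_left_comm, Bas1.cl_sgn hε]
  · change b'.M (x, ε * s / 2) = b.M (x, s / 2)
    rw [mul_div_assoc, h2 _ (Bas1.half_mem hs)]

theorem MAt.abs (h : MAt b b' x) : |b'.u x| = |b.u x| := by
  obtain ⟨ε, hε, h1, -⟩ := h
  rw [h1, Glue.sabs hε]

theorem MAt.mem_half (h : MAt b b' x) (hx : x ∈ b.half.B) (hx' : x ∈ b'.B) : x ∈ b'.half.B :=
  ⟨hx', h.abs.trans_le hx.2⟩

theorem MAt.mem_W (h : MAt b b' x) (hx : x ∈ b.W) (hx' : x ∈ b'.B) : x ∈ b'.W :=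
  ⟨hx', abs_eq_zero.1 (h.abs.trans (abs_eq_zero.2 hx.2))⟩

end

/-! ### the complex and the frozen part -/

variable {X : Base} {c₀ : ℝ≥0} {Fr : Frame X c₀} {D : X.ι → Set E3}

theorem cell_sub_U {c : X.K.ι} {x : E3} (hx : x ∈ X.K.ocell c) (hU : x ∈ X.U) :
    X.K.cell c ⊆ X.U :=
  (X.sub.cell_subset hx ⟨X.K.cell_subset_carrier c hx.1, hU⟩).trans inter_subset_right

theorem mem_bd_of_U {c : X.K.ι} (hc : ¬ X.K.cell c ⊆ X.U) {x : E3} (hx : x ∈ X.K.cell c)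
    (hU : x ∈ X.U) : x ∈ X.K.bd c := by
  by_contra hb
  exact hc (cell_sub_U ⟨hx, hb⟩ hU)

theorem cell_sub_Ω (c : X.K.ι) : X.K.cell c ⊆ X.Ω :=
  X.cover ▸ (X.K.cell_subset_carrier c).trans subset_union_left

theorem U_sub_Ω : X.U ⊆ X.Ω := X.cover ▸ subset_union_right

theorem ball3 {c : X.K.ι} (hc : X.K.dim c = 3) : ConBall 3 (X.K.cell c) (X.K.bd c) := by
  have h := X.K.ball c
  rwa [hc] at h

theorem ocell_open {c : X.K.ι} (hc : X.K.dim c = 3) : IsOpen (X.K.ocell c) :=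
  (jb.ball_open (ball3 hc)).1

/-- a cell in the boundary of a top cell lies in a face of it -/
theorem exists_face {c j : X.K.ι} (hc : X.K.dim c = 3) (h : X.K.cell j ⊆ X.K.bd c) :
    ∃ φ, X.K.dim φ = 2 ∧ X.K.cell j ⊆ X.K.cell φ ∧ X.K.cell φ ⊆ X.K.cell c := by
  obtain ⟨φ, h1, h2, h3⟩ := (man X.K (X.K.sub_bd c) (ball3 hc).conSphere.plMan).2.1 j h
  exact ⟨φ, h3, h1, h2.trans (X.K.bd_subset c)⟩

theorem exists_top (j : X.K.ι) : ∃ c, X.K.dim c = 3 ∧ X.K.cell j ⊆ X.K.cell c := by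
  obtain ⟨x, hx⟩ := X.K.ocell_nonempty j
  obtain ⟨c, h1, h2⟩ := X.top x (X.K.cell_subset_carrier j hx.1)
  exact ⟨c, h1, X.K.cell_subset_of_mem hx h2⟩

/-- a point of a half zone lies in the open wire of the centre -/
theorem zone_wire {y x : E3} (hy : y ∈ Fr.P) (hx : x ∈ (Fr.z y).half.B) :
    ∃ e, X.K.dim e = 1 ∧ x ∈ X.K.ocell e ∧ y ∈ X.K.ocell e := by
  obtain ⟨e, h1, -, -, h2, h3, -⟩ := Fr.wire y hy
  exact ⟨e, h1, h2 hx.1, h2 (show y ∈ (Fr.z y).W from h3 ▸ rfl).1⟩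

theorem zone_W {y : E3} (hy : y ∈ Fr.P) : (Fr.z y).half.W = {y} := by
  obtain ⟨e, -, -, -, -, h3, -⟩ := Fr.wire y hy
  rw [Bas1.half_W, h3]

theorem zone_eq {y y' x : E3} (hy : y ∈ Fr.P) (hy' : y' ∈ Fr.P) (hx : x ∈ (Fr.z y).half.B)
    (hx' : x ∈ (Fr.z y').half.B) : y = y' := by
  by_contra h
  exact disjoint_left.1 (Fr.zdisj y hy y' hy' h) hx.1 hx'.1

/-! ### arcs -/

variable {T : Trace Fr D} {β : T.α → Band E3} {γ : T.κ → Band E3}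

theorem end_mem {a : T.α} {y : E3} (hy : y ∈ ({T.p a, T.q a} : Set E3)) :
    y ∈ T.A a ∧ y ∈ X.K.bd (T.face a) := by
  rwa [← T.ends a] at hy

theorem end_P (hS : State Fr D) {a : T.α} {y : E3} (hy : y ∈ ({T.p a, T.q a} : Set E3)) :
    y ∈ Fr.P :=
  hS.wire _ ⟨(T.sub a (end_mem hy).1).1,
    X.K.bd_subset_skel (k := 1) (T.dim_face a).le (end_mem hy).2⟩

theorem zone_sub (hF : Faces T β) {a : T.α} {y : E3} (hy : y ∈ ({T.p a, T.q a} : Set E3)) :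
    (Fr.z y).half.B ⊆ (β a).B ∧ Match (Fr.z y).half (β a) := by
  have h := hF.bd a
  rcases hy with rfl | rfl
  · exact ⟨fun x hx => (h.ge (Or.inl hx)).1, (hF.mt a).1⟩
  · exact ⟨fun x hx => (h.ge (Or.inr hx)).1, (hF.mt a).2⟩

theorem bd_zone (hF : Faces T β) {a : T.α} {x : E3} (hx : x ∈ (β a).B)
    (hb : x ∈ X.K.bd (T.face a)) : ∃ y ∈ ({T.p a, T.q a} : Set E3), x ∈ (Fr.z y).half.B := by
  rcases (hF.bd a).le ⟨hx, hb⟩ with h | h
  · exact ⟨_, Or.inl rfl, h⟩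
  · exact ⟨_, Or.inr rfl, h⟩

/-- the new arc meets the boundary of its face in its ends -/
theorem W_bd (hS : State Fr D) (hF : Faces T β) {a : T.α} {x : E3} (hx : x ∈ (β a).W)
    (hb : x ∈ X.K.bd (T.face a)) : x ∈ ({T.p a, T.q a} : Set E3) := by
  obtain ⟨y, hy, h⟩ := bd_zone hF hx.1 hb
  have h1 := MAt.mem_W (MAt.symm ((zone_sub hF hy).2 x h hx.1)) hx h
  rw [zone_W (end_P hS hy)] at h1
  exact h1 ▸ hy

theorem face_inter {a a' : T.α} (h : T.face a ≠ T.face a') {x : E3}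
    (hx : x ∈ X.K.cell (T.face a)) (hx' : x ∈ X.K.cell (T.face a')) : x ∈ X.K.bd (T.face a) :=
  X.K.inter_subset_bd h ((T.dim_face a').trans (T.dim_face a).symm).le ⟨hx, hx'⟩

theorem face_ne (hF : Faces T β) {a a' : T.α} (hne : a ≠ a') (hl : T.lab a = T.lab a') {x : E3}
    (hx : x ∈ (β a).B) (hx' : x ∈ (β a').B) : T.face a ≠ T.face a' := fun h =>
  disjoint_left.1 (hF.disj a a' hne h (T.disj a a' hne h hl)) hx hx'

/-- bands of arcs of the same wall match -/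
theorem match_arc (hS : State Fr D) (hF : Faces T β) {a a' : T.α} (hl : T.lab a = T.lab a') :
    Match (β a) (β a') := by
  intro x hx hx'
  by_cases hne : a = a'
  · subst hne
    exact MAt.of_eq rfl rfl x
  have hf := face_ne hF hne hl hx hx'
  obtain ⟨y, hy, h⟩ := bd_zone hF hx (face_inter hf ((hF.ok a).2.1 hx) ((hF.ok a').2.1 hx'))
  obtain ⟨y', hy', h'⟩ := bd_zone hF hx'
    (face_inter hf.symm ((hF.ok a').2.1 hx') ((hF.ok a).2.1 hx))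
  obtain rfl := zone_eq (end_P hS hy) (end_P hS hy') h h'
  exact MAt.trans (MAt.symm ((zone_sub hF hy).2 x h hx)) ((zone_sub hF hy').2 x h' hx')

/-- on the frozen part the bands of the arcs match the given band -/
theorem match_nb (hS : State Fr D) (hF : Faces T β) {a : T.α} {x : E3} (hx : x ∈ (β a).B)
    (hU : x ∈ X.U) : x ∈ (Fr.nb (T.lab a)).B ∧ MAt (β a) (Fr.nb (T.lab a)) x := by
  by_cases hc : X.K.cell (T.face a) ⊆ X.U
  · rw [(hF.nat a hc).1] at hx ⊢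
    exact ⟨hx.1.1, MAt.of_eq rfl rfl x⟩
  · obtain ⟨y, hy, h⟩ := bd_zone hF hx (mem_bd_of_U hc ((hF.ok a).2.1 hx) hU)
    obtain ⟨e, -, h1, h2⟩ := zone_wire (end_P hS hy) h
    have h3 : y ∈ (Fr.nb (T.lab a)).W :=
      (hS.frozen _).le ⟨(T.sub a (end_mem hy).1).1, cell_sub_U h1 hU h2.1⟩
    obtain ⟨h4, h5⟩ := Fr.nb_match _ y ⟨end_P hS hy, h3⟩
    exact ⟨h4 h, MAt.trans (MAt.symm ((zone_sub hF hy).2 x h hx)) (h5 x h (h4 h))⟩

/-- an arc through a point of a wire continues in every face at this wire -/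
theorem spread_zone (hF : Faces T β) {a : T.α} {y x : E3} (hy : y ∈ Fr.P) (hA : y ∈ T.A a)
    (hx : x ∈ (Fr.z y).half.B) {c : X.K.ι} (hc : X.K.dim c = 3) (hxc : x ∈ X.K.cell c) :
    ∃ a', T.lab a' = T.lab a ∧ X.K.cell (T.face a') ⊆ X.K.cell c ∧ x ∈ (β a').B := by
  obtain ⟨e, h1, h2, h3⟩ := zone_wire hy hx
  obtain ⟨φ, h4, h5, h6⟩ := exists_face hc
    (X.K.subset_bd_of_dim_lt (X.K.cell_subset_of_mem h2 hxc) (by omega))
  obtain ⟨a', rfl, h7, h8⟩ := T.sat a φ h4 y hA (h5 h3.1)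
  have h9 : y ∈ X.K.bd (T.face a') :=
    X.K.subset_bd_of_dim_lt h5 (by omega) h3.1
  exact ⟨a', h7, h6, (zone_sub hF ((T.ends a').le ⟨h8, h9⟩)).1 hx⟩

theorem spread (hS : State Fr D) (hF : Faces T β) {a : T.α} {x : E3} (hx : x ∈ (β a).B)
    {c : X.K.ι} (hc : X.K.dim c = 3) (hxc : x ∈ X.K.cell c) :
    ∃ a', T.lab a' = T.lab a ∧ X.K.cell (T.face a') ⊆ X.K.cell c ∧ x ∈ (β a').B := by
  by_cases hb : x ∈ X.K.bd (T.face a)
  · obtain ⟨y, hy, h⟩ := bd_zone hF hx hb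
    exact spread_zone hF (end_P hS hy) (end_mem hy).1 h hc hxc
  · exact ⟨a, rfl, X.K.cell_subset_of_mem ⟨(hF.ok a).2.1 hx, hb⟩ hxc, hx⟩

theorem arc_of_frozen (hS : State Fr D) {i : X.ι} {y : E3} (hy : y ∈ (Fr.nb i).W) {φ : X.K.ι}
    (hφ : X.K.dim φ = 2) (h : y ∈ X.K.cell φ) : ∃ a, T.face a = φ ∧ T.lab a = i ∧ y ∈ T.A a := by
  have h1 := (hS.frozen i).ge hy
  obtain ⟨a, rfl, h2⟩ := T.full i y ⟨{y}, singleton_subset_iff.2 ⟨h1.1, mem_biUnion hφ h⟩,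
    isPreconnected_singleton, rfl, y, rfl, h1.2⟩
  exact T.sat a φ hφ y h2 h

theorem spread_nb (hS : State Fr D) (hF : Faces T β) {i : X.ι} {x : E3} (hx : x ∈ (Fr.nb i).B)
    {c : X.K.ι} (hc : X.K.dim c = 3) (hxc : x ∈ X.K.cell c) :
    ∃ a, T.lab a = i ∧ X.K.cell (T.face a) ⊆ X.K.cell c ∧ x ∈ (β a).B := by
  have hU := (Fr.nb_on i).sub hx
  obtain ⟨j, h1, h2, -⟩ := X.K.exists_face_bd (mem_bd_of_U (X.thin c hc) hxc hU)
  obtain ⟨φ, h3, h4, h5⟩ := exists_face hc h2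
  by_cases hj : X.K.dim j ≤ 1
  · obtain ⟨y, hy, h⟩ := Fr.nb_wire i x ⟨hx, X.K.cell_subset_skel hj h1.1⟩
    obtain ⟨e, -, h6, h7⟩ := zone_wire hy.1 h
    obtain rfl := X.K.ocell_unique h1 h6
    obtain ⟨a, -, rfl, h8⟩ := arc_of_frozen (T := T) hS hy.2 h3 (h4 h7.1)
    exact spread_zone hF hy.1 h8 h hc hxc
  · obtain rfl := X.K.eq_of_subset_of_dim_le h4 (by omega)
    obtain ⟨a, rfl, rfl, h8⟩ := arc_of_frozen (T := T) hS (Bas2.M_mem_W (Fr.nb_on i).ok hx) h3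
      (Fr.nb_keep i _ x hx 0 Bas2.zero_mem_I h1.1)
    refine ⟨a, rfl, h5, ?_⟩
    rw [(hF.nat a (cell_sub_U h1 hU)).1]
    exact ⟨⟨hx, h1.1⟩, h8⟩

/-! ### cups -/

theorem cup_bd (hC : Cells T β γ) {k : T.κ} {x : E3} (hx : x ∈ (γ k).B)
    (hb : x ∈ X.K.bd (T.cel k)) : ∃ a ∈ T.s k, x ∈ (β a).half.B ∧ MAt (β a).half (γ k) x := by
  obtain ⟨a, ha, h⟩ := mem_iUnion₂.1 ((hC.bd k).le ⟨hx, hb⟩)
  exact ⟨a, ha, h, hC.mt k a ha x h hx⟩

theorem cup_W_bd (hC : Cells T β γ) {k : T.κ} {x : E3} (hx : x ∈ (γ k).W)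
    (hb : x ∈ X.K.bd (T.cel k)) : x ∈ ⋃ a ∈ T.s k, (β a).W := by
  obtain ⟨a, ha, h1, h2⟩ := cup_bd hC hx.1 hb
  exact mem_biUnion ha (Bas1.half_W (β a) ▸ h2.symm.mem_W hx h1)

theorem half_sub_cup (hC : Cells T β γ) {a : T.α} {c : X.K.ι} (hc : X.K.dim c = 3)
    (h : X.K.cell (T.face a) ⊆ X.K.cell c) :
    ∃ k, T.clab k = T.lab a ∧ T.cel k = c ∧ a ∈ T.s k ∧ (β a).half.B ⊆ (γ k).B := by
  obtain ⟨k, h1, h2⟩ := T.cover a c hc h
  exact ⟨k, (T.mem_s k a h2).1.symm, h1, h2, fun x hx => ((hC.bd k).ge (mem_biUnion h2 hx)).1⟩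

theorem cel_ne (hC : Cells T β γ) {k l : T.κ} (hne : k ≠ l) (hl : T.clab k = T.clab l) {x : E3}
    (hx : x ∈ (γ k).B) (hx' : x ∈ (γ l).B) : x ∈ X.K.bd (T.cel k) :=
  X.K.inter_subset_bd (fun h => disjoint_left.1 (hC.disj k l hne h (by rw [hl])) hx hx')
    ((T.dim_cel l).trans (T.dim_cel k).symm).le ⟨(hC.on k).sub hx, (hC.on l).sub hx'⟩

theorem cup_U (hC : Cells T β γ) {k : T.κ} {x : E3} (hx : x ∈ (γ k).B) (hU : x ∈ X.U) :
    x ∈ X.K.bd (T.cel k) := mem_bd_of_U (X.thin _ (T.dim_cel k)) ((hC.on k).sub hx) hU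

/-- cups of the same wall match -/
theorem match_cup (hS : State Fr D) (hF : Faces T β) (hC : Cells T β γ) {k l : T.κ}
    (hl : T.clab k = T.clab l) : Match (γ k) (γ l) := by
  intro x hx hx'
  by_cases hne : k = l
  · subst hne
    exact MAt.of_eq rfl rfl x
  obtain ⟨a, ha, h1, h2⟩ := cup_bd hC hx (cel_ne hC hne hl hx hx')
  obtain ⟨a', ha', h3, h4⟩ := cup_bd hC hx' (cel_ne hC (Ne.symm hne) hl.symm hx' hx)
  have h5 : T.lab a = T.lab a' := by rw [(T.mem_s k a ha).1, (T.mem_s l a' ha').1, hl]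
  exact (h2.symm.trans (MAt.half (match_arc hS hF h5 x h1.1 h3.1))).trans h4

/-- on the frozen part the cups match the given band -/
theorem cup_nb (hS : State Fr D) (hF : Faces T β) (hC : Cells T β γ) {k : T.κ} {x : E3}
    (hx : x ∈ (γ k).B) (hU : x ∈ X.U) :
    x ∈ (Fr.nb (T.clab k)).half.B ∧ MAt (γ k) (Fr.nb (T.clab k)).half x := by
  obtain ⟨a, ha, h1, h2⟩ := cup_bd hC hx (cup_U hC hx hU)
  obtain ⟨h3, h4⟩ := match_nb hS hF h1.1 hU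
  rw [(T.mem_s k a ha).1] at h3 h4
  exact ⟨h4.mem_half h1 h3, h2.symm.trans h4.half⟩

theorem cup_spread (hS : State Fr D) (hF : Faces T β) (hC : Cells T β γ) {k : T.κ} {x : E3}
    (hx : x ∈ (γ k).B) {c : X.K.ι} (hc : X.K.dim c = 3) (hxc : x ∈ X.K.cell c) :
    ∃ l, T.clab l = T.clab k ∧ T.cel l = c ∧ x ∈ (γ l).B := by
  by_cases h : T.cel k = c
  · exact ⟨k, rfl, h, hx⟩
  obtain ⟨a, ha, h1, -⟩ := cup_bd hC hx (X.K.inter_subset_bd h (hc.trans (T.dim_cel k).symm).le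
    ⟨(hC.on k).sub hx, hxc⟩)
  obtain ⟨a', h2, h3, h4⟩ := spread hS hF h1.1 hc hxc
  obtain ⟨l, h5, h6, -, h7⟩ := half_sub_cup hC hc h3
  exact ⟨l, h5.trans (h2.trans (T.mem_s k a ha).1), h6,
    h7 (MAt.mem_half (match_arc hS hF h2.symm x h1.1 h4) h1 h4)⟩

theorem nb_spread (hS : State Fr D) (hF : Faces T β) (hC : Cells T β γ) {i : X.ι} {x : E3}
    (hx : x ∈ (Fr.nb i).half.B) {c : X.K.ι} (hc : X.K.dim c = 3) (hxc : x ∈ X.K.cell c) :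
    ∃ l, T.clab l = i ∧ T.cel l = c ∧ x ∈ (γ l).B := by
  obtain ⟨a, rfl, h3, h4⟩ := spread_nb hS hF hx.1 hc hxc
  obtain ⟨l, h5, h6, -, h7⟩ := half_sub_cup hC hc h3
  exact ⟨l, h5, h6, h7 ((match_nb hS hF h4 ((Fr.nb_on _).sub hx.1)).2.symm.mem_half hx h4)⟩

end P073.Wb.Wa
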